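import Vale.Agent.P076N.TB.Spec

/-!
# P076N / TB : the row BK, the new plate in the old coordinates
-/

set_option linter.all false

open Finset Vale.Agent.P127 Vale.Agent.P127.Stk
open scoped RealInnerProductSpace

namespace Vale.Agent.P076N.TB

namespace BKx

variable {n : ℕ}

/-- the common kernel of two orthogonal functionals -/
theorem ker2 (ν ρ : Vc n) (v v' : ℝ) (hν : ‖ν‖ = 1) (hρ : 1 / 2 ≤ ‖ρ‖) (ho : ⟪ν, ρ⟫ = 0) :
    ∃ L : Submodule ℝ (Vc n × ℝ), Module.finrank ℝ L ≤ n - 1 ∧ ∀ (u : Vc n) (τ : ℝ), |⟪ν, u⟫ - v| ≤ 2 * τ →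
      |⟪ρ, u⟫ - v'| ≤ 2 * τ → Near L (6 * τ) (u, 1) := by
  have h0 : 0 < ‖ρ‖ := by linarith
  have h1 : ⟪ν, ν⟫ = 1 := by rw [real_inner_self_eq_norm_sq, hν, one_pow]
  have h2 : ⟪ρ, ρ⟫ = ‖ρ‖ ^ 2 := real_inner_self_eq_norm_sq ρ
  have h3 : ⟪ρ, ν⟫ = 0 := by rw [real_inner_comm, ho]
  let f : (Vc n × ℝ) →ₗ[ℝ] ℝ × ℝ :=
    { toFun := fun z => (⟪ν, z.1⟫ - v * z.2, ⟪ρ, z.1⟫ - v' * z.2)
      map_add' := fun a b => by
        simp only [Prod.fst_add, Prod.snd_add, inner_add_right, Prod.mk_add_mk, Prod.mk.injEq]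
        constructor <;> ring
      map_smul' := fun c a => by
        simp only [Prod.smul_fst, Prod.smul_snd, real_inner_smul_right, smul_eq_mul, RingHom.id_apply,
          Prod.smul_mk, Prod.mk.injEq]
        constructor <;> ring }
  have hf : ∀ z, f z = (⟪ν, z.1⟫ - v * z.2, ⟪ρ, z.1⟫ - v' * z.2) := fun z => rfl
  refine ⟨LinearMap.ker f, ?_, fun u τ a1 a2 => ?_⟩
  · have a1 : LinearMap.range f = ⊤ := by
      refine LinearMap.range_eq_top.2 fun y => ⟨(y.1 • ν + (y.2 / ‖ρ‖ ^ 2) • ρ, 0), ?_⟩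
      rw [hf]
      simp only [inner_add_right, real_inner_smul_right, h1, h2, h3, ho]
      refine Prod.ext (by simp) ?_
      simp only [mul_zero, zero_add, sub_zero]
      field_simp
    have a2 := LinearMap.finrank_range_add_finrank_ker f
    rw [a1, finrank_top, Module.finrank_prod, Module.finrank_prod, finrank_euclideanSpace_fin,
      Module.finrank_self] at a2
    omega
  · refine ⟨(u - ((⟪ν, u⟫ - v) • ν + ((⟪ρ, u⟫ - v') / ‖ρ‖ ^ 2) • ρ), 1), ?_, ?_⟩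
    · rw [LinearMap.mem_ker, hf]
      simp only [inner_sub_right, inner_add_right, real_inner_smul_right, h1, h2, h3, ho]
      refine Prod.ext (by simp) ?_
      simp only [mul_zero, zero_add, mul_one, Prod.snd_zero]
      field_simp
      ring
    · rw [Prod.mk_sub_mk, sub_sub_cancel, sub_self, Prod.norm_mk, norm_zero, max_eq_left (norm_nonneg _)]
      refine (norm_add_le _ _).trans ?_
      rw [norm_smul, norm_smul, hν, mul_one, Real.norm_eq_abs, Real.norm_eq_abs, abs_div,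
        abs_of_pos (show 0 < ‖ρ‖ ^ 2 by positivity)]
      have a3 : |⟪ρ, u⟫ - v'| / ‖ρ‖ ^ 2 * ‖ρ‖ ≤ 4 * τ := by
        rw [div_mul_eq_mul_div, div_le_iff₀ (by positivity)]
        have a4 := abs_nonneg (⟪ρ, u⟫ - v')
        have a5 := mul_le_mul_of_nonneg_right a2 h0.le
        have a6 : 0 ≤ τ * ‖ρ‖ * (2 * ‖ρ‖ - 1) := mul_nonneg (mul_nonneg (by linarith) h0.le) (by linarith)
        nlinarith
      linarith

theorem core (p p' : Plt n) {A B τ m m' : ℝ} (hp : ‖p.1‖ = 1) (hp' : ‖p'.1‖ = 1) (hA : 0 < A) (hB : 0 < B)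
    (hτ : 0 < τ) (hτ' : τ ≤ 1 / 2) (hm : 0 ≤ m) (hm' : 0 ≤ m') (hmτ : m' ≤ τ) :
    ∃ (q : Plt n) (L : Submodule ℝ (Vc n × ℝ)), ‖q.1‖ = 1 ∧ Module.finrank ℝ L ≤ n - 1 ∧
      ∀ (x u : Vc n) (t h : ℝ), InP p (A / B) h x t u → InP p' m' m (rsx p A B x t) (A * t) (rsu p (B / A) u) →
        InP q (A * m' / (B * τ)) (m / (B * τ)) x t u ∨ Near L (6 * τ) (u, 1) := by
  obtain ⟨ν, v, b⟩ := p
  obtain ⟨ν', v', b'⟩ := p'
  simp only at hp hp'
  obtain ⟨c, hc⟩ : ∃ c, ⟪ν', ν⟫ = c := ⟨_, rfl⟩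
  obtain ⟨ρ, hρ⟩ : ∃ ρ, ρ = ν' - c • ν := ⟨_, rfl⟩
  obtain ⟨μ, hμ⟩ : ∃ μ, μ = A • ρ + (B * c) • ν := ⟨_, rfl⟩
  have h1 : ⟪ν, ν⟫ = 1 := by rw [real_inner_self_eq_norm_sq, hp, one_pow]
  have ho : ⟪ν, ρ⟫ = 0 := by
    rw [hρ, inner_sub_right, real_inner_smul_right, h1, real_inner_comm, hc]
    ring
  have eρ : ∀ y, ⟪ρ, y⟫ = ⟪ν', y⟫ - c * ⟪ν, y⟫ := fun y => by rw [hρ, inner_sub_left, real_inner_smul_left]
  have eμ : ∀ y, ⟪μ, y⟫ = A * ⟪ρ, y⟫ + B * c * ⟪ν, y⟫ := fun y => by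
    rw [hμ, inner_add_left, real_inner_smul_left, real_inner_smul_left]
  have ex : ∀ x t, ⟪ν', rsx (ν, v, b) A B x t⟫ - v' * (A * t) - b' =
      ⟪μ, x⟫ - (B * c * v + A * v') * t - (b' + B * c * b) := fun x t => by
    simp only [rsx, inner_add_right, inner_sub_right, real_inner_smul_right, hc, eμ, eρ]
    ring
  have eu : ∀ u, ⟪ν', rsu (ν, v, b) (B / A) u⟫ - v' = ⟪ρ, u⟫ - v' + c * (B / A * (⟪ν, u⟫ - v)) := fun u => by
    simp only [rsu, inner_add_right, inner_sub_right, real_inner_smul_right, hc, eρ]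
    ring
  by_cases hbig : B * τ ≤ ‖μ‖
  · have h0 : 0 < B * τ := by positivity
    have h0' : 0 < ‖μ‖ := h0.trans_le hbig
    refine ⟨(‖μ‖⁻¹ • μ, ‖μ‖⁻¹ * (B * c * v + A * v'), ‖μ‖⁻¹ * (b' + B * c * b)), ⊥,
      norm_smul_inv_norm (𝕜 := ℝ) (norm_pos_iff.1 h0'), by simp, fun x u t h _ a2 => Or.inl ⟨?_, ?_⟩⟩
    · have a3 := a2.1
      simp only [eu] at a3
      have e : ⟪‖μ‖⁻¹ • μ, u⟫ - ‖μ‖⁻¹ * (B * c * v + A * v') =
          A * (⟪ρ, u⟫ - v' + c * (B / A * (⟪ν, u⟫ - v))) / ‖μ‖ := by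
        rw [real_inner_smul_left, eμ]
        field_simp
        ring
      show |⟪‖μ‖⁻¹ • μ, u⟫ - ‖μ‖⁻¹ * (B * c * v + A * v')| ≤ _
      rw [e, abs_div, abs_mul, abs_of_pos hA, abs_of_pos h0']
      exact div_le_div₀ (by positivity) (mul_le_mul_of_nonneg_left a3 hA.le) h0 hbig
    · have a3 := a2.2
      simp only [ex] at a3
      have e : ⟪‖μ‖⁻¹ • μ, x⟫ - ‖μ‖⁻¹ * (B * c * v + A * v') * t - ‖μ‖⁻¹ * (b' + B * c * b) =
          (⟪μ, x⟫ - (B * c * v + A * v') * t - (b' + B * c * b)) / ‖μ‖ := by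
        rw [real_inner_smul_left]
        field_simp
      show |⟪‖μ‖⁻¹ • μ, x⟫ - ‖μ‖⁻¹ * (B * c * v + A * v') * t - ‖μ‖⁻¹ * (b' + B * c * b)| ≤ _
      rw [e, abs_div, abs_of_pos h0']
      exact div_le_div₀ hm a3 h0 hbig
  · have h2 : ‖μ‖ < B * τ := not_le.1 hbig
    have h3 : |c| ≤ τ := by
      have a1 := abs_real_inner_le_norm μ ν
      rw [eμ, real_inner_comm, ho, h1, hp, mul_zero, zero_add, mul_one, mul_one, abs_mul, abs_of_pos hB] at a1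
      exact le_of_mul_le_mul_left (a1.trans h2.le) hB
    have h4 : 1 / 2 ≤ ‖ρ‖ := by
      have a1 := norm_sub_norm_le ν' (c • ν)
      rw [← hρ, hp', norm_smul, hp, mul_one, Real.norm_eq_abs] at a1
      linarith
    have h5 : A / B ≤ 2 * τ := by
      have a1 := real_inner_le_norm μ ρ
      rw [eμ, ho, real_inner_self_eq_norm_sq, mul_zero, add_zero, sq, ← mul_assoc] at a1
      have a2 := le_of_mul_le_mul_right a1 (by linarith)
      have a3 := mul_le_mul_of_nonneg_left h4 hA.le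
      rw [div_le_iff₀ hB]
      linarith
    obtain ⟨L, hL, hN⟩ := ker2 ν ρ v v' hp h4 ho
    refine ⟨(ν, v, b), L, hp, hL, fun x u t h a1 a2 => Or.inr (hN u τ (a1.1.trans h5) ?_)⟩
    have a3 := a2.1
    simp only [eu] at a3
    have a4 : |B / A * (⟪ν, u⟫ - v)| ≤ 1 := by
      rw [abs_mul, abs_of_pos (div_pos hB hA)]
      refine (mul_le_mul_of_nonneg_left a1.1 (div_pos hB hA).le).trans (le_of_eq ?_)
      field_simp
    have a5 : |c * (B / A * (⟪ν, u⟫ - v))| ≤ τ := by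
      rw [abs_mul]
      exact (mul_le_of_le_one_right (abs_nonneg _) a4).trans h3
    rw [abs_le] at a3 a5 ⊢
    constructor <;> linarith

end BKx

theorem bk : BK := by
  intro n K w p p' h τ m hp hp' hw hh hτ hτ' hm hmτ
  obtain ⟨r, rfl⟩ := Nat.exists_eq_add_of_le hw
  obtain ⟨q, L, h1, h2, h3⟩ := BKx.core p p' (A := (2 ^ r)⁻¹) (B := 2 ^ w / h) (m := m) hp hp' (by positivity)
    (by positivity) hτ hτ' hm (by positivity) hmτ
  refine ⟨q, L, h1, h2, fun x u t a1 a2 => ?_⟩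
  have e1 : ((2 : ℝ) ^ r)⁻¹ / (2 ^ w / h) = h / 2 ^ (w + r) := by
    rw [pow_add]
    field_simp
  have e2 : (2 : ℝ) ^ w / h / (2 ^ r)⁻¹ = 2 ^ (w + r) / h := by
    rw [pow_add]
    field_simp
  have e3 : ((2 : ℝ) ^ r)⁻¹ * (m / 2 ^ w) / (2 ^ w / h * τ) = m * h / (τ * 2 ^ w) / 2 ^ (w + r) := by
    rw [pow_add]
    field_simp
  have e4 : m / ((2 : ℝ) ^ w / h * τ) = m * h / (τ * 2 ^ w) := by field_simp
  have h4 := h3 x u t h
  rw [e1, e2, e3, e4] at h4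
  rw [Nat.add_sub_cancel_left, div_eq_inv_mul t] at a2
  exact h4 a1 a2

end Vale.Agent.P076N.TB
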