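import Vale.Agent.P076N.TB.Co

/-!
# P076N / TB : row CA, the whole chain
-/

set_option linter.all false

open Finset Vale.Agent.P127 Vale.Agent.P127.Stk
open scoped RealInnerProductSpace

namespace Vale.Agent.P076N.TB

noncomputable section

namespace CAx

open CSx COx

variable {Ω : Type} [Fintype Ω] {n : ℕ}

lemma chn_mono (hA : TA) {S : TSys Ω n} {j : ℕ} {Δ δ H Δ' δ' H' : ℝ} (h : Chn S j Δ δ H) (h1 : Δ ≤ Δ')
    (h2 : δ ≤ δ') (h3 : H' ≤ H) : Chn S j Δ' δ' H' := by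
  obtain ⟨Ω', _, Q, π, Γ, G, b, L, c1, c2, c3, c4⟩ := h
  exact ⟨Ω', inferInstance, Q, π, Γ, G, b, L, c1, c2,
    ((hA.pmo Q _ _ fun _ _ hx hy => hx (near_mono hy h1)).trans c3).trans h2, h3.trans c4⟩

lemma chn_zero (hA : TA) (hC : TC) (S : TSys Ω n) : Chn S 0 0 0 0 := by
  refine ⟨Ω, inferInstance, S.P, fun a => a, Zv n × ℤ, S.cel 0, cen, fun _ => ⊥, ⟨hC.rfl _, fun T X => ?_,
    fun E β h => h Prod.fst⟩, fun _ => by simp, ?_, hc_nonneg _ _ _⟩
  · exact hc_congr _ (fun _ _ _ _ h => (Prod.mk.inj h).1) (fun _ _ _ _ h => (Prod.mk.inj h).1)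
      (fun _ _ _ _ h => Prod.ext (Prod.mk.inj h).1 h) fun _ _ _ _ h => (Prod.mk.inj h).2
  · refine (hA.pmo _ _ (fun _ => False) fun a _ h => h ⟨0, Submodule.zero_mem _, by simp⟩).trans ?_
    simp [prE]

lemma iter (hA : TA) (hC : TC) (hcs : CS n) (Cu Cz : ℝ) (hCu : 1 ≤ Cu) (hCz : 1 ≤ Cz) (j : ℕ) (hj : j ≤ n) :
    ∀ η : ℝ, 0 < η → ∃ ε : ℝ, 0 < ε ∧ ∃ w₀ : ℕ,
    ∀ (w : ℕ) (Ω : Type) [Fintype Ω] (S : TSys Ω n), w₀ ≤ w → Core S w Cu Cz (ε * w) (2 ^ (-(ε * w))) ε →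
      Chn S j (2 ^ (η * w)) η (j * w * Real.log 2 - η * w) := by
  induction j with
  | zero =>
    intro η hη
    refine ⟨1, one_pos, 0, fun w Ω _ S _ _ => chn_mono hA (chn_zero hA hC S) (by positivity) hη.le ?_⟩
    have : 0 ≤ η * w := by positivity
    simpa using this
  | succ j ih =>
    intro η hη
    obtain ⟨C, hC1, HC⟩ := hcs Cu Cz hCu hCz
    obtain ⟨a, a0, a1, a2⟩ : ∃ a : ℝ, 0 < a ∧ a ≤ 1 / 2 ∧ C * a ≤ η / 16 :=
      ⟨min (1 / 2) (η / 16 / C), lt_min (by norm_num) (by positivity), min_le_left _ _, by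
        rw [mul_comm, ← le_div_iff₀ (by linarith)]
        exact min_le_right _ _⟩
    have a3 : a ≤ η / 16 := by nlinarith
    obtain ⟨ε₁, ε₁0, w₁, H₁⟩ := ih (by omega) a a0
    obtain ⟨ε, ε0, ε1, ε2⟩ : ∃ x : ℝ, 0 < x ∧ x ≤ ε₁ ∧ x ≤ a * a / 4 :=
      ⟨min ε₁ (a * a / 4), lt_min ε₁0 (by positivity), min_le_left _ _, min_le_right _ _⟩
    have ε3 : ε ≤ a / 8 := by nlinarith
    obtain ⟨w₂, H₂⟩ := big C (a * a / 4) (by positivity)
    obtain ⟨w₃, H₃⟩ := big (C + 1) (η / 16) (by positivity)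
    refine ⟨ε, ε0, w₁ + w₂ + w₃ + 2, fun w Ω _ S hw hS => ?_⟩
    have hw0 : (0 : ℝ) ≤ w := Nat.cast_nonneg w
    have hw2 : (2 : ℝ) ≤ w := by exact_mod_cast (show 2 ≤ w by omega)
    have g2 := H₂ w (by omega)
    have g3 := H₃ w (by omega)
    have x1 : ε * w ≤ ε₁ * w := mul_le_mul_of_nonneg_right ε1 hw0
    have x2 : ε * w ≤ a * a / 4 * w := mul_le_mul_of_nonneg_right ε2 hw0
    have x3 : ε * w ≤ a / 8 * w := mul_le_mul_of_nonneg_right ε3 hw0
    have x4 : a * w ≤ η / 16 * w := mul_le_mul_of_nonneg_right a3 hw0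
    have x5 : a * w ≤ 1 / 2 * w := mul_le_mul_of_nonneg_right a1 hw0
    have x6 : C * (a * w) ≤ η / 16 * w := by
      rw [← mul_assoc]
      exact mul_le_mul_of_nonneg_right a2 hw0
    have x7 : 0 ≤ ε * w := by positivity
    have x8 : 0 < a * w := by positivity
    have hch := H₁ w Ω S (by omega) (core_mono hA hS x1
      (Real.rpow_le_rpow_of_exponent_le (by norm_num) (by linarith)) ε1)
    have s1 : a * w ≤ ⌈a * w⌉₊ := Nat.le_ceil _
    have s2 : (⌈a * w⌉₊ : ℝ) < a * w + 1 := Nat.ceil_lt_add_one x8.le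
    have s3 : 1 ≤ ⌈a * w⌉₊ := Nat.one_le_iff_ne_zero.2 (Nat.ceil_pos.2 x8).ne'
    have s4 : ⌈a * w⌉₊ ≤ w := Nat.ceil_le.2 (by linarith)
    generalize ⌈a * w⌉₊ = s at s1 s2 s3 s4
    have hst := HC w s j _ _ _ _ a a _ Ω S hS hj s3 s4 (by positivity)
      (Real.rpow_le_one_of_one_le_of_nonpos (by norm_num) (by linarith))
      (Real.one_le_rpow (by norm_num) x8.le) x7 ε0.le a0.le a0.le (by
        have := mul_le_mul_of_nonneg_left s1 a0.le
        linarith) hch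
    refine chn_mono hA hst ?_ (by linarith) ?_
    · calc C * 2 ^ s * 2 ^ (a * w) ≤ 2 ^ C * 2 ^ s * 2 ^ (a * w) := by
            gcongr
            exact le_two_rpow C
        _ = 2 ^ (C + s + a * w) := by
            rw [Real.rpow_add (by norm_num), Real.rpow_add (by norm_num), Real.rpow_natCast]
        _ ≤ _ := Real.rpow_le_rpow_of_exponent_le (by norm_num) (by linarith)
    · have l1 : Real.log ((2 : ℝ) ^ (a * w) / 2 ^ (-(ε * w))) = (a * w + ε * w) * Real.log 2 := by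
        rw [← Real.rpow_sub (by norm_num), Real.log_rpow (by norm_num)]
        ring
      have l2 : Real.log 2 ≤ 1 := by
        have := Real.log_le_sub_one_of_pos (show (0 : ℝ) < 2 by norm_num)
        linarith
      have l3 : (a * w + ε * w) * Real.log 2 ≤ 2 * (a * w) := by nlinarith
      have l4 : C * (1 + s + Real.log ((2 : ℝ) ^ (a * w) / 2 ^ (-(ε * w)))) ≤ C * (2 + 3 * (a * w)) :=
        mul_le_mul_of_nonneg_left (by rw [l1]; linarith) (by linarith)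
      have l5 : C * (a + ε + a) * w ≤ C * (3 * (a * w)) := by
        rw [mul_assoc]
        exact mul_le_mul_of_nonneg_left (by linarith) (by linarith)
      push_cast
      linarith

end CAx

theorem ca (hA : TA) (hC : TC) (n : ℕ) (hcs : CS n) : CA n := fun Cu Cz η hCu hCz hη =>
  CAx.iter hA hC hcs Cu Cz hCu hCz n le_rfl η hη

end

end Vale.Agent.P076N.TB
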