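import Vale.Agent.P076N.TB.Spec

/-!
# P076N / TB : extension and conditioning keep the state
-/

set_option linter.all false

open Finset Vale.Agent.P127 Vale.Agent.P127.Stk
open scoped RealInnerProductSpace

namespace Vale.Agent.P076N.TB

noncomputable section

namespace CDx

/-- a lower bound for a conditional entropy survives the extension and the conditioning -/
theorem low (ta : TA) (tc : TC) {Ω Ω' : Type} [Fintype Ω] [Fintype Ω'] {Q : Law Ω'} {π : Ω' → Ω}
    {P : Law Ω} (mg : Mg Q π P) {S T U V : Type} (X : Ω → S) (Y : Ω → T) (σ : Ω → U) (G : Ω' → V)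
    (E : Ω' → Prop) {N δ I c : ℝ} (hσ : Fn P σ Y) (hI : mi Q π G (fun a => σ (π a)) ≤ I)
    (δ0 : 0 ≤ δ) (δ1 : δ ≤ 1 / 2) (hE : prE Q (fun a => ¬ E a) ≤ δ)
    (hN : Cnt P (fun _ => True) X Y N) (hc' : Real.log N ≤ c) :
    hc P X Y - I - 1 - δ * c ≤ hc (on Q E) (fun a => X (π a)) (fun a => (Y (π a), G a)) := by
  have h1 := tc.cst mg X Y σ G hσ
  have h2 := ta.onl Q E (fun a => X (π a)) (fun a => (Y (π a), G a)) N δ δ1 hE fun a ha _ => by
    obtain ⟨F, f1, f2⟩ := hN (π a) (tc.pos mg a ha) trivial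
    exact ⟨F, f1, fun a' ha' _ e => f2 (π a') (tc.pos mg a' ha') trivial (congrArg Prod.fst e)⟩
  have h3 := Real.log_two_lt_d9
  have h4 := mul_le_mul_of_nonneg_left hc' δ0
  linarith

theorem lg {c : ℝ} {w K : ℕ} (c1 : 1 ≤ c) (hw : w ≤ K) (K1 : 1 ≤ K) :
    Real.log (2 * (c * 2 ^ w) + 3) ≤ (5 * c + 1) * K := by
  have p : (1 : ℝ) ≤ 2 ^ w := one_le_pow₀ (by norm_num)
  have a : 2 * (c * 2 ^ w) + 3 ≤ 5 * c * 2 ^ w := by nlinarith
  have b := Real.log_le_log (by positivity) a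
  rw [Real.log_mul (by positivity) (by positivity), Real.log_pow] at b
  have d := Real.log_le_sub_one_of_pos (show 0 < 5 * c by positivity)
  have e : (w : ℝ) ≤ K := by exact_mod_cast hw
  have f : (1 : ℝ) ≤ K := by exact_mod_cast K1
  have g := Real.log_two_lt_d9
  nlinarith [Nat.cast_nonneg (α := ℝ) w]

end CDx

open CDx in
theorem cd (ta : TA) (tc : TC) (n : ℕ) : CD n := fun Cu Cz u1 z1 => by
  have n0 : (0 : ℝ) ≤ n := Nat.cast_nonneg n
  obtain ⟨C, c0, c1, c2, c3, c4⟩ : ∃ C : ℝ, 1 ≤ C ∧ 2 * n ≤ C ∧ 5 * Cz + 1 ≤ C ∧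
      n * (5 * (2 * Cu) + 1) ≤ C ∧ Cz ≤ C := by
    have : 0 ≤ n * (5 * (2 * Cu) + 1) := by positivity
    exact ⟨2 * n + (5 * Cz + 1) + n * (5 * (2 * Cu) + 1), by linarith, by linarith, by linarith,
      by linarith, by linarith⟩
  refine ⟨C, c0, ?_⟩
  intro K w lam h h' e b H I δ Ω Ω' _ _ S β Z pl Q π Γ G E A F pl' st wK K1 e0 δ0 δ1 ci hI hE un inp
  have hE' := hE.trans δ1
  have ps : ∀ a, 0 < (on Q E).w a → 0 < S.P.w (π a) := fun a ha =>
    tc.pos ci.mg a (ta.ons Q E a hE' ha).2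
  have I0 : 0 ≤ I := (mi_nonneg _ _ _ _).trans hI
  have k0 : (0 : ℝ) ≤ K := Nat.cast_nonneg K
  have l2 := Real.log_two_lt_d9
  refine ⟨⟨ps, fun _ => rfl, fun _ => rfl, fun _ => rfl, Prod.fst, fun _ => rfl⟩,
    fun a ha => st.bnd _ (ps a ha),
    fun a a' ha ha' q => st.diam _ _ (ps a ha) (ps a' ha') (congrArg Prod.fst q), fun s => ?_, un,
    fun a ha => inp a (ta.ons Q E a hE' ha).2 (ta.ons Q E a hE' ha).1, ?_, ?_, ?_, fun p => ?_, ?_⟩
  · refine le_trans (Nat.cast_le.2 (card_le_card fun z hz => ?_)) (st.cnt s.1)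
    simp only [mem_image, mem_filter, mem_univ, true_and] at hz ⊢
    obtain ⟨a, ⟨h1, h2⟩, h3⟩ := hz
    exact ⟨π a, ⟨ps a h1, congrArg Prod.fst h2⟩, h3⟩
  · have h1 := hc_mono_right (on Q E) (fun a => S.cel 0 (π a)) (Y := fun a => S.side (π a))
      (Y' := fun a => (S.side (π a), G a)) fun _ _ _ _ q => congrArg Prod.fst q
    have h2 := ta.onu Q E (fun a => S.cel 0 (π a)) (fun a => S.side (π a)) δ δ1 hE
    rw [tc.hcm ci.mg] at h2
    have h3 := mul_le_mul_of_nonneg_left st.up (show 0 ≤ 1 + 2 * δ by positivity)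
    have h4 : 2 * n * (δ * K) ≤ C * (δ * K) := mul_le_mul_of_nonneg_right c1 (by positivity)
    have h5 : n * (δ * K) * Real.log 2 ≤ n * (δ * K) * 1 :=
      mul_le_mul_of_nonneg_left (by linarith) (by positivity)
    have h6 : δ * e ≤ 1 / 2 * e := mul_le_mul_of_nonneg_right δ1 e0
    refine h1.trans ?_
    nlinarith
  · have h1 := low ta tc ci.mg (S.tm 0) (fun ω => (S.tub 0 ω, S.side ω)) S.side G E (c := C * K)
      (fun _ _ _ _ q => congrArg Prod.snd q) hI δ0 δ1 hE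
      (ta.flr S.P _ S.t _ (2 ^ 0) (Cz * 2 ^ K) (by norm_num) fun ω ω' a a' _ _ q => by
        simpa using (st.diam ω ω' a a' (congrArg Prod.snd q)).2)
      ((lg z1 le_rfl K1).trans (mul_le_mul_of_nonneg_right c2 k0))
    have h2 := hc_mono_right (on Q E) (fun a => S.tm 0 (π a))
      (Y := fun a => (S.tub 0 (π a), S.side (π a), G a))
      (Y' := fun a => ((S.tub 0 (π a), S.side (π a)), G a)) fun _ _ _ _ q =>
        Prod.ext (congrArg (·.1.1) q) (Prod.ext (congrArg (·.1.2) q) (congrArg (·.2) q))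
    refine le_trans ?_ (h1.trans h2)
    linarith [st.tim]
  · have p : (0 : ℝ) < 2 ^ w := by positivity
    have h1 := low ta tc ci.mg (S.dir w) S.ξ S.side G E (c := C * K)
      (fun _ _ _ _ q => congrArg S.sd q) hI δ0 δ1 hE
      (ta.flv S.P _ S.u _ (2 ^ w)⁻¹ (2 * Cu * 2 ^ w) (inv_pos.2 p) fun ω ω' a a' _ _ _ => by
        rw [mul_assoc, mul_inv_cancel₀ p.ne', mul_one]
        linarith [norm_sub_le (S.u ω) (S.u ω'), st.bnd ω a, st.bnd ω' a'])
      (by
        rw [Real.log_pow]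
        refine (mul_le_mul_of_nonneg_left (lg (by linarith) wK K1) n0).trans ?_
        rw [← mul_assoc]
        exact mul_le_mul_of_nonneg_right c3 k0)
    refine le_trans ?_ h1
    linarith [st.dir]
  · refine (ta.onp Q E _ hE').trans (mul_le_mul_of_nonneg_left ?_ zero_le_two)
    exact ci.pre (fun ω g => InS (p (S.ξ ω, g)) (n - 2) (2 ^ lam)⁻¹ (S.u ω)) b fun g =>
      st.brd fun a => p (a, g (F a))
  · have h1 := low ta tc ci.mg Z S.side S.side G E (c := C * K) (N := 2 ^ (Cz * K))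
      (fun _ _ _ _ q => q) hI δ0 δ1 hE (fun ω _ _ => ⟨_, st.cnt (S.side ω), fun ω' a _ q => by
        simp only [mem_image, mem_filter, mem_univ, true_and]
        exact ⟨ω', ⟨a, q⟩, rfl⟩⟩)
      (by
        rw [Real.log_rpow (by norm_num)]
        have := mul_le_mul_of_nonneg_right c4 k0
        have : 0 ≤ Cz * K := by positivity
        nlinarith)
    refine le_trans ?_ h1
    linarith [st.zz]

end

end Vale.Agent.P076N.TB
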