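import Vale.Agent.P076N.TB.Spec

/-!
# P076N / TB : the row CG (geometry of the chain)
-/

set_option linter.all false

open Finset Vale.Agent.P127 Vale.Agent.P127.Stk
open scoped RealInnerProductSpace

namespace Vale.Agent.P076N.TB

noncomputable section

namespace CGx

variable {n : ℕ}

lemma norm_fst0 (e : Vc n) : ‖((e, 0) : Vc n × ℝ)‖ = ‖e‖ := by
  rw [Prod.norm_def]; simp

lemma vel (r T Cu : ℝ) (u x x' v y y' : Vc n) (t t' s s' : ℝ) (hT : 0 < T) (h1 : OnT r u x t x' t')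
    (h2 : OnT r v y s y' s') (hx : ‖x - y‖ ≤ r) (ht : |t - s| ≤ r) (hx' : ‖x' - y'‖ ≤ r) (ht' : |t' - s'| ≤ r)
    (hv : ‖v‖ ≤ Cu) (hTT : T ≤ |t - t'|) : ‖u - v‖ ≤ (4 + 2 * Cu) * r / T := by
  unfold OnT at h1 h2
  have hr : 0 ≤ r := (norm_nonneg _).trans hx
  have hC : 0 ≤ Cu := (norm_nonneg _).trans hv
  have key : (t - t') • (u - v) = (x - y) - (x' - y') - ((x - t • u) - (x' - t' • u)) +
      ((y - s • v) - (y' - s' • v)) + ((t' - s') - (t - s)) • v := by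
    module
  have a1 : ‖((t' - s') - (t - s)) • v‖ ≤ 2 * r * Cu := by
    rw [norm_smul, Real.norm_eq_abs]
    have : |(t' - s') - (t - s)| ≤ 2 * r := by
      have := abs_sub (t' - s') (t - s); linarith
    exact mul_le_mul this hv (norm_nonneg _) (by linarith)
  have a2 : ‖(t - t') • (u - v)‖ ≤ (4 + 2 * Cu) * r := by
    rw [key]
    have b1 := norm_add_le ((x - y) - (x' - y') - ((x - t • u) - (x' - t' • u)) +
      ((y - s • v) - (y' - s' • v))) (((t' - s') - (t - s)) • v)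
    have b2 := norm_add_le ((x - y) - (x' - y') - ((x - t • u) - (x' - t' • u)))
      ((y - s • v) - (y' - s' • v))
    have b3 := norm_sub_le ((x - y) - (x' - y')) ((x - t • u) - (x' - t' • u))
    have b4 := norm_sub_le (x - y) (x' - y')
    nlinarith
  rw [norm_smul, Real.norm_eq_abs] at a2
  rw [le_div_iff₀ hT]
  nlinarith [norm_nonneg (u - v)]

/-- dividing by a far time difference -/
lemma near_div (L : Submodule ℝ (Vc n × ℝ)) (u : Vc n) (τ E ρ : ℝ) (l : Vc n × ℝ) (hl : l ∈ L) (hτ : τ ≠ 0)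
    (h : ‖τ • ((u, 1) : Vc n × ℝ) - l‖ ≤ E) (hE : E ≤ ρ * |τ|) : Near L ρ (u, 1) := by
  refine ⟨τ⁻¹ • l, L.smul_mem _ hl, ?_⟩
  have e : ((u, 1) : Vc n × ℝ) - τ⁻¹ • l = τ⁻¹ • (τ • ((u, 1) : Vc n × ℝ) - l) := by
    rw [smul_sub, smul_smul, inv_mul_cancel₀ hτ, one_smul]
  have hp : 0 < |τ| := abs_pos.2 hτ
  rw [e, norm_smul, Real.norm_eq_abs, abs_inv, inv_mul_le_iff₀ hp]
  linarith

lemma pnt (L : Submodule ℝ (Vc n × ℝ)) (r ρ Δ T Cu : ℝ) (u x x' v y y' : Vc n) (t t' s s' : ℝ)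
    (hρ : 0 < ρ) (hρ1 : ρ ≤ 1) (h1 : OnT r u x t x' t') (h2 : OnT r v y s y' s') (hx' : ‖x' - y'‖ ≤ r)
    (ht' : |t' - s'| ≤ r) (hu : ‖u‖ ≤ Cu) (hs : |s - s'| ≤ T) (hT : T * ‖u - v‖ ≤ r)
    (hN : Near L Δ (x - y, t - s)) (hn : ¬ Near L ρ (u, 1)) :
    |t - s| ≤ (Δ + (5 + Cu) * r) / ρ ∧ ‖x - y‖ ≤ (1 + Cu) * ((Δ + (5 + Cu) * r) / ρ) := by
  unfold OnT at h1 h2
  obtain ⟨l, hl, hΔ⟩ := hN
  have hr : 0 ≤ r := (norm_nonneg _).trans hx'
  have hC : 0 ≤ Cu := (norm_nonneg _).trans hu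
  have hΔ0 : 0 ≤ Δ := (norm_nonneg _).trans hΔ
  have key : x - y - (t - s) • u = (x' - y') - (t' - s') • u + (s - s') • (u - v) +
      ((x - t • u) - (x' - t' • u)) - ((y - s • v) - (y' - s' • v)) := by
    module
  have a1 : ‖(t' - s') • u‖ ≤ r * Cu := by
    rw [norm_smul, Real.norm_eq_abs]; exact mul_le_mul ht' hu (norm_nonneg _) hr
  have a2 : ‖(s - s') • (u - v)‖ ≤ r := by
    rw [norm_smul, Real.norm_eq_abs]
    exact (mul_le_mul_of_nonneg_right hs (norm_nonneg _)).trans hT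
  have a3 : ‖x - y - (t - s) • u‖ ≤ (4 + Cu) * r := by
    rw [key]
    have b1 := norm_sub_le ((x' - y') - (t' - s') • u + (s - s') • (u - v) +
      ((x - t • u) - (x' - t' • u))) ((y - s • v) - (y' - s' • v))
    have b2 := norm_add_le ((x' - y') - (t' - s') • u + (s - s') • (u - v))
      ((x - t • u) - (x' - t' • u))
    have b3 := norm_add_le ((x' - y') - (t' - s') • u) ((s - s') • (u - v))
    have b4 := norm_sub_le (x' - y') ((t' - s') • u)
    nlinarith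
  set E := Δ + (5 + Cu) * r with hE
  have hE0 : 0 ≤ E := by positivity
  have hEρ : E ≤ E / ρ := by
    rw [le_div_iff₀ hρ]; nlinarith
  have a4 : ‖(t - s) • ((u, 1) : Vc n × ℝ) - l‖ ≤ E := by
    have e : (t - s) • ((u, 1) : Vc n × ℝ) - l =
        (((x - y, t - s) : Vc n × ℝ) - l) - ((x - y - (t - s) • u, 0) : Vc n × ℝ) := by
      ext1
      · simp
      · simp
    rw [e]
    have b1 := norm_sub_le (((x - y, t - s) : Vc n × ℝ) - l) ((x - y - (t - s) • u, 0) : Vc n × ℝ)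
    rw [norm_fst0] at b1
    nlinarith
  have a5 : |t - s| ≤ E / ρ := by
    by_contra hc
    push Not at hc
    have hne : t - s ≠ 0 := by
      intro h0; rw [h0, abs_zero] at hc; linarith
    apply hn
    refine near_div L u (t - s) E ρ l hl hne a4 ?_
    rw [div_lt_iff₀ hρ] at hc; linarith
  refine ⟨a5, ?_⟩
  have e : x - y = (x - y - (t - s) • u) + (t - s) • u := by module
  have a6 : ‖(t - s) • u‖ ≤ E / ρ * Cu := by
    rw [norm_smul, Real.norm_eq_abs]; exact mul_le_mul a5 hu (norm_nonneg _) (by linarith)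
  have b1 := norm_add_le (x - y - (t - s) • u) ((t - s) • u)
  rw [← e] at b1
  nlinarith

lemma mem (L : Submodule ℝ (Vc n × ℝ)) (b c c' c'' : Vc n × ℝ) (r Δ M : ℝ) (u x x' x'' : Vc n)
    (t t' t'' : ℝ) (hM : 1 ≤ M) (h1 : OnT r u x t x' t') (h2 : OnT r u x t x'' t'') (hc : ‖(x, t) - c‖ ≤ r)
    (hc' : ‖(x', t') - c'‖ ≤ r) (hc'' : ‖(x'', t'') - c''‖ ≤ r) (hne : t'' ≠ t)
    (hμ : |t' - t| ≤ M * |t'' - t|) (hN : Near L Δ (c - b)) :
    Near (L ⊔ Submodule.span ℝ {c'' - b}) (2 * M * (Δ + 3 * r)) (c' - b) := by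
  unfold OnT at h1 h2
  obtain ⟨l, hl, hΔ⟩ := hN
  have hr : 0 ≤ r := (norm_nonneg _).trans hc
  have hΔ0 : 0 ≤ Δ := (norm_nonneg _).trans hΔ
  have hd : t'' - t ≠ 0 := sub_ne_zero.2 hne
  obtain ⟨μ, hμe⟩ : ∃ μ : ℝ, t' = t + μ * (t'' - t) := ⟨(t' - t) / (t'' - t), by field_simp; ring⟩
  have hμM : |μ| ≤ M := by
    have e : t' - t = μ * (t'' - t) := by linarith
    rw [e, abs_mul] at hμ
    exact le_of_mul_le_mul_right hμ (abs_pos.2 hd)
  have h1μ : |1 - μ| ≤ 1 + M := by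
    have := abs_sub (1 : ℝ) μ; rw [abs_one] at this; linarith
  refine ⟨(1 - μ) • l + μ • (c'' - b), Submodule.add_mem_sup (L.smul_mem _ hl)
    (Submodule.smul_mem _ _ (Submodule.mem_span_singleton_self _)), ?_⟩
  have key : c' - b - ((1 - μ) • l + μ • (c'' - b)) =
      (μ • ((((x - t • u) - (x'' - t'' • u)), 0) : Vc n × ℝ) - ((((x - t • u) - (x' - t' • u)), 0) : Vc n × ℝ)) -
        (((x', t') : Vc n × ℝ) - c') + μ • (((x'', t'') : Vc n × ℝ) - c'') +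
        (1 - μ) • (((x, t) : Vc n × ℝ) - c) + (1 - μ) • (c - b - l) := by
    subst hμe
    ext1
    · simp only [Prod.fst_add, Prod.fst_sub, Prod.smul_fst]
      module
    · simp only [Prod.snd_add, Prod.snd_sub, Prod.smul_snd, smul_eq_mul]
      ring
  rw [key]
  have a1 : ‖μ • ((((x - t • u) - (x'' - t'' • u)), 0) : Vc n × ℝ)‖ ≤ M * r := by
    rw [norm_smul, Real.norm_eq_abs, norm_fst0]; exact mul_le_mul hμM h2 (norm_nonneg _) (by linarith)
  have a2 : ‖((((x - t • u) - (x' - t' • u)), 0) : Vc n × ℝ)‖ ≤ r := by rw [norm_fst0]; exact h1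
  have a3 : ‖μ • (((x'', t'') : Vc n × ℝ) - c'')‖ ≤ M * r := by
    rw [norm_smul, Real.norm_eq_abs]; exact mul_le_mul hμM hc'' (norm_nonneg _) (by linarith)
  have a4 : ‖(1 - μ) • (((x, t) : Vc n × ℝ) - c)‖ ≤ (1 + M) * r := by
    rw [norm_smul, Real.norm_eq_abs]; exact mul_le_mul h1μ hc (norm_nonneg _) (by linarith)
  have a5 : ‖(1 - μ) • (c - b - l)‖ ≤ (1 + M) * Δ := by
    rw [norm_smul, Real.norm_eq_abs]; exact mul_le_mul h1μ hΔ (norm_nonneg _) (by linarith)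
  generalize μ • ((((x - t • u) - (x'' - t'' • u)), 0) : Vc n × ℝ) = A at a1 ⊢
  generalize ((((x - t • u) - (x' - t' • u)), 0) : Vc n × ℝ) = B at a2 ⊢
  generalize μ • (((x'', t'') : Vc n × ℝ) - c'') = D at a3 ⊢
  generalize (1 - μ) • (((x, t) : Vc n × ℝ) - c) = F at a4 ⊢
  generalize (1 - μ) • (c - b - l) = G at a5 ⊢
  generalize ((x', t') : Vc n × ℝ) - c' = C at hc' ⊢
  have b1 := norm_add_le (A - B - C + D + F) G
  have b2 := norm_add_le (A - B - C + D) F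
  have b3 := norm_add_le (A - B - C) D
  have b4 := norm_sub_le (A - B) C
  have b5 := norm_sub_le A B
  nlinarith

lemma tub (L : Submodule ℝ (Vc n × ℝ)) (b c c' : Vc n × ℝ) (r Δ T : ℝ) (u x x' : Vc n) (t t' : ℝ)
    (hT : 0 < T) (h1 : OnT r u x t x' t') (hc : ‖(x, t) - c‖ ≤ r) (hc' : ‖(x', t') - c'‖ ≤ r)
    (hTT : T ≤ |t - t'|) (hN : Near L Δ (c - b)) (hN' : Near L Δ (c' - b)) :
    Near L ((2 * Δ + 3 * r) / T) (u, 1) := by
  unfold OnT at h1
  obtain ⟨l, hl, hΔ⟩ := hN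
  obtain ⟨l', hl', hΔ'⟩ := hN'
  have hr : 0 ≤ r := (norm_nonneg _).trans hc
  have hΔ0 : 0 ≤ Δ := (norm_nonneg _).trans hΔ
  have hne : t - t' ≠ 0 := by
    intro h0; rw [h0, abs_zero] at hTT; linarith
  have key : (t - t') • ((u, 1) : Vc n × ℝ) - (l - l') =
      (((x, t) : Vc n × ℝ) - c) - (((x', t') : Vc n × ℝ) - c') + (c - b - l) - (c' - b - l') -
        ((((x - t • u) - (x' - t' • u)), 0) : Vc n × ℝ) := by
    ext1
    · simp only [Prod.fst_add, Prod.fst_sub, Prod.smul_fst]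
      module
    · simp only [Prod.snd_add, Prod.snd_sub, Prod.smul_snd, smul_eq_mul]
      ring
  have a2 : ‖((((x - t • u) - (x' - t' • u)), 0) : Vc n × ℝ)‖ ≤ r := by rw [norm_fst0]; exact h1
  refine near_div L u (t - t') (2 * Δ + 3 * r) _ (l - l') (L.sub_mem hl hl') hne ?_ ?_
  · rw [key]
    generalize ((((x - t • u) - (x' - t' • u)), 0) : Vc n × ℝ) = B at a2 ⊢
    generalize ((x', t') : Vc n × ℝ) - c' = C at hc' ⊢
    generalize ((x, t) : Vc n × ℝ) - c = A at hc ⊢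
    generalize c - b - l = D at hΔ ⊢
    generalize c' - b - l' = F at hΔ' ⊢
    have b1 := norm_sub_le (A - C + D - F) B
    have b2 := norm_sub_le (A - C + D) F
    have b3 := norm_add_le (A - C) D
    have b4 := norm_sub_le A C
    linarith
  · have h0 : 0 ≤ (2 * Δ + 3 * r) / T := by positivity
    calc 2 * Δ + 3 * r = (2 * Δ + 3 * r) / T * T := by field_simp
      _ ≤ _ := mul_le_mul_of_nonneg_left hTT h0

/-- a proper subspace of space time is killed by a functional -/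
lemma funct (L : Submodule ℝ (Vc n × ℝ)) (hL : Module.finrank ℝ L ≤ n) :
    ∃ (ν : Vc n) (v : ℝ), (ν ≠ 0 ∨ v ≠ 0) ∧ ∀ l ∈ L, ⟪ν, l.1⟫ = v * l.2 := by
  have hlt : L < ⊤ := by
    rw [lt_top_iff_ne_top]
    intro h
    rw [h, finrank_top, Module.finrank_prod, finrank_euclideanSpace, Fintype.card_fin,
      Module.finrank_self] at hL
    omega
  obtain ⟨φ, hφ, hk⟩ := L.exists_le_ker_of_lt_top hlt
  let ψ : Vc n →L[ℝ] ℝ := LinearMap.toContinuousLinearMap (φ.comp (LinearMap.inl ℝ (Vc n) ℝ))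
  let ν : Vc n := (InnerProductSpace.toDual ℝ (Vc n)).symm ψ
  have hν : ∀ y, ⟪ν, y⟫ = φ (y, 0) := fun y => by
    simp only [ν, InnerProductSpace.toDual_symm_apply]; rfl
  have hd : ∀ z : Vc n × ℝ, φ z = ⟪ν, z.1⟫ + φ (0, 1) * z.2 := fun z => by
    have e : z = ((z.1, 0) : Vc n × ℝ) + z.2 • ((0, 1) : Vc n × ℝ) := by
      ext1 <;> simp
    rw [hν]
    conv_lhs => rw [e, map_add, map_smul, smul_eq_mul]
    ring
  refine ⟨ν, -φ (0, 1), ?_, fun l hl => ?_⟩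
  · by_contra hc
    push Not at hc
    apply hφ
    refine LinearMap.ext fun z => ?_
    rw [hd z, hc.1, neg_eq_zero.1 hc.2]; simp
  · have h0 : φ l = 0 := hk hl
    rw [hd] at h0; linarith

lemma plt (L : Submodule ℝ (Vc n × ℝ)) (b : Vc n × ℝ) (hn : 1 ≤ n) (hL : Module.finrank ℝ L ≤ n) :
    ∃ p : Plt n, ‖p.1‖ = 1 ∧ ∀ (Cu τ Δ : ℝ) (x u : Vc n) (t : ℝ), ‖u‖ ≤ Cu → τ ≤ 1 / 2 → Near L τ (u, 1) →
      Near L Δ ((x, t) - b) → InP p ((2 * Cu + 2) * τ) ((2 * Cu + 2) * Δ) x t u := by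
  obtain ⟨ν₀, v₀, hne, hk⟩ := funct L hL
  by_cases h0 : ν₀ = 0
  · have hv : v₀ ≠ 0 := hne.resolve_left (not_not.2 h0)
    refine ⟨(EuclideanSpace.single ⟨0, hn⟩ 1, 0, 0), by simp, ?_⟩
    rintro Cu τ Δ x u t - hτ ⟨l, hl, hN⟩ -
    exfalso
    have e := hk l hl
    rw [h0, inner_zero_left] at e
    have e2 : l.2 = 0 := (mul_eq_zero.1 e.symm).resolve_left hv
    have := (norm_snd_le _).trans hN
    simp only [Prod.snd_sub, e2, sub_zero, norm_one] at this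
    linarith
  · have hp : 0 < ‖ν₀‖ := norm_pos_iff.2 h0
    obtain ⟨ν, v, hν, hk'⟩ : ∃ (ν : Vc n) (v : ℝ), ‖ν‖ = 1 ∧ ∀ l ∈ L, ⟪ν, l.1⟫ = v * l.2 := by
      refine ⟨‖ν₀‖⁻¹ • ν₀, ‖ν₀‖⁻¹ * v₀, ?_, fun l hl => ?_⟩
      · rw [norm_smul, norm_inv, norm_norm, inv_mul_cancel₀ hp.ne']
      · rw [real_inner_smul_left, hk l hl]; ring
    have hb : ∀ (z : Vc n × ℝ) (ρ : ℝ), Near L ρ z → |⟪ν, z.1⟫ - v * z.2| ≤ (1 + |v|) * ρ := by
      rintro z ρ ⟨l, hl, hN⟩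
      have e : ⟪ν, z.1⟫ - v * z.2 = ⟪ν, (z - l).1⟫ - v * (z - l).2 := by
        simp only [Prod.fst_sub, Prod.snd_sub, inner_sub_right, hk' l hl]; ring
      have a1 : |⟪ν, (z - l).1⟫| ≤ ρ := by
        have := abs_real_inner_le_norm ν (z - l).1
        rw [hν, one_mul] at this
        exact this.trans ((norm_fst_le _).trans hN)
      have a2 : |v * (z - l).2| ≤ |v| * ρ := by
        rw [abs_mul]
        exact mul_le_mul_of_nonneg_left ((norm_snd_le (z - l)).trans hN) (abs_nonneg _)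
      rw [e]
      have := abs_sub ⟪ν, (z - l).1⟫ (v * (z - l).2)
      linarith
    refine ⟨(ν, v, ⟪ν, b.1⟫ - v * b.2), hν, ?_⟩
    intro Cu τ Δ x u t hu hτ hN hN'
    have hτ0 : 0 ≤ τ := by obtain ⟨l, -, h⟩ := hN; exact (norm_nonneg _).trans h
    have hΔ0 : 0 ≤ Δ := by obtain ⟨l, -, h⟩ := hN'; exact (norm_nonneg _).trans h
    have a1 := hb _ _ hN
    have a2 := hb _ _ hN'
    simp only [mul_one] at a1
    have a3 : |⟪ν, u⟫| ≤ Cu := by
      have := abs_real_inner_le_norm ν u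
      rw [hν, one_mul] at this
      exact this.trans hu
    have a4 : 1 + |v| ≤ 2 * Cu + 2 := by
      have c1 : |v| ≤ |⟪ν, u⟫| + |⟪ν, u⟫ - v| := by
        have := abs_sub ⟪ν, u⟫ (⟪ν, u⟫ - v)
        rwa [sub_sub_cancel] at this
      have c2 : (1 + |v|) * τ ≤ (1 + |v|) * (1 / 2) :=
        mul_le_mul_of_nonneg_left hτ (by positivity)
      linarith
    refine ⟨a1.trans (mul_le_mul_of_nonneg_right a4 hτ0), ?_⟩
    refine le_trans (le_of_eq ?_) (a2.trans (mul_le_mul_of_nonneg_right a4 hΔ0))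
    congr 1
    simp only [Prod.fst_sub, Prod.snd_sub, inner_sub_right]; ring

end CGx

/-- the row CG -/
theorem cg : CG where
  vel := fun r T Cu u x x' v y y' t t' s s' => CGx.vel r T Cu u x x' v y y' t t' s s'
  pnt := fun L r ρ Δ T Cu u x x' v y y' t t' s s' => CGx.pnt L r ρ Δ T Cu u x x' v y y' t t' s s'
  mem := fun L b c c' c'' r Δ M u x x' x'' t t' t'' => CGx.mem L b c c' c'' r Δ M u x x' x'' t t' t''
  tub := fun L b c c' r Δ T u x x' t t' => CGx.tub L b c c' r Δ T u x x' t t'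
  plt := fun L b => CGx.plt L b

end

end Vale.Agent.P076N.TB
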