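import Vale.Agent.P076N.TB.Sp

/-!
# P076N / TB : row FIN, the iteration
-/

set_option linter.all false

open Finset Vale.Agent.P127 Vale.Agent.P127.Stk
open scoped RealInnerProductSpace

namespace Vale.Agent.P076N.TB

noncomputable section

namespace FINx

open CSx COx SPx

variable {Ω Ω' : Type} [Fintype Ω] [Fintype Ω'] {n : ℕ}

open Classical in
/-- the values of `Z` in a plate -/
def Fs (S : TSys Ω n) {β : Type} (Z : Ω → β) (c : ℝ) (K : ℕ) (s : S.γ) (ν : Vc n) (v b : ℝ) : Finset β :=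
  (univ.filter fun ω => 0 < S.P.w ω ∧ S.side ω = s ∧
    |⟪ν, S.u ω⟫ - v| ≤ 2 ^ (c * K) / 2 ^ K ∧ |⟪ν, S.x ω⟫ - v * S.t ω - b| ≤ 2 ^ (c * K)).image Z

lemma mem_Fs (S : TSys Ω n) {β : Type} (Z : Ω → β) (c : ℝ) (K : ℕ) (s : S.γ) (ν : Vc n) (v b : ℝ) (z : β) :
    z ∈ Fs S Z c K s ν v b ↔ ∃ ω, (0 < S.P.w ω ∧ S.side ω = s ∧
      |⟪ν, S.u ω⟫ - v| ≤ 2 ^ (c * K) / 2 ^ K ∧ |⟪ν, S.x ω⟫ - v * S.t ω - b| ≤ 2 ^ (c * K)) ∧ Z ω = z := by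
  unfold Fs
  simp only [Finset.mem_image, Finset.mem_filter, Finset.mem_univ, true_and]

/-- the conclusion -/
def Cc (S : TSys Ω n) {β : Type} (Z : Ω → β) (c : ℝ) (K : ℕ) (A : ℝ) : Prop :=
  ∃ (s : S.γ) (ν : Vc n) (v b : ℝ), ‖ν‖ = 1 ∧ A ≤ Real.log #(Fs S Z c K s ν v b)

lemma base (hA : TA) {S : TSys Ω n} {β : Type} {Z : Ω → β} {pl : S.γ → Plt n} {K w lam : ℕ}
    {Cu Cz h e b H c : ℝ} (hS : St S Z pl K w lam Cu Cz h e b H) (hh : h ≤ 2 ^ (c * K)) : Cc S Z c K (H - e) := by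
  classical
  have hne : (univ : Finset Ω).Nonempty := by
    by_contra hc
    rw [Finset.not_nonempty_iff_eq_empty] at hc
    have := S.P.sum_one
    rw [hc] at this
    simp at this
  obtain ⟨ω₀, _, hmax⟩ := Finset.exists_max_image univ (fun ω =>
    #(Fs S Z c K (S.side ω) (pl (S.side ω)).1 (pl (S.side ω)).2.1 (pl (S.side ω)).2.2)) hne
  refine ⟨S.side ω₀, (pl (S.side ω₀)).1, (pl (S.side ω₀)).2.1, (pl (S.side ω₀)).2.2, hS.unit _,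
    hS.zz.trans (hA.one _ _ _ _ fun ω hω _ => ⟨_, by exact_mod_cast hmax ω (Finset.mem_univ _),
      fun ω' hω' _ e => ?_⟩)⟩
  rw [mem_Fs]
  have := hS.inp ω' hω'
  rw [e] at this
  exact ⟨ω', ⟨hω', e, this.1.trans (div_le_div_of_nonneg_right hh (by positivity)), this.2.trans hh⟩, rfl⟩

lemma transfer {S' : TSys Ω' n} {S : TSys Ω n} {π : Ω' → Ω} (hR : Ref S' S π) {β : Type} {Z : Ω → β} {c A : ℝ}
    {K : ℕ} (h : Cc S' (fun a => Z (π a)) c K A) : Cc S Z c K A := by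
  obtain ⟨s, ν, v, b, hν, hA⟩ := h
  obtain ⟨f, hf⟩ := hR.sd
  refine ⟨f s, ν, v, b, hν, hA.trans ?_⟩
  have hsub : Fs S' (fun a => Z (π a)) c K s ν v b ⊆ Fs S Z c K (f s) ν v b := by
    intro z hz
    rw [mem_Fs] at hz ⊢
    obtain ⟨a, ⟨h1, h2, h3, h4⟩, h5⟩ := hz
    rw [hR.u] at h3
    rw [hR.x, hR.t] at h4
    exact ⟨π a, ⟨hR.pos a h1, by rw [← hf, h2], h3, h4⟩, h5⟩
  rcases Nat.eq_zero_or_pos #(Fs S' (fun a => Z (π a)) c K s ν v b) with h0 | h0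
  · rw [h0, Nat.cast_zero, Real.log_zero]
    exact Real.log_natCast_nonneg _
  · exact Real.log_le_log (by exact_mod_cast h0) (by exact_mod_cast Finset.card_le_card hsub)

lemma cc_mono {S : TSys Ω n} {β : Type} {Z : Ω → β} {c A A' : ℝ} {K : ℕ} (h : Cc S Z c K A) (h' : A' ≤ A) :
    Cc S Z c K A' := by
  obtain ⟨s, ν, v, b, hν, hA⟩ := h
  exact ⟨s, ν, v, b, hν, h'.trans hA⟩

lemma iter (hA : TA) (hsp : SP n) (Cu Cz C₀ θ c : ℝ) (hCu : 1 ≤ Cu) (hCz : 1 ≤ Cz) (hC₀ : 1 ≤ C₀) (hθ : 0 < θ)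
    (η : ℝ) (hη : 0 < η) (j : ℕ) : ∃ ε : ℝ, 0 < ε ∧ ε ≤ η ∧ ∃ K₀ : ℕ,
    ∀ (K w lam : ℕ) (h H : ℝ) (Ω : Type) [Fintype Ω] (S : TSys Ω n) (β : Type) (Z : Ω → β) (pl : S.γ → Plt n),
      K₀ ≤ K → θ * K ≤ w → 2 * w ≤ K → (w : ℝ) ≤ c * K → (lam : ℝ) ≤ ε * K → h ≤ C₀ * 2 ^ K →
      h ≤ 2 ^ (c * K + j * (w / 2 : ℝ)) → St S Z pl K w lam Cu Cz h (ε * K) ε H → Cc S Z c K (H - η * K) := by
  induction j with
  | zero =>
    refine ⟨η, hη, le_rfl, 0, fun K w lam h H Ω _ S β Z pl _ _ _ _ _ _ hh hS => base hA hS ?_⟩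
    simpa using hh
  | succ j ih =>
    obtain ⟨ε₁, ε₁0, ε₁1, K₁, H₁⟩ := ih
    obtain ⟨ε₂, ε₂0, K₂, H₂⟩ := hsp Cu Cz C₀ θ ε₁ hCu hCz hC₀ hθ ε₁0
    refine ⟨min ε₁ ε₂, lt_min ε₁0 ε₂0, (min_le_left _ _).trans ε₁1, K₁ + K₂,
      fun K w lam h H Ω _ S β Z pl hK h1 h2 h3 h4 h5 h6 hS => ?_⟩
    have hK0 : (0 : ℝ) ≤ K := Nat.cast_nonneg K
    have e1 : min ε₁ ε₂ * K ≤ ε₁ * K := mul_le_mul_of_nonneg_right (min_le_left _ _) hK0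
    have e2 : min ε₁ ε₂ * K ≤ ε₂ * K := mul_le_mul_of_nonneg_right (min_le_right _ _) hK0
    have e3 : ε₁ * K ≤ η * K := mul_le_mul_of_nonneg_right ε₁1 hK0
    rcases le_or_gt h (2 ^ (c * K)) with hh | hh
    · exact cc_mono (base hA hS hh) (by linarith)
    · have h7 : (2 : ℝ) ^ w ≤ h := by
        refine le_trans ?_ hh.le
        rw [← Real.rpow_natCast 2 w]
        exact Real.rpow_le_rpow_of_exponent_le (by norm_num) h3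
      obtain ⟨Ω', _, S', π, pl', hR, hS'⟩ := H₂ K w lam h H Ω S β Z pl (by omega) h1 h2 (h4.trans e2) h7 h5
        (st_mono hS le_rfl e2 (min_le_right _ _))
      have h8 : (1 : ℝ) ≤ 2 ^ ((w : ℝ) / 2) := Real.one_le_rpow (by norm_num) (by positivity)
      have h9 : 0 < h := lt_of_lt_of_le (by positivity) h7
      refine transfer hR (H₁ K w lam _ H Ω' S' β _ pl' (by omega) h1 h2 h3 (h4.trans e1)
        ((div_le_self h9.le h8).trans h5) ?_ hS')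
      rw [div_le_iff₀ (by positivity), ← Real.rpow_add (by norm_num)]
      refine h6.trans (le_of_eq ?_)
      congr 1
      push_cast
      ring

lemma small (C ε : ℝ) (hC : 1 ≤ C) (hε : 0 < ε) : ∃ K₀ : ℕ, ∀ (K : ℕ) (e : ℝ), K₀ ≤ K → e ≤ ε / 4 * K →
    C * Real.exp e / 2 ^ ⌊ε * K⌋₊ ≤ ε := by
  obtain ⟨K₀, H⟩ := big (2 * C / ε) (ε / 4) (by positivity)
  refine ⟨K₀, fun K e hK he => ?_⟩
  have h1 := H K hK
  have h2 : ε * K < ⌊ε * K⌋₊ + 1 := Nat.lt_floor_add_one _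
  have h3 : (1 : ℝ) / 2 ≤ Real.log 2 := by
    have := Real.log_two_gt_d9
    linarith
  have h4 : (0 : ℝ) ≤ ε * K := by positivity
  have h5 : Real.exp (ε / 2 * K) ≤ 2 * 2 ^ ⌊ε * K⌋₊ := by
    have : (2 : ℝ) * 2 ^ ⌊ε * K⌋₊ = Real.exp (((⌊ε * K⌋₊ : ℝ) + 1) * Real.log 2) := by
      rw [mul_comm (_ + 1 : ℝ), Real.exp_mul, Real.exp_log (by norm_num), Real.rpow_add (by norm_num),
        Real.rpow_natCast, Real.rpow_one, mul_comm]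
    rw [this]
    refine Real.exp_le_exp.2 ?_
    nlinarith
  have h6 : ε / 4 * K ≤ Real.exp (ε / 4 * K) := by
    have := Real.add_one_le_exp (ε / 4 * K)
    linarith
  have h7 : Real.exp (ε / 2 * K) = Real.exp (ε / 4 * K) * Real.exp (ε / 4 * K) := by
    rw [← Real.exp_add]
    congr 1
    ring
  have h8 : Real.exp e ≤ Real.exp (ε / 4 * K) := Real.exp_le_exp.2 he
  have h9 : 2 * C ≤ ε * Real.exp (ε / 4 * K) := by
    have := h1.trans h6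
    rw [div_le_iff₀ hε] at this
    linarith
  rw [div_le_iff₀ (by positivity)]
  have p1 := Real.exp_pos (ε / 4 * K)
  have p2 : C * Real.exp e ≤ C * Real.exp (ε / 4 * K) := mul_le_mul_of_nonneg_left h8 (by linarith)
  have p3 : 2 * C * Real.exp (ε / 4 * K) ≤ ε * Real.exp (ε / 4 * K) * Real.exp (ε / 4 * K) :=
    mul_le_mul_of_nonneg_right h9 p1.le
  have p4 := mul_le_mul_of_nonneg_left h5 hε.le
  rw [h7] at p4
  nlinarith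

end FINx

open CSx COx SPx FINx in
theorem fin (hA : TA) (n : ℕ) (hn : 2 ≤ n) (hsp : SP n) (hin : IN n) : StPLAN n := by
  intro c θ Cu Cz hc0 hθ
  obtain ⟨Cu', u1, u2⟩ : ∃ x : ℝ, 1 ≤ x ∧ Cu ≤ x := ⟨max 1 Cu, le_max_left _ _, le_max_right _ _⟩
  obtain ⟨Cz', z1, z2⟩ : ∃ x : ℝ, 1 ≤ x ∧ Cz ≤ x := ⟨max 1 Cz, le_max_left _ _, le_max_right _ _⟩
  obtain ⟨θ₁, θ0, θ1, θ2, θ3⟩ : ∃ x : ℝ, 0 < x ∧ x ≤ θ ∧ x ≤ c ∧ x ≤ 1 / 2 :=
    ⟨min θ (min c (1 / 2)), lt_min hθ (lt_min hc0 (by norm_num)), min_le_left _ _,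
      (min_le_right _ _).trans (min_le_left _ _), (min_le_right _ _).trans (min_le_right _ _)⟩
  obtain ⟨C, hC, HI⟩ := hin Cu' Cz' u1 z1
  obtain ⟨J, hJ⟩ := big 8 θ₁ θ0
  obtain ⟨ε₁, ε0, _, K₁, H₁⟩ := iter hA hsp Cu' Cz' (Cu' + Cz') (θ₁ / 2) c u1 z1 (by linarith) (by linarith) c hc0 J
  obtain ⟨ε, ε1, ε2, ε3⟩ : ∃ x : ℝ, 0 < x ∧ x ≤ ε₁ ∧ x ≤ θ := ⟨min ε₁ θ, lt_min ε0 hθ, min_le_left _ _, min_le_right _ _⟩
  obtain ⟨K₂, H₂⟩ := small C ε hC ε1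
  obtain ⟨K₃, H₃⟩ := big 2 θ₁ θ0
  obtain ⟨K₄, H₄⟩ := big (Cu' + Cz') 1 one_pos
  refine ⟨ε / 4, by linarith, K₁ + K₂ + K₃ + K₄, fun K w e Ω _ S β Z hK hw hwK he0 he hb hd hcnt hup htim hpr => ?_⟩
  have hK0 : (0 : ℝ) ≤ K := Nat.cast_nonneg K
  have a1 : (⌊θ₁ * K⌋₊ : ℝ) ≤ θ₁ * K := Nat.floor_le (by positivity)
  have a2 : θ₁ * K < ⌊θ₁ * K⌋₊ + 1 := Nat.lt_floor_add_one _
  have a3 : (⌊ε * K⌋₊ : ℝ) ≤ ε * K := Nat.floor_le (by positivity)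
  have b1 : θ₁ * K ≤ θ * K := mul_le_mul_of_nonneg_right θ1 hK0
  have b2 : θ₁ * K ≤ c * K := mul_le_mul_of_nonneg_right θ2 hK0
  have b3 : θ₁ * K ≤ 1 / 2 * K := mul_le_mul_of_nonneg_right θ3 hK0
  have b4 : ε * K ≤ ε₁ * K := mul_le_mul_of_nonneg_right ε2 hK0
  have b5 : ε * K ≤ θ * K := mul_le_mul_of_nonneg_right ε3 hK0
  have b6 : 0 ≤ ε * K := by positivity
  have g3 := H₃ K (by omega)
  have g4 := H₄ K (by omega)
  have zK : Cz * 2 ^ K ≤ Cz' * 2 ^ K := mul_le_mul_of_nonneg_right z2 (by positivity)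
  obtain ⟨pl, hS⟩ := HI K w ⌊θ₁ * K⌋₊ ⌊ε * K⌋₊ e Ω S β Z (by exact_mod_cast (a1.trans b1).trans hw)
    (by exact_mod_cast (a3.trans b5).trans hw) he0 (fun ω hω => (hb ω hω).trans u2)
    (fun ω ω' h1 h2 h3 => ⟨(hd ω ω' h1 h2 h3).1.trans zK, (hd ω ω' h1 h2 h3).2.trans zK⟩)
    (fun s => (hcnt s).trans (Real.rpow_le_rpow_of_exponent_le (by norm_num)
      (mul_le_mul_of_nonneg_right z2 hK0))) hup htim hpr
  have hw1 : θ₁ / 2 * K ≤ (⌊θ₁ * K⌋₊ : ℝ) := by linarith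
  exact H₁ K ⌊θ₁ * K⌋₊ ⌊ε * K⌋₊ _ _ Ω S β Z pl (by omega) hw1 (by
      have : 2 * (⌊θ₁ * K⌋₊ : ℝ) ≤ K := by linarith
      exact_mod_cast this) (a1.trans b2) (a3.trans b4) le_rfl (by
      have c1 : Cu' + Cz' ≤ 2 ^ (K : ℝ) := le_trans (by linarith) (le_two_rpow _)
      have c2 := hJ J le_rfl
      have c3 : 2 * (K : ℝ) ≤ J * ((⌊θ₁ * K⌋₊ : ℝ) / 2) := by
        have d1 : (J : ℝ) * (θ₁ / 2 * K) ≤ J * ⌊θ₁ * K⌋₊ := mul_le_mul_of_nonneg_left hw1 (Nat.cast_nonneg J)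
        have d2 : 8 * (K : ℝ) ≤ θ₁ * J * K := mul_le_mul_of_nonneg_right c2 hK0
        nlinarith
      have c4 : 0 ≤ c * K := by positivity
      calc (Cu' + Cz') * 2 ^ K ≤ 2 ^ (K : ℝ) * 2 ^ K := mul_le_mul_of_nonneg_right c1 (by positivity)
        _ = 2 ^ ((K : ℝ) + K) := by rw [Real.rpow_add (by norm_num), Real.rpow_natCast]
        _ ≤ _ := Real.rpow_le_rpow_of_exponent_le (by norm_num) (by linarith))
    (st_mono hS le_rfl (by linarith) ((H₂ K e (by omega) he).trans ε2))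

end

end Vale.Agent.P076N.TB
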