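import Vale.Agent.P076N.TB.Spec

/-!
# P076N / TB : row IN, the first state
-/

open Finset Vale.Agent.P127 Vale.Agent.P127.Stk
open scoped RealInnerProductSpace

namespace Vale.Agent.P076N.TB

noncomputable section

namespace INx

variable {Ω : Type} [Fintype Ω]

theorem pr_swap (P : Law Ω) {S T : Type} (X : Ω → S) (Y : Ω → T) (a : S) (b : T) :
    P.pr (fun ω => (Y ω, X ω)) (b, a) = P.pr (fun ω => (X ω, Y ω)) (a, b) := by
  classical
  unfold Law.pr
  refine Finset.sum_congr ?_ fun _ _ => rfl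
  ext ω
  simp [and_comm]

theorem hc_ge (P : Law Ω) {S T : Type} (X : Ω → S) (Y : Ω → T) (c : ℝ)
    (h : ∀ a q, P.pr (fun ω => (Y ω, X ω)) (a, q) ≤ Real.exp (-c) * P.pr Y a) : c ≤ hc P X Y := by
  unfold hc Law.H
  rw [← P.ex_sub, ← P.ex_const c]
  refine P.ex_mono fun ω hω => ?_
  have h1 := P.pr_pos (fun ω => (X ω, Y ω)) hω
  have h2 := P.pr_pos Y hω
  have h3 := h (Y ω) (X ω)
  rw [pr_swap] at h3
  have h4 := Real.log_le_log h1 h3
  rw [Real.log_mul (Real.exp_pos _).ne' h2.ne', Real.log_exp] at h4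
  linarith

theorem prE_le (P : Law Ω) (E : Ω → Prop) {S T : Type} (X : Ω → S) (Y : Ω → T) (F : T → Finset S)
    (c N : ℝ) (hc : 0 ≤ c) (hF : ∀ a, (#(F a) : ℝ) ≤ N)
    (hE : ∀ ω, 0 < P.w ω → E ω → X ω ∈ F (Y ω))
    (h : ∀ a q, P.pr (fun ω => (Y ω, X ω)) (a, q) ≤ c * P.pr Y a) : prE P E ≤ N * c := by
  classical
  have h1 : prE P E ≤ ∑ a ∈ img Y, ∑ q ∈ F a, P.pr (fun ω => (Y ω, X ω)) (a, q) := by
    unfold prE Law.pr
    simp only [Finset.sum_filter]
    have e1 : ∀ a ∈ img Y, ∑ q ∈ F a, ∑ ω, (if (Y ω, X ω) = (a, q) then P.w ω else 0) =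
        ∑ ω, ∑ q ∈ F a, (if (Y ω, X ω) = (a, q) then P.w ω else 0) := fun a _ => Finset.sum_comm
    refine le_trans ?_ (le_of_eq (Finset.sum_congr (by congr) fun a ha => ?_ :
      ∑ a ∈ img Y, ∑ ω, ∑ q ∈ F a, (if (Y ω, X ω) = (a, q) then P.w ω else 0) = _))
    · rw [Finset.sum_comm]
      refine Finset.sum_le_sum fun ω _ => ?_
      have n1 : ∀ a q, 0 ≤ (if (Y ω, X ω) = (a, q) then P.w ω else 0) := fun a q => by
        split_ifs
        · exact P.nn ω
        · exact le_rfl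
      have n2 : ∀ a, 0 ≤ ∑ q ∈ F a, (if (Y ω, X ω) = (a, q) then P.w ω else 0) := fun a =>
        Finset.sum_nonneg fun q _ => n1 a q
      by_cases h2 : 0 < P.w ω ∧ E ω
      · refine le_trans ?_ (Finset.single_le_sum (fun a _ => n2 a) (mem_img.2 ⟨ω, rfl⟩))
        refine le_trans ?_ (Finset.single_le_sum (fun q _ => n1 _ q) (hE ω h2.1 h2.2))
        simp [h2.2]
      · refine le_trans ?_ (Finset.sum_nonneg fun a _ => n2 a)
        split_ifs with h3
        · exact not_lt.1 fun h4 => h2 ⟨h4, h3⟩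
        · exact le_rfl
    · rw [← e1 a ha]
  refine h1.trans ?_
  calc ∑ a ∈ img Y, ∑ q ∈ F a, P.pr (fun ω => (Y ω, X ω)) (a, q)
      ≤ ∑ a ∈ img Y, N * c * P.pr Y a := by
        refine Finset.sum_le_sum fun a _ => ?_
        refine (Finset.sum_le_card_nsmul _ _ _ fun q _ => h a q).trans ?_
        rw [nsmul_eq_mul, mul_assoc]
        exact mul_le_mul_of_nonneg_right (hF a) (mul_nonneg hc (P.pr_nonneg _ _))
    _ = N * c := by rw [← Finset.mul_sum, P.sum_pr_image, mul_one]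

end INx

open INx in
theorem ini : TA → TF → ∀ n, 2 ≤ n → IN n := by
  intro _ tf n hn Cu Cz hCu hCz
  obtain ⟨C, hC, hF⟩ := tf.str n (n - 2) Cu (by omega)
  refine ⟨C, hC, ?_⟩
  intro K w w' lam e Ω _ S β Z hw hlam he hb hd hcnt hup htim hpr
  classical
  let ν : Vc n := EuclideanSpace.single ⟨0, by omega⟩ 1
  have hν : ‖ν‖ = 1 := by simp [ν]
  have hs : ∀ s : S.γ, ∃ b : ℝ, ∀ ω, 0 < S.P.w ω → S.side ω = s → |⟪ν, S.x ω⟫ - b| ≤ Cz * 2 ^ K := by
    intro s
    by_cases h : ∃ ω, 0 < S.P.w ω ∧ S.side ω = s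
    · obtain ⟨ω', h1, h2⟩ := h
      refine ⟨⟪ν, S.x ω'⟫, fun ω h3 h4 => ?_⟩
      rw [← inner_sub_right]
      refine (abs_real_inner_le_norm _ _).trans ?_
      rw [hν, one_mul]
      exact (hd ω ω' h3 h1 (h4.trans h2.symm)).1
    · exact ⟨0, fun ω h1 h2 => absurd ⟨ω, h1, h2⟩ h⟩
  choose b hbs using hs
  have p2 : (0 : ℝ) < 2 ^ K := by positivity
  refine ⟨fun s => (ν, 0, b s), hb, hd, hcnt, fun _ => hν, fun ω hω => ⟨?_, ?_⟩, hup, htim, ?_, ?_,
    by linarith⟩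
  · rw [mul_div_cancel_right₀ _ p2.ne', sub_zero]
    refine (abs_real_inner_le_norm _ _).trans ?_
    rw [hν, one_mul]
    linarith [hb ω hω]
  · simp only [zero_mul, sub_zero]
    refine (hbs _ ω hω rfl).trans ?_
    nlinarith
  · refine hc_ge _ _ _ _ fun a q => (hpr w' hw a q).trans (le_of_eq ?_)
    congr 1
    rw [neg_sub, Real.exp_sub]
    congr 1
    rw [← Real.exp_log (show (0 : ℝ) < 2 ^ ((n - 1) * w') by positivity), Real.log_pow]
    congr 2
    rw [Nat.cast_mul, Nat.cast_sub (by omega), Nat.cast_one]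
  · intro pl
    choose F hF1 hF2 using hF lam
    refine (prE_le S.P _ (S.dir lam) S.ξ (fun a => F (pl a)) _ _ (by positivity) (fun a => hF1 _)
      (fun ω hω h => hF2 _ _ (hb ω hω) h) (hpr lam hlam)).trans (le_of_eq ?_)
    rw [show (n - 1) * lam = (n - 2) * lam + lam by
      rw [show n - 1 = (n - 2) + 1 by omega, add_mul, one_mul], pow_add]
    field_simp

end

end Vale.Agent.P076N.TB
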