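import Vale.Agent.P076N.TB.Rs

/-!
# P076N / TB : row LA, the Loomis-Whitney inequality from its steps
-/

set_option linter.all false

open Finset Vale.Agent.P127 Vale.Agent.P127.Stk
open scoped RealInnerProductSpace

namespace Vale.Agent.P076N.TB

namespace LAx

variable {Ω : Type} [Fintype Ω] {k : ℕ}

theorem cel_up (ha : TA) (S : TSys Ω k) {p q : ℕ} (h : p ≤ q) {ω ω' : Ω} (e : S.cel p ω = S.cel p ω') :
    S.cel q ω = S.cel q ω' :=
  Prod.ext (funext fun l => ha.upr p q _ _ h (congrFun (congrArg Prod.fst e) l))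
    (ha.upr p q _ _ h (congrArg Prod.snd e))

theorem hB_add (ha : TA) (S : TSys Ω k) {p s s' : ℕ} (h1 : p ≤ s) (h2 : s ≤ s') :
    S.hB p s + S.hB s s' ≤ S.hB p s' := by
  have b1 := hc_pair S.P (S.cel s) (S.cel p) (fun ω => (S.cel s' ω, S.side ω))
  have b2 : hc S.P (fun ω => (S.cel s ω, S.cel p ω)) (fun ω => (S.cel s' ω, S.side ω)) ≤ S.hB p s' :=
    hc_mono_left _ fun ω ω' _ _ e =>
      Prod.ext (cel_up ha S h1 (congrArg Prod.fst e)) (congrArg Prod.fst e)
  have b3 : S.hB p s ≤ hc S.P (S.cel p) (fun ω => (S.cel s ω, S.cel s' ω, S.side ω)) :=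
    hc_mono_right _ _ fun ω ω' _ _ e => Prod.ext (Prod.mk.inj e).1
      (Prod.ext (cel_up ha S h2 (Prod.mk.inj e).1) (Prod.mk.inj e).2)
  unfold TSys.hB at *
  linarith

theorem chain (P : Law Ω) {T : Type} (X Y Z : Ω → ℤ) (V : Ω → T) :
    hc P X (fun ω => (Z ω, V ω)) ≤ hc P X (fun ω => (Y ω, V ω)) + hc P Y (fun ω => (Z ω, V ω)) := by
  have b1 := hc_le_add' P X Y (fun ω => (Z ω, V ω))
  have b2 : hc P X (fun ω => (Y ω, Z ω, V ω)) ≤ hc P X (fun ω => (Y ω, V ω)) :=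
    hc_mono_right _ _ fun ω ω' _ _ e => by
      simp only [Prod.mk.injEq] at e ⊢
      exact ⟨e.1, e.2.2⟩
  linarith

end LAx

open LAx RSx LSx in
theorem la (ha : TA) (hc' : TC) (hlt : LT) (hls : LS) (k : ℕ) : StLW k := by
  intro f hfk Cu ε hε
  obtain ⟨C, hC, hS⟩ := hls k (f + 1) Cu (Cu + k)
  obtain ⟨F, hF⟩ : ∃ F : ℝ, F = ((f : ℝ) + 2) * ((f + 2) * k) := ⟨_, rfl⟩
  have hF0 : 0 ≤ F := by rw [hF]; positivity
  obtain ⟨e1, he0, he1, he2⟩ : ∃ e1 : ℝ, 0 < e1 ∧ e1 ≤ 1 ∧ F * e1 ≤ ε / 4 := by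
    refine ⟨min 1 (ε / (4 * (F + 1))), lt_min one_pos (by positivity), min_le_left _ _, ?_⟩
    have h1 := min_le_right 1 (ε / (4 * (F + 1)))
    rw [le_div_iff₀ (by positivity)] at h1
    have h2 : 0 ≤ min 1 (ε / (4 * (F + 1))) := le_min zero_le_one (by positivity)
    linarith
  obtain ⟨m, hm⟩ := exists_nat_ge (1 / e1)
  rw [div_le_iff₀ he0] at hm
  have hmC : (0 : ℝ) ≤ m * C := by positivity
  obtain ⟨ε', hε0, hε1, hε2⟩ : ∃ ε' : ℝ, 0 < ε' ∧ ε' ≤ e1 / 2 ∧ m * C * ε' ≤ ε / 12 := by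
    refine ⟨min (e1 / 2) (ε / (12 * (m * C + 1))), lt_min (by positivity) (by positivity), min_le_left _ _, ?_⟩
    have h1 := min_le_right (e1 / 2) (ε / (12 * (m * C + 1)))
    rw [le_div_iff₀ (by positivity)] at h1
    have h2 : 0 ≤ min (e1 / 2) (ε / (12 * (m * C + 1))) := le_min (by positivity) (by positivity)
    linarith
  obtain ⟨c, hc0⟩ : ∃ c : ℝ, c = Real.log (2 * (2 * |Cu|) + 3) := ⟨_, rfl⟩
  obtain ⟨n1, hn1⟩ := exists_nat_ge ((2 * (m * C) + F * (1 + c)) / (ε / 4))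
  obtain ⟨n2, hn2⟩ := exists_nat_ge (((k : ℝ) + 1) / (e1 / 2))
  rw [div_le_iff₀ (by positivity)] at hn1 hn2
  refine ⟨ε', hε0, n1 + n2 + 1, fun w p q Ω _ S hpq hw hB hbr => ?_⟩
  obtain ⟨L, rfl⟩ : ∃ L, q = p + L := ⟨q - p, by omega⟩
  have eL : ((p + L : ℕ) : ℝ) - p = L := by push_cast; ring
  rw [eL] at hw ⊢
  have hL1 : (n1 : ℝ) ≤ L := by exact_mod_cast (by omega : n1 ≤ L)
  have hL2 : (n2 : ℝ) ≤ L := by exact_mod_cast (by omega : n2 ≤ L)
  have hL3 : (1 : ℝ) ≤ L := by exact_mod_cast (by omega : 1 ≤ L)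
  obtain ⟨y, hy1, hy2⟩ : ∃ y : ℕ, e1 * L ≤ y ∧ (y : ℝ) ≤ e1 * L + 1 :=
    ⟨⌈e1 * L⌉₊, Nat.le_ceil _, (Nat.ceil_lt_add_one (by positivity)).le⟩
  have a1 := mul_le_mul_of_nonneg_right hε1 (by linarith : (0 : ℝ) ≤ L)
  have a2 := mul_le_mul_of_nonneg_right hL2 (by positivity : 0 ≤ e1 / 2)
  have a3 : e1 * L ≤ L := mul_le_of_le_one_left (by linarith) he1
  have hy3 : w + k + 1 ≤ y := by exact_mod_cast (by push_cast; linarith : ((w + k + 1 : ℕ) : ℝ) ≤ y)
  have hy4 : L ≤ m * y := by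
    have b1 := mul_le_mul_of_nonneg_right hm (by linarith : (0 : ℝ) ≤ L)
    have b2 := mul_le_mul_of_nonneg_left hy1 (Nat.cast_nonneg (α := ℝ) m)
    exact_mod_cast (by push_cast; linarith : (L : ℝ) ≤ ((m * y : ℕ) : ℝ))
  obtain ⟨Ω', _, Q, π, ν, v, hM, hξ, hν, hT, hv, hE⟩ := hlt k f w y Cu ε' Ω S hfk hε0.le hy3 hB hbr
  obtain ⟨E, hE'⟩ : ∃ E : ℝ, E = C * (1 + ((w + 1 : ℕ) : ℝ) + ε' * y) := ⟨_, rfl⟩
  have hE0 : 0 ≤ E := by rw [hE']; positivity
  have key : ∀ i s : ℕ, p ≤ s → s ≤ p + i * y → ∑ j, hc Q (fun a => S.tm p (π j a))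
      (fun a => (S.tm s (π j a), S.tub p (π j a), S.side (π j a), fun i => S.dir y (π i a))) ≤
      S.hB p s + i * E := by
    intro i
    induction i with
    | zero =>
      intro s h1 h2
      obtain rfl : p = s := by omega
      refine le_trans (le_of_eq (sum_eq_zero fun j _ => hc_zero Q fun a a' _ _ e => (Prod.mk.inj e).1)) ?_
      simpa [TSys.hB] using hc_nonneg _ _ _
    | succ i ih =>
      intro s h1 h2
      push_cast
      by_cases h3 : s ≤ p + i * y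
      · have := ih s h1 h3
        linarith
      · have b1 := ih (p + i * y) (by omega) le_rfl
        have b2 := hS Ω Ω' S Q π ν v p (p + i * y) s y (w + 1) ε' (by omega) (by omega)
          (by rw [add_mul, one_mul] at h2; omega) hε0.le hB hM hξ hν hT hv hE
        have b3 := hB_add ha S (by omega : p ≤ p + i * y) (by omega : p + i * y ≤ s)
        have b4 := sum_le_sum fun j (_ : j ∈ (univ : Finset (Fin (f + 2)))) =>
          chain Q (fun a => S.tm p (π j a)) (fun a => S.tm (p + i * y) (π j a)) (fun a => S.tm s (π j a))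
            (fun a => (S.tub p (π j a), S.side (π j a), fun i => S.dir y (π i a)))
        rw [sum_add_distrib] at b4
        linarith
  have k1 := key m (p + L) (by omega) (by omega)
  have k2 : ∀ j, S.hT p p (p + L) - (f + 2) * k * (y + c) ≤ hc Q (fun a => S.tm p (π j a))
      (fun a => (S.tm (p + L) (π j a), S.tub p (π j a), S.side (π j a), fun i => S.dir y (π i a))) := by
    intro j
    have b1 := hc_le_add' Q (fun a => S.tm p (π j a)) (fun a i => S.dir y (π i a))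
      (fun a => (S.tm (p + L) (π j a), S.tub p (π j a), S.side (π j a)))
    have b2 := hc'.hcm (hM j) (S.tm p) fun ω => (S.tm (p + L) ω, S.tub p ω, S.side ω)
    have b3 : hc Q (fun a => S.tm p (π j a)) (fun a => ((fun i => S.dir y (π i a)), S.tm (p + L) (π j a),
        S.tub p (π j a), S.side (π j a))) ≤ hc Q (fun a => S.tm p (π j a))
        (fun a => (S.tm (p + L) (π j a), S.tub p (π j a), S.side (π j a), fun i => S.dir y (π i a))) :=
      hc_mono_right _ _ fun a a' _ _ e => by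
        simp only [Prod.mk.injEq] at e ⊢
        exact ⟨e.2.1, e.2.2.1, e.2.2.2, e.1⟩
    have b4 : hc Q (fun a i => S.dir y (π i a))
        (fun a => (S.tm (p + L) (π j a), S.tub p (π j a), S.side (π j a))) ≤
        Real.log (((2 * (2 * |Cu| * 2 ^ y) + 3) ^ k) ^ (f + 2)) := by
      refine ha.one _ _ _ _ (cnt_pi (X := fun i a => S.dir y (π i a)) fun i =>
        ha.flv Q _ (fun a => S.u (π i a)) _ (2 ^ y)⁻¹ _ (by positivity) fun a a' h h' _ _ _ => ?_)
      have c1 := hB _ (hc'.pos (hM i) a h)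
      have c2 := hB _ (hc'.pos (hM i) a' h')
      have c3 := le_abs_self Cu
      rw [mul_assoc, mul_inv_cancel₀ (by positivity), mul_one]
      exact (norm_sub_le _ _).trans (by linarith)
    rw [Real.log_pow, Real.log_pow] at b4
    have b5 := log_pw (2 * |Cu|) y (by positivity)
    have l2 : Real.log 2 ≤ 1 := by have := Real.log_le_sub_one_of_pos (by norm_num : (0 : ℝ) < 2); linarith
    have b6 : (y : ℝ) * Real.log 2 ≤ y := mul_le_of_le_one_right (Nat.cast_nonneg _) l2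
    have b7 := mul_le_mul_of_nonneg_left (by linarith : Real.log (2 * (2 * |Cu| * 2 ^ y) + 3) ≤ y + c)
      (by positivity : (0 : ℝ) ≤ (f + 2) * k)
    unfold TSys.hT
    push_cast at b4
    linarith
  have k3 := sum_le_sum fun j (_ : j ∈ (univ : Finset (Fin (f + 2)))) => k2 j
  rw [sum_const, card_univ, Fintype.card_fin, nsmul_eq_mul] at k3
  push_cast at k3 hE'
  have c1 : ((f : ℝ) + 2) * ((f + 2) * k * (y + c)) = F * (y + c) := by rw [hF]; ring
  have c2 := mul_le_mul_of_nonneg_left hy2 hF0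
  have c3 := mul_le_mul_of_nonneg_right he2 (by linarith : (0 : ℝ) ≤ L)
  have c4 := mul_le_mul_of_nonneg_right hL1 (by positivity : 0 ≤ ε / 4)
  have c5 := mul_le_mul_of_nonneg_left hw hmC
  have c6 := mul_le_mul_of_nonneg_left (by linarith : (y : ℝ) ≤ 2 * L) (by positivity : 0 ≤ m * C * ε')
  have c7 := mul_le_mul_of_nonneg_right hε2 (by linarith : (0 : ℝ) ≤ L)
  have c9 : 0 ≤ ε * L := by positivity
  have c8 : m * E = m * C * (2 + w + ε' * y) := by rw [hE']; ring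
  linarith

end Vale.Agent.P076N.TB
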