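import Vale.Agent.P076N.TB.Spec

/-!
# P076N / TB : row LS, one step of the Loomis-Whitney inequality
-/

set_option linter.all false

open Finset Vale.Agent.P127 Vale.Agent.P127.Stk
open scoped RealInnerProductSpace

namespace Vale.Agent.P076N.TB

namespace LSx

section cnt

variable {Ω : Type} [Fintype Ω] {P : Law Ω} {E : Ω → Prop} {S S' T : Type}

theorem cnt_fn {X : Ω → S} {Y : Ω → T} {N : ℝ} (hN : 1 ≤ N) (h : Fn P X Y) : Cnt P E X Y N :=
  fun ω hω _ => ⟨{X ω}, by simpa using hN, fun ω' hω' _ e => mem_singleton.2 (h ω' ω hω' hω e)⟩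

theorem cnt_pair {X : Ω → S} {X' : Ω → S'} {Y : Ω → T} {N N' : ℝ} (h : Cnt P E X Y N)
    (h' : Cnt P E X' Y N') : Cnt P E (fun ω => (X ω, X' ω)) Y (N * N') := by
  intro ω hω hE
  obtain ⟨F, h1, h2⟩ := h ω hω hE
  obtain ⟨F', h1', h2'⟩ := h' ω hω hE
  refine ⟨F ×ˢ F', ?_, fun ω' a b c => mem_product.2 ⟨h2 ω' a b c, h2' ω' a b c⟩⟩
  rw [card_product, Nat.cast_mul]
  exact mul_le_mul h1 h1' (Nat.cast_nonneg _) ((Nat.cast_nonneg _).trans h1)

theorem cnt_pi {n : ℕ} {X : Fin n → Ω → S} {Y : Ω → T} {N : ℝ} (h : ∀ j, Cnt P E (X j) Y N) :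
    Cnt P E (fun ω j => X j ω) Y (N ^ n) := by
  classical
  intro ω hω hE
  choose F h1 h2 using fun j => h j ω hω hE
  refine ⟨Fintype.piFinset F, ?_, fun ω' a b c => Fintype.mem_piFinset.2 fun j => h2 j ω' a b c⟩
  rw [Fintype.card_piFinset, Nat.cast_prod]
  calc ∏ j, (#(F j) : ℝ) ≤ ∏ _j : Fin n, N := prod_le_prod (fun _ _ => Nat.cast_nonneg _) fun j _ => h1 j
    _ = N ^ n := by simp

end cnt

/-- the variation of a linear functional along a tube -/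
theorem var {k : ℕ} (ν u q x x' : Vc k) (t t' v a b c : ℝ) (hν : ‖ν‖ ≤ 1)
    (h1 : ‖(x - t • u) - (x' - t' • u)‖ ≤ a) (h2 : |t - t'| ≤ b) (h3 : ‖u - q‖ ≤ c) :
    |(⟪ν, x⟫ - v * t) - (⟪ν, x'⟫ - v * t') - (t - t') * (⟪ν, q⟫ - v)| ≤ a + b * c := by
  have e : (⟪ν, x⟫ - v * t) - (⟪ν, x'⟫ - v * t') - (t - t') * (⟪ν, q⟫ - v) =
      ⟪ν, (x - t • u) - (x' - t' • u)⟫ + (t - t') * ⟪ν, u - q⟫ := by
    simp only [inner_sub_right, inner_smul_right]
    ring
  have k1 : ∀ z : Vc k, |⟪ν, z⟫| ≤ ‖z‖ := fun z =>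
    (abs_real_inner_le_norm _ _).trans (mul_le_of_le_one_left (norm_nonneg _) hν)
  rw [e]
  refine (abs_add_le _ _).trans (add_le_add ((k1 _).trans h1) ?_)
  rw [abs_mul]
  exact mul_le_mul h2 ((k1 _).trans h3) (abs_nonneg _) ((abs_nonneg _).trans h2)

theorem log_e (k w y : ℕ) (β : ℝ) (hβ : 0 ≤ β) :
    Real.log 2 + Real.log (2 * ((1 + 2 * k) * 2 ^ w) + 3) + min β 1 * Real.log (2 * 2 ^ y + 3) ≤
      (4 * k + 11) + w + β * y := by
  have l2 : Real.log 2 ≤ 1 := by have := Real.log_le_sub_one_of_pos (by norm_num : (0 : ℝ) < 2); linarith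
  have l0 : 0 ≤ Real.log 2 := Real.log_nonneg (by norm_num)
  have key : ∀ (c : ℝ) (n : ℕ), 0 ≤ c → Real.log (2 * (c * 2 ^ n) + 3) ≤ 2 * c + 2 + n := by
    intro c n hc
    have h1 : (1 : ℝ) ≤ 2 ^ n := one_le_pow₀ (by norm_num)
    have h2 : Real.log (2 * (c * 2 ^ n) + 3) ≤ Real.log ((2 * c + 3) * 2 ^ n) :=
      Real.log_le_log (by positivity) (by nlinarith)
    rw [Real.log_mul (by positivity) (by positivity), Real.log_pow] at h2
    have h3 := Real.log_le_sub_one_of_pos (by positivity : 0 < 2 * c + 3)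
    have h4 : (n : ℝ) * Real.log 2 ≤ n := mul_le_of_le_one_right (Nat.cast_nonneg _) l2
    linarith
  have h1 := key (1 + 2 * k) w (by positivity)
  have h2 := key 1 y zero_le_one
  rw [one_mul] at h2
  have h3 : 0 ≤ min β 1 := le_min hβ zero_le_one
  have h4 := mul_le_mul_of_nonneg_left h2 h3
  have h5 : min β 1 * (y : ℝ) ≤ β * y := mul_le_mul_of_nonneg_right (min_le_left _ _) (Nat.cast_nonneg _)
  have h6 := min_le_right β 1
  linarith

end LSx

open LSx in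
theorem ls (ha : TA) (hc' : TC) : LS := by
  intro k r Cu B
  obtain ⟨c, hcd⟩ : ∃ c : ℝ, c = Real.log ((2 * ((k : ℝ) + |B|) + 3) ^ (r + 1)) := ⟨_, rfl⟩
  obtain ⟨d, hdd⟩ : ∃ d : ℝ, d = Real.log ((2 * (2 * (k : ℝ)) + 3) ^ (r + 1) *
    ((2 * ((k : ℝ) + |Cu| + 1) + 3) ^ (k + 1) * 1)) := ⟨_, rfl⟩
  refine ⟨|c| + (r + 1) * (|d| + (4 * k + 11)), by positivity, ?_⟩
  intro Ω Ω' _ _ S Q π ν v p s s' y w β hps hss hsy hβ hB hM hξ hν hT hv hE
  have hk0 : (0 : ℝ) ≤ k := Nat.cast_nonneg _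
  have hx : ∀ a, 0 < Q.w a → ∀ j, S.x (π j a) = S.x (π 0 a) ∧ S.t (π j a) = S.t (π 0 a) ∧
      S.side (π j a) = S.side (π 0 a) := fun a h j => by
    simp only [TSys.x, TSys.t, TSys.side, hξ a h j 0, and_self]
  have p1 : (2 : ℝ) ^ p ≤ 2 ^ s := pow_le_pow_right₀ one_le_two hps
  have p2 : (2 : ℝ) ^ s ≤ 2 ^ s' := pow_le_pow_right₀ one_le_two hss
  have p3 : (2 : ℝ) ^ s' ≤ 2 ^ y * 2 ^ s := by
    rw [← pow_add]; exact pow_le_pow_right₀ one_le_two (by omega)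
  have p0 : (0 : ℝ) < 2 ^ s := by positivity
  let D : Ω' → Fin (r + 1) → Zv k := fun a i => S.dir y (π i a)
  let ψ : Fin (r + 1) → Ω' → ℝ := fun j a => ⟪ν (D a) j, S.x (π 0 a)⟫ - v (D a) j * S.t (π 0 a)
  let W := fun (j : Fin (r + 1)) (a : Ω') => (S.tm s' (π j a), S.tub p (π j a), S.side (π j a), D a)
  have hW : ∀ j a a', 0 < Q.w a → 0 < Q.w a' → W j a = W j a' →
      D a = D a' ∧ S.side (π 0 a) = S.side (π 0 a') ∧ |S.t (π 0 a) - S.t (π 0 a')| ≤ 2 ^ s' ∧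
      ‖S.x (π 0 a) - S.x (π 0 a')‖ ≤ (k + |Cu| + 1) * 2 ^ s' ∧
      ∀ i, |ψ i a - ψ i a' - (S.t (π 0 a) - S.t (π 0 a')) * (⟪ν (D a) i, vq y (D a j)⟫ - v (D a) i)| ≤
        2 * k * 2 ^ s := by
    intro j a a' h h' e
    simp only [W, TSys.tub, TSys.tm, Prod.mk.injEq] at e
    obtain ⟨e1, ⟨e2, e3⟩, e4, e5⟩ := e
    obtain ⟨x1, x2, x3⟩ := hx a h j
    obtain ⟨y1, y2, y3⟩ := hx a' h' j
    rw [x2, y2] at e1
    rw [x1, x2, y1, y2, ← e2] at e3
    rw [x3, y3] at e4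
    have b1 := ha.clr _ _ _ (by positivity) e1
    have b2 := ha.clv _ _ _ (by positivity) e3
    have b3 : ‖S.u (π j a) - vq y (D a j)‖ ≤ k * (2 ^ y)⁻¹ := ha.crn _ _ (by positivity)
    have b4 : ‖S.u (π j a)‖ ≤ |Cu| := (hB _ (hc'.pos (hM j) a h)).trans (le_abs_self _)
    refine ⟨e5, e4, b1, ?_, fun i => ?_⟩
    · have e : S.x (π 0 a) - S.x (π 0 a') = (S.x (π 0 a) - S.t (π 0 a) • S.u (π j a) -
          (S.x (π 0 a') - S.t (π 0 a') • S.u (π j a))) + (S.t (π 0 a) - S.t (π 0 a')) • S.u (π j a) := by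
        rw [sub_smul]; abel
      rw [e]
      refine (norm_add_le _ _).trans ?_
      rw [norm_smul, Real.norm_eq_abs]
      have b5 := mul_le_mul b1 b4 (norm_nonneg _) (by positivity)
      have b6 := mul_le_mul_of_nonneg_left (p1.trans p2) hk0
      have b7 : (0 : ℝ) < 2 ^ s' := by positivity
      linarith
    · have b5 := var (ν (D a) i) _ _ _ _ _ _ (v (D a) i) _ _ _ (hν _ _) b2 (b1.trans p3) b3
      have b6 : (2 : ℝ) ^ y * 2 ^ s * (k * (2 ^ y)⁻¹) = k * 2 ^ s := by field_simp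
      have b7 := mul_le_mul_of_nonneg_left p1 hk0
      simp only [ψ, ← e5]
      linarith
  have key := ha.han Q (fun a => S.cel s (π 0 a)) (fun a => (S.cel s' (π 0 a), S.side (π 0 a), D a))
    (fun j a => ⌊ψ j a / 2 ^ s⌋) W (fun j a => S.tm s (π j a)) c (fun _ => d)
    (fun _ => (4 * k + 11) + w + β * y) ?_ ?_ ?_
  · have h1 : hc Q (fun a => S.cel s (π 0 a)) (fun a => (S.cel s' (π 0 a), S.side (π 0 a), D a)) ≤
        S.hB s s' := by
      rw [TSys.hB, ← hc'.hcm (hM 0)]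
      refine hc_mono_right Q _ fun a a' _ _ e => ?_
      simp only [Prod.mk.injEq] at e ⊢
      exact ⟨e.1, e.2.1⟩
    simp only [sum_const, card_univ, Fintype.card_fin, nsmul_eq_mul] at key
    push_cast at key
    have h2 := le_abs_self c
    have h3 := mul_le_mul_of_nonneg_left (le_abs_self d) (by positivity : (0 : ℝ) ≤ r + 1)
    have h4 : (0 : ℝ) ≤ w + β * y := by positivity
    have h5 : (0 : ℝ) ≤ (|c| + (r + 1) * (|d| + (4 * k + 10))) * (w + β * y) := by positivity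
    refine key.trans ?_
    linarith
  · rw [hcd]
    refine ha.one Q _ _ _ (cnt_pi fun j => ha.flr Q _ (ψ j) _ _ _ p0 fun a a' h h' _ _ e => ?_)
    simp only [TSys.cel, TSys.tm, Prod.mk.injEq] at e
    obtain ⟨⟨e1, e2⟩, -, -, e3⟩ := e
    have b1 := ha.clr _ _ _ p0 e2
    have b2 := ha.clv _ _ _ p0 e1
    have e : ψ j a - ψ j a' = ⟪ν (D a) j, S.x (π 0 a) - S.x (π 0 a')⟫ -
        v (D a) j * (S.t (π 0 a) - S.t (π 0 a')) := by
      simp only [ψ, ← e3, inner_sub_right]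
      ring
    rw [e]
    refine (abs_sub _ _).trans ?_
    have b3 := (abs_real_inner_le_norm (ν (D a) j) (S.x (π 0 a) - S.x (π 0 a'))).trans
      (mul_le_of_le_one_left (norm_nonneg _) (hν _ _))
    have b4 := mul_le_mul ((hv a h j).trans (le_abs_self B)) b1 (abs_nonneg _) (abs_nonneg _)
    rw [abs_mul]
    linarith
  · intro j
    rw [hdd]
    refine ha.one Q _ _ _ (cnt_pair (cnt_pi (X := fun i a => if j < i then ⌊ψ i a / 2 ^ s⌋ else 0) fun i => ?_)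
      (cnt_pair (ha.cel Q _ _ _ _ _ _ (by positivity) fun a a' h h' _ _ e => ?_)
        (cnt_fn le_rfl fun a a' h h' e => ?_)))
    · by_cases hji : j < i
      · simp only [hji, if_true]
        refine ha.flr Q _ (ψ i) _ _ _ p0 fun a a' h h' _ _ e => ?_
        have := (hW j a a' h h' e).2.2.2.2 i
        rwa [hT _ _ _ hji, sub_self, mul_zero, sub_zero] at this
      · simp only [hji, if_false]
        exact cnt_fn (by linarith) fun _ _ _ _ _ => rfl
    · obtain ⟨-, -, b1, b2, -⟩ := hW j a a' h h' e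
      refine ⟨b2, b1.trans (le_mul_of_one_le_left (by positivity) ?_)⟩
      have := abs_nonneg Cu
      linarith
    · obtain ⟨b1, b2, -⟩ := hW j a a' h h' e
      exact Prod.ext b2 b1
  · intro j
    refine le_trans ?_ (log_e k w y β hβ)
    have q1 : (0 : ℝ) < 2 ^ w := by positivity
    have q2 : (0 : ℝ) < 2 ^ y := by positivity
    refine ha.exc Q (fun a => ¬ |⟪ν (D a) j, vq y (D a j)⟫ - v (D a) j| < (2 ^ w)⁻¹) _ _ _ _ _
      (by have : (0 : ℝ) ≤ (1 + 2 * k) * 2 ^ w := by positivity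
          linarith) (by linarith)
      (ha.flr Q _ (fun a => S.t (π j a)) _ _ _ p0 fun a a' h h' hg _ e => ?_)
      (ha.flr Q _ (fun a => S.t (π j a)) _ _ _ p0 fun a a' h h' _ _ e => ?_)
      (le_min (by simpa only [not_not] using hE j) (prE_le_one _ _))
    · rw [Prod.mk.injEq] at e
      obtain ⟨-, -, -, -, b1⟩ := hW j a a' h h' e.2
      have b2 := ha.clr _ _ _ p0 e.1
      have b3 := b1 j
      rw [(hx a h j).2.1, (hx a' h' j).2.1]
      have b4 : |(S.t (π 0 a) - S.t (π 0 a')) * (⟪ν (D a) j, vq y (D a j)⟫ - v (D a) j)| ≤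
          (1 + 2 * k) * 2 ^ s := by
        rw [abs_le] at b2 b3 ⊢
        constructor <;> linarith
      rw [abs_mul] at b4
      have b5 := (mul_le_mul_of_nonneg_left (not_lt.1 hg) (abs_nonneg _)).trans b4
      rw [mul_inv_le_iff₀ q1] at b5
      linarith
    · rw [Prod.mk.injEq] at e
      obtain ⟨-, -, b1, -⟩ := hW j a a' h h' e.2
      rw [(hx a h j).2.1, (hx a' h' j).2.1]
      exact b1.trans p3

end Vale.Agent.P076N.TB
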