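import Vale.Agent.P076N.TB.Ta1

/-!
# P076N / TB : row LT, transversal copies
-/

set_option linter.all false

open Finset Vale.Agent.P127 Vale.Agent.P127.Stk
open scoped RealInnerProductSpace

namespace Vale.Agent.P076N.TB

namespace LTx

theorem fr (hf : TF) (k f y : ℕ) (t : Fin (f + 2) → Zv k) (j : Fin (f + 2)) : ∃ O : Vc k ≃ₗᵢ[ℝ] Vc k,
    ∀ i < j, ∀ l : Fin k, f ≤ (l : ℕ) → O (vq y (t i) - vq y (t 0)) l = 0 := by
  classical
  obtain ⟨O, hO⟩ := hf.frm k f (Submodule.span ℝ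
    (((Ioo 0 j).image fun i => vq y (t i) - vq y (t 0) : Finset (Vc k)) : Set (Vc k))) (by
      refine (finrank_span_finset_le_card _).trans (card_image_le.trans ?_)
      rw [Fin.card_Ioo]
      have := j.2
      simp only [Fin.val_zero]
      omega)
  refine ⟨O, fun i hi l hl => ?_⟩
  rcases eq_or_ne i 0 with rfl | h0
  · simp
  · refine hO _ (Submodule.subset_span ?_) l hl
    exact mem_coe.2 (mem_image.2 ⟨i, mem_Ioo.2 ⟨Fin.pos_iff_ne_zero.2 h0, hi⟩, rfl⟩)

theorem nu {k : ℕ} (O : Vc k ≃ₗᵢ[ℝ] Vc k) (f : ℕ) (ρ : ℝ) (z : Vc k) : ∃ ν : Vc k, ‖ν‖ ≤ 1 ∧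
    (∀ x, (∀ l : Fin k, f ≤ (l : ℕ) → O x l = 0) → ⟪ν, x⟫ = 0) ∧
    (|⟪ν, z⟫| < ρ → ∀ l : Fin k, f ≤ (l : ℕ) → |O z l| ≤ ρ) := by
  by_cases h : ∃ l : Fin k, f ≤ (l : ℕ) ∧ ρ ≤ |O z l|
  · obtain ⟨l, h1, h2⟩ := h
    have e : ∀ x, ⟪O.symm (EuclideanSpace.single l (1 : ℝ)), x⟫ = O x l := fun x => by
      rw [← O.inner_map_map, O.apply_symm_apply, EuclideanSpace.inner_single_left]
      simp
    refine ⟨O.symm (EuclideanSpace.single l 1), by simp, fun x hx => by rw [e, hx l h1], fun h3 => ?_⟩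
    rw [e] at h3
    linarith
  · push Not at h
    exact ⟨0, by simp, fun _ _ => by simp, fun _ l hl => (h l hl).le⟩

end LTx

theorem lt (ha : TA) (hc' : TC) (hf : TF) : LT := by
  intro k f w y Cu β Ω _ S hfk hβ hy hB hbr
  classical
  obtain ⟨Q, hQ, hCI⟩ := hc'.cop S.P S.ξ (f + 1)
  have hM : ∀ j, Mg Q (fun a => a j) S.P := fun j => (hCI j Unit (fun _ => ()) fun _ _ _ => rfl).mg
  choose O hO using LTx.fr hf k f y
  let tr : Fin (f + 2) → (Fin (f + 2) → Zv k) → Fin (f + 2) → Zv k := fun j d i => if i < j then d i else 0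
  choose ν h1 h2 h3 using fun (d : Fin (f + 2) → Zv k) (j : Fin (f + 2)) =>
    LTx.nu (O (tr j d) j) f (2 ^ (w + 1))⁻¹ (vq y (d j) - vq y (d 0))
  have hk1 : (1 : ℝ) ≤ k := by exact_mod_cast (by omega : 1 ≤ k)
  have hr : (0 : ℝ) < (2 ^ y)⁻¹ := by positivity
  have hcr : ∀ ω, ‖S.u ω - vq y (S.dir y ω)‖ ≤ k * (2 ^ y)⁻¹ := fun ω => ha.crn _ _ hr
  have hy1 : (k : ℝ) * (2 ^ y)⁻¹ ≤ (2 ^ (w + 1))⁻¹ := by
    have a1 : (k : ℝ) ≤ 2 ^ k := by exact_mod_cast Nat.lt_two_pow_self.le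
    have a2 : (2 : ℝ) ^ k * 2 ^ (w + 1) ≤ 2 ^ y := by
      rw [← pow_add]; exact pow_le_pow_right₀ one_le_two (by omega)
    rw [mul_inv_le_iff₀ (by positivity), ← div_eq_inv_mul, le_div_iff₀ (by positivity)]
    exact (mul_le_mul_of_nonneg_right a1 (by positivity)).trans a2
  have hy2 : ((2 : ℝ) ^ (w + 1))⁻¹ + (2 ^ (w + 1))⁻¹ = (2 ^ w)⁻¹ := by rw [pow_succ]; field_simp; ring
  have hy3 : ((2 : ℝ) ^ (w + 1))⁻¹ ≤ 1 := inv_le_one_of_one_le₀ (one_le_pow₀ one_le_two)
  refine ⟨Fin (f + 2) → Ω, inferInstance, Q, fun j a => a j, fun d j => if j = 0 then 0 else ν d j,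
    fun d j => if j = 0 then -1 else ⟪ν d j, vq y (d 0)⟫, hM, hQ, fun d j => ?_, fun d i j hij => ?_,
    fun a h j => ?_, fun j => ?_⟩
  · beta_reduce
    split_ifs
    · simp
    · exact h1 d j
  · have hj : j ≠ 0 := (lt_of_le_of_lt (Fin.zero_le i) hij).ne'
    simp only [hj, if_false]
    rw [← sub_eq_zero, ← inner_sub_right]
    refine h2 d j _ fun l hl => ?_
    have := hO (tr j d) j i hij l hl
    simpa only [tr, hij, Fin.pos_iff_ne_zero.2 hj, if_true] using this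
  · have b1 := hB _ (hc'.pos (hM 0) a h)
    beta_reduce
    split_ifs
    · have := (norm_nonneg _).trans b1
      rw [abs_neg, abs_one]
      linarith
    · have b2 := (abs_real_inner_le_norm (ν (fun i => S.dir y (a i)) j) (vq y (S.dir y (a 0)))).trans
        (mul_le_of_le_one_left (norm_nonneg _) (h1 _ _))
      have b3 := norm_sub_le (S.u (a 0)) (S.u (a 0) - vq y (S.dir y (a 0)))
      rw [sub_sub_cancel] at b3
      have b4 := hcr (a 0)
      linarith
  · by_cases hj : j = 0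
    · refine le_trans (ha.pmo Q _ (fun _ => False) fun a _ h => ?_) (by simpa [prE] using hβ)
      simp only [hj, if_true, inner_zero_left, zero_sub, neg_neg, abs_one] at h
      linarith
    · refine le_trans (ha.pmo Q _ _ fun a _ h => ?_)
        ((hCI j _ (fun a => tr j fun i => S.dir y (a i)) fun a a' e => ?_).pre
          (fun ω t => InS (O t j, vq y (t 0)) f (2 ^ w)⁻¹ (S.u ω)) β fun g => hbr fun a => (O (g a) j, vq y (g a 0)))
      · intro l hl
        simp only [hj, if_false, ← inner_sub_right] at h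
        have b1 := h3 _ _ h l hl
        have b2 := TAx.coord_le (O (tr j fun i => S.dir y (a i)) j (S.u (a j) - vq y (S.dir y (a j)))) l
        rw [LinearIsometryEquiv.norm_map] at b2
        have b3 := hcr (a j)
        have e : S.u (a j) - vq y (tr j (fun i => S.dir y (a i)) 0) =
            (S.u (a j) - vq y (S.dir y (a j))) + (vq y (S.dir y (a j)) - vq y (S.dir y (a 0))) := by
          simp only [tr, Fin.pos_iff_ne_zero.2 hj, if_true]
          abel
        show |O _ j (S.u (a j) - _) l| ≤ _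
        rw [e, map_add, PiLp.add_apply]
        refine (abs_add_le _ _).trans ?_
        linarith
      · funext i
        simp only [tr]
        split_ifs with hi
        · rw [e i hi.ne]
        · rfl

end Vale.Agent.P076N.TB
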