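import Vale.Agent.P076N.TB.Spec

/-!
# P076N / TB : row PJ, pair counting
-/

set_option linter.all false

open Finset Vale.Agent.P127 Vale.Agent.P127.Stk
open scoped RealInnerProductSpace

namespace Vale.Agent.P076N.TB

noncomputable section

namespace PJx

variable {Ω Ω₁ : Type} [Fintype Ω] [Fintype Ω₁] {k : ℕ}

/-- the conditioning of `hT p · b` -/
def WW (S : TSys Ω k) (p b : ℕ) (ω : Ω) : ℤ × (Vc k × Zv k) × S.γ := (S.tm b ω, S.tub p ω, S.side ω)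

lemma ww (hA : TA) (S : TSys Ω k) {p b : ℕ} {ω ω' : Ω} (h : WW S p b ω = WW S p b ω') :
    S.u ω' = S.u ω ∧ S.side ω = S.side ω' ∧ |S.t ω - S.t ω'| ≤ 2 ^ b ∧
      OnT ((k + 1) * 2 ^ p) (S.u ω) (S.x ω) (S.t ω) (S.x ω') (S.t ω') := by
  have h1 : S.tub p ω = S.tub p ω' := (Prod.mk.inj (Prod.mk.inj h).2).1
  have h2 : S.u ω = S.u ω' := (Prod.mk.inj h1).1
  have h3 := hA.clv (2 ^ p) _ _ (by positivity) (Prod.mk.inj h1).2
  refine ⟨h2.symm, (Prod.mk.inj (Prod.mk.inj h).2).2, hA.clr (2 ^ b) _ _ (by positivity) (Prod.mk.inj h).1, ?_⟩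
  unfold OnT
  rw [← h2] at h3
  exact h3.trans (mul_le_mul_of_nonneg_right (by linarith) (by positivity))

lemma cel_close (hA : TA) (S : TSys Ω k) {p : ℕ} {ω ω' : Ω} (h : S.cel p ω = S.cel p ω') :
    ‖S.x ω - S.x ω'‖ ≤ (k + 1) * 2 ^ p ∧ |S.t ω - S.t ω'| ≤ (k + 1) * 2 ^ p := by
  have h1 := hA.clv (2 ^ p) _ _ (by positivity) (Prod.mk.inj h).1
  have h2 := hA.clr (2 ^ p) _ _ (by positivity) (Prod.mk.inj h).2
  have h3 : (0 : ℝ) ≤ k := Nat.cast_nonneg k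
  have h4 : (0 : ℝ) < 2 ^ p := by positivity
  constructor <;> nlinarith

lemma step_le (hA : TA) (S : TSys Ω k) {p b : ℕ} (hpb : p ≤ b) {Cu : ℝ} {ω ω' : Ω} (hu : ‖S.u ω‖ ≤ Cu)
    (h : WW S p b ω = WW S p b ω') : ‖S.x ω - S.x ω'‖ ≤ (k + 1 + Cu) * 2 ^ b := by
  obtain ⟨_, _, h3, h4⟩ := ww hA S h
  unfold OnT at h4
  have e : S.x ω - S.x ω' = (S.x ω - S.t ω • S.u ω - (S.x ω' - S.t ω' • S.u ω)) + (S.t ω - S.t ω') • S.u ω := by
    rw [sub_smul]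
    abel
  have h5 : (2 : ℝ) ^ p ≤ 2 ^ b := pow_le_pow_right₀ (by norm_num) hpb
  have h6 : ‖(S.t ω - S.t ω') • S.u ω‖ ≤ 2 ^ b * Cu := by
    rw [norm_smul, Real.norm_eq_abs]
    exact mul_le_mul h3 hu (norm_nonneg _) (by positivity)
  have h7 : ((k : ℝ) + 1) * 2 ^ p ≤ (k + 1) * 2 ^ b := mul_le_mul_of_nonneg_left h5 (by positivity)
  rw [e]
  refine (norm_add_le _ _).trans ?_
  linarith

lemma mid (hA : TA) (S : TSys Ω k) (R : Law Ω₁) (ρ π : Ω₁ → Ω) {p b : ℕ} (hpb : p ≤ b) {Cu : ℝ} (hCu : 0 ≤ Cu)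
    (hb : S.Bnd Cu) (h0 : ∀ a, 0 < R.w a → 0 < S.P.w (ρ a)) (hw : ∀ a, WW S p b (ρ a) = WW S p b (π a)) :
    hc R (fun a => S.cel b (π a)) (fun a => S.cel p (ρ a)) ≤
      Real.log ((2 * (3 * (k + 1 + Cu)) + 3) ^ (k + 1)) := by
  refine hA.one _ _ _ _ (hA.cel R _ (fun a => S.x (π a)) (fun a => S.t (π a)) _ (2 ^ b) _ (by positivity)
    fun a a' ha ha' _ _ e => ?_)
  obtain ⟨c1, c2⟩ := cel_close hA S e
  have d1 := step_le hA S hpb (hb _ (h0 a ha)) (hw a)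
  have d2 := step_le hA S hpb (hb _ (h0 a' ha')) (hw a')
  have t1 := abs_le.1 (ww hA S (hw a)).2.2.1
  have t2 := abs_le.1 (ww hA S (hw a')).2.2.1
  have h3 : (0 : ℝ) ≤ k := Nat.cast_nonneg k
  have h5 : (2 : ℝ) ^ p ≤ 2 ^ b := pow_le_pow_right₀ (by norm_num) hpb
  have h7 : ((k : ℝ) + 1) * 2 ^ p ≤ (k + 1) * 2 ^ b := mul_le_mul_of_nonneg_left h5 (by positivity)
  have h8 : 0 ≤ Cu * 2 ^ b := by positivity
  have h9 : 0 ≤ (k : ℝ) * 2 ^ b := by positivity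
  constructor
  · have e' : S.x (π a) - S.x (π a') = (S.x (ρ a) - S.x (ρ a')) - (S.x (ρ a) - S.x (π a)) +
        (S.x (ρ a') - S.x (π a')) := by abel
    rw [e']
    have := (norm_add_le (S.x (ρ a) - S.x (ρ a') - (S.x (ρ a) - S.x (π a))) (S.x (ρ a') - S.x (π a'))).trans
      (add_le_add (norm_sub_le _ _) le_rfl)
    linarith
  · have c3 := abs_le.1 c2
    rw [abs_le]
    constructor <;> linarith [t1.1, t1.2, t2.1, t2.2, c3.1, c3.2]

lemma last (hA : TA) (hG : CG) (S : TSys Ω k) (R : Law Ω₁) (ρ π : Ω₁ → Ω) {p a b : ℕ} (hpa : p ≤ a) {Cu δ : ℝ}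
    (hCu : 0 ≤ Cu) (hb : S.Bnd Cu) (h0 : ∀ x, 0 < R.w x → 0 < S.P.w (ρ x))
    (hw : ∀ x, WW S p b (ρ x) = WW S p b (π x))
    (hδ : prE R (fun x => |S.t (π x) - S.t (ρ x)| ≤ 2 ^ a) ≤ δ) (hδ0 : 0 ≤ δ) :
    hc R (fun x => S.dir (a - p) (ρ x)) (fun x => (S.cel p (π x), S.cel p (ρ x))) ≤
      Real.log 2 + Real.log ((2 * ((4 + 2 * Cu) * (k + 1)) + 3) ^ k) +
        δ * (k * ((a : ℝ) - p) * Real.log 2 + k * Real.log (4 * Cu + 3)) := by
  have hk : (0 : ℝ) ≤ k := Nat.cast_nonneg k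
  have e2 : (2 : ℝ) ^ a = 2 ^ (a - p) * 2 ^ p := by rw [← pow_add, Nat.sub_add_cancel hpa]
  have h2 : (1 : ℝ) ≤ 2 ^ (a - p) := one_le_pow₀ (by norm_num)
  have c1 := hA.flv R (fun x => ¬ |S.t (π x) - S.t (ρ x)| ≤ 2 ^ a) (fun x => S.u (ρ x))
    (fun x => (S.cel p (π x), S.cel p (ρ x))) (2 ^ (a - p))⁻¹ ((4 + 2 * Cu) * (k + 1)) (by positivity)
    (fun x x' hx hx' hE _ e => by
      obtain ⟨x1, t1⟩ := cel_close hA S (Prod.mk.inj e).2
      obtain ⟨x2, t2⟩ := cel_close hA S (Prod.mk.inj e).1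
      have := hG.vel ((k + 1) * 2 ^ p) (2 ^ a) Cu _ _ _ _ _ _ _ _ _ _ (by positivity) (ww hA S (hw x)).2.2.2
        (ww hA S (hw x')).2.2.2 x1 t1 x2 t2 (hb _ (h0 x' hx')) (by
          rw [abs_sub_comm]
          exact (not_le.1 hE).le)
      refine this.trans (le_of_eq ?_)
      rw [e2]
      field_simp)
  have c2 := hA.flv R (fun _ => True) (fun x => S.u (ρ x))
    (fun x => (S.cel p (π x), S.cel p (ρ x))) (2 ^ (a - p))⁻¹ (2 * Cu * 2 ^ (a - p)) (by positivity)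
    (fun x x' hx hx' _ _ _ => by
      have e : 2 * Cu * 2 ^ (a - p) * ((2 : ℝ) ^ (a - p))⁻¹ = Cu + Cu := by field_simp; ring
      rw [e]
      exact (norm_sub_le _ _).trans (add_le_add (hb _ (h0 x hx)) (hb _ (h0 x' hx'))))
  have k1 : (1 : ℝ) ≤ 2 * ((4 + 2 * Cu) * (k + 1)) + 3 := by
    have : 0 ≤ (4 + 2 * Cu) * (k + 1) := by positivity
    linarith
  have k0 : 0 ≤ Cu * 2 ^ (a - p) := by positivity
  have k2 : (1 : ℝ) ≤ 2 * (2 * Cu * 2 ^ (a - p)) + 3 := by linarith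
  have h := hA.exc R _ _ _ _ _ δ (one_le_pow₀ k1) (one_le_pow₀ k2) c1 c2
    ((hA.pmo R _ _ fun a _ h => not_not.1 h).trans hδ)
  have l2 : Real.log ((2 * (2 * Cu * 2 ^ (a - p)) + 3) ^ k) ≤
      k * ((a : ℝ) - p) * Real.log 2 + k * Real.log (4 * Cu + 3) := by
    rw [Real.log_pow, mul_assoc (k : ℝ), ← mul_add, ← Nat.cast_sub hpa, ← Real.log_pow 2 (a - p),
      ← Real.log_mul (by positivity) (by positivity)]
    exact mul_le_mul_of_nonneg_left (Real.log_le_log (by linarith) (by linarith)) hk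
  exact le_trans h (add_le_add le_rfl (mul_le_mul_of_nonneg_left l2 hδ0))

end PJx

open PJx in
theorem pj (hA : TA) (hC : TC) (hG : CG) (k : ℕ) : StPJ k := by
  intro Cu₀
  obtain ⟨Cu, hCu, u2⟩ : ∃ x : ℝ, 0 ≤ x ∧ Cu₀ ≤ x := ⟨max 0 Cu₀, le_max_left _ _, le_max_right _ _⟩
  have hk : (0 : ℝ) ≤ k := Nat.cast_nonneg k
  obtain ⟨A1, hA1⟩ : ∃ x, x = Real.log ((2 * (3 * (k + 1 + Cu)) + 3) ^ (k + 1)) := ⟨_, rfl⟩
  obtain ⟨A2, hA2⟩ : ∃ x, x = Real.log ((2 * ((4 + 2 * Cu) * (k + 1)) + 3) ^ k) := ⟨_, rfl⟩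
  have p1 : 0 ≤ A1 := hA1 ▸ Real.log_nonneg (one_le_pow₀ (by linarith))
  have p2 : 0 ≤ A2 := hA2 ▸ Real.log_nonneg (one_le_pow₀ (by
    have : 0 ≤ (4 + 2 * Cu) * (k + 1) := by positivity
    linarith))
  have p3 : 0 ≤ k * Real.log (4 * Cu + 3) := mul_nonneg hk (Real.log_nonneg (by linarith))
  have p4 : 0 ≤ Real.log (14 * 1) := Real.log_nonneg (by norm_num)
  have l1 : (1 : ℝ) / 2 ≤ Real.log 2 := by
    have := Real.log_two_gt_d9
    linarith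
  refine ⟨Real.log 2 + A1 + A2 + k * Real.log (4 * Cu + 3) + 2 * Real.log (14 * 1), by linarith,
    fun p a b g Ω _ S hpa hab hg hb₀ hT => ?_⟩
  have hb : S.Bnd Cu := fun ω hω => (hb₀ ω hω).trans u2
  obtain ⟨Ω₁, _, R, π, ρ, m, e, i⟩ := hC.glue S.P (fun a => a) S.P (WW S p b) (hC.rfl _)
  have hw : ∀ x, WW S p b (ρ x) = WW S p b (π x) := fun x => (e x).symm
  have h0 : ∀ x, 0 < R.w x → 0 < S.P.w (ρ x) := fun x hx => hC.pos m x hx
  have hba : (0 : ℝ) < (b : ℝ) - a := by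
    have : (a : ℝ) < b := by exact_mod_cast hab
    linarith
  have hap : (0 : ℝ) ≤ (a : ℝ) - p := by
    have : (p : ℝ) ≤ a := by exact_mod_cast hpa
    linarith
  -- the times are far
  have f1 := hA.fano R (fun x => S.t (π x)) (fun x => S.t (ρ x)) (fun x => (ρ x, WW S p b (π x))) (2 ^ a) 1
    (g * ((b : ℝ) - a) * Real.log 2) (b - a) (b - a) (by positivity) le_rfl le_rfl
    (fun x x' _ _ h => congrArg S.t (Prod.mk.inj h).1) (fun x _ => by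
      rw [one_mul, ← pow_add, Nat.sub_add_cancel hab.le, abs_sub_comm]
      exact (ww hA S (hw x)).2.2.1) (by
      have := i.ent ℤ (S.tm a)
      rw [Nat.cast_sub hab.le]
      refine le_trans ?_ (hT.trans (le_of_eq this.symm))
      linarith)
  rw [div_self (by positivity), Nat.cast_sub hab.le] at f1
  simp only [one_mul] at f1
  have f2 : prE R (fun x => |S.t (π x) - S.t (ρ x)| ≤ 2 ^ a) ≤ g + 2 * Real.log (14 * 1) / ((b : ℝ) - a) := by
    refine le_of_mul_le_mul_right (f1.trans ?_) (by positivity)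
    have e1 : (g + 2 * Real.log (14 * 1) / ((b : ℝ) - a)) * (((b : ℝ) - a) * Real.log 2) =
        g * ((b : ℝ) - a) * Real.log 2 + 2 * Real.log (14 * 1) * Real.log 2 := by field_simp
    rw [e1]
    nlinarith
  have f3 : 0 ≤ g + 2 * Real.log (14 * 1) / ((b : ℝ) - a) := by positivity
  have u3 := last hA hG S R ρ π hpa hCu hb h0 hw f2 f3
  have u2' := mid hA S R ρ π (hpa.trans hab.le) hCu hb h0 hw
  rw [← hA1] at u2'
  rw [← hA2] at u3
  -- lower bound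
  have a1 := hc_pair R (fun x => S.dir (a - p) (ρ x)) (fun x => S.cel p (π x)) (fun x => S.ξ (ρ x))
  have a2 : hc R (fun x => S.dir (a - p) (ρ x)) (fun x => S.ξ (ρ x)) = hc S.P (S.dir (a - p)) S.ξ := hC.hcm m _ _
  have a3 : S.hT p p b ≤ hc R (fun x => S.cel p (π x)) (fun x => (S.dir (a - p) (ρ x), S.ξ (ρ x))) := by
    refine le_trans (le_of_eq (i.ent ℤ (S.tm p)).symm) (le_trans
      (hc_mono_left R (X' := fun x => S.cel p (π x)) fun _ _ _ _ h => (Prod.mk.inj (Prod.mk.inj h).1).2)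
      (hc_mono_right R _ fun _ _ _ _ h => congrArg (fun ω => (S.dir (a - p) ω, S.ξ ω)) (Prod.mk.inj h).1))
  -- upper bound
  have b1 : hc R (fun x => (S.dir (a - p) (ρ x), S.cel p (π x))) (fun x => S.ξ (ρ x)) ≤
      hc R (fun x => (S.cel p (π x), S.dir (a - p) (ρ x))) (fun x => (S.cel p (ρ x), S.side (ρ x))) :=
    le_trans (hc_mono_left R fun _ _ _ _ h =>
        Prod.ext (Prod.mk.inj (Prod.mk.inj h).1).2 (Prod.mk.inj (Prod.mk.inj h).1).1)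
      (hc_mono_right R _ fun _ _ _ _ h =>
        congrArg (fun c => ((flv (2 ^ p) (S.z c).1, ⌊(S.z c).2 / 2 ^ p⌋), S.sd c)) h)
  have b2 := hc_pair R (fun x => S.cel p (π x)) (fun x => S.dir (a - p) (ρ x))
    (fun x => (S.cel p (ρ x), S.side (ρ x)))
  have b3 : hc R (fun x => S.dir (a - p) (ρ x)) (fun x => (S.cel p (π x), S.cel p (ρ x), S.side (ρ x))) ≤
      hc R (fun x => S.dir (a - p) (ρ x)) (fun x => (S.cel p (π x), S.cel p (ρ x))) :=
    hc_mono_right R _ fun _ _ _ _ h => Prod.ext (Prod.mk.inj h).1 (Prod.mk.inj (Prod.mk.inj h).2).1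
  have b4 := hc_le_add' R (fun x => S.cel p (π x)) (fun x => S.cel b (π x)) (fun x => (S.cel p (ρ x), S.side (ρ x)))
  have b5 : hc R (fun x => S.cel p (π x)) (fun x => (S.cel b (π x), S.cel p (ρ x), S.side (ρ x))) ≤ S.hB p b := by
    refine le_trans (hc_mono_right R (Y := fun x => (S.cel b (π x), S.side (π x))) _ fun x x' _ _ h => ?_)
      (le_of_eq (hC.hcm i.mg (S.cel p) fun ω => (S.cel b ω, S.side ω)))
    refine Prod.ext (Prod.mk.inj h).1 ?_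
    exact (ww hA S (hw x)).2.1.symm.trans ((Prod.mk.inj (Prod.mk.inj h).2).2.trans (ww hA S (hw x')).2.1)
  have b6 : hc R (fun x => S.cel b (π x)) (fun x => (S.cel p (ρ x), S.side (ρ x))) ≤
      hc R (fun x => S.cel b (π x)) (fun x => S.cel p (ρ x)) := hc_mono_right R _ fun _ _ _ _ h => (Prod.mk.inj h).1
  have c1 : (g + 2 * Real.log (14 * 1) / ((b : ℝ) - a)) *
      (k * ((a : ℝ) - p) * Real.log 2 + k * Real.log (4 * Cu + 3)) ≤
      (g + (Real.log 2 + A1 + A2 + k * Real.log (4 * Cu + 3) + 2 * Real.log (14 * 1)) / ((b : ℝ) - a)) *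
      (k * ((a : ℝ) - p) * Real.log 2 +
        (Real.log 2 + A1 + A2 + k * Real.log (4 * Cu + 3) + 2 * Real.log (14 * 1))) := by
    have q : 0 ≤ k * ((a : ℝ) - p) * Real.log 2 := by positivity
    refine mul_le_mul (add_le_add le_rfl (div_le_div_of_nonneg_right (by linarith) hba.le)) (by linarith)
      (by linarith) ?_
    have : 0 ≤ (Real.log 2 + A1 + A2 + k * Real.log (4 * Cu + 3) + 2 * Real.log (14 * 1)) / ((b : ℝ) - a) :=
      div_nonneg (by linarith) hba.le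
    linarith
  have d1 := (add_le_add (a2.symm.le) a3).trans (a1.symm.le.trans (b1.trans (b2.le.trans (add_le_add
    (b4.trans (add_le_add b5 (b6.trans u2'))) (b3.trans (u3.trans (add_le_add le_rfl c1)))))))
  generalize Real.log (14 * 1) = A3 at d1 p4 ⊢
  generalize k * Real.log (4 * Cu + 3) = A4 at d1 p3 ⊢
  generalize (g + (Real.log 2 + A1 + A2 + A4 + 2 * A3) / ((b : ℝ) - a)) *
    (k * ((a : ℝ) - p) * Real.log 2 + (Real.log 2 + A1 + A2 + A4 + 2 * A3)) = A5 at d1 ⊢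
  linarith only [d1, p3, p4]

end

end Vale.Agent.P076N.TB
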