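import Vale.Agent.P076N.TB.Rs

/-!
# P076N / TB : row R1
-/

set_option linter.all false

open Finset Vale.Agent.P127 Vale.Agent.P127.Stk
open scoped RealInnerProductSpace

namespace Vale.Agent.P076N.TB

open RSx LSx in
theorem r1 (ha : TA) (hf : TF) (n : ℕ) (hn : 2 ≤ n) : R1 n := by
  intro Cu Cz C₀ hCu hCz hC₀
  obtain ⟨c1, hc1⟩ : ∃ c : ℝ, c = Real.log (2 * 1 + 3) + Real.log (1 * (2 * (2 * (n : ℝ)) + 3) ^ n) := ⟨_, rfl⟩
  obtain ⟨c2, hc2⟩ : ∃ c : ℝ, c = Real.log ((2 * ((1 + C₀) * n) + 3) ^ n) := ⟨_, rfl⟩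
  obtain ⟨c3, hc3⟩ : ∃ c : ℝ, c = (2 + 2 * Cu) * (1 + C₀ + (Cu + C₀)) := ⟨_, rfl⟩
  have hc30 : 2 * (1 + C₀ + (Cu + C₀)) ≤ c3 := hc3 ▸ mul_le_mul_of_nonneg_right (by linarith) (by linarith)
  have a1 := le_abs_self c1
  have a2 := le_abs_self c2
  have a3 := abs_nonneg c1
  have a4 := abs_nonneg c2
  refine ⟨|c1| + |c2| + c3, by linarith, ?_⟩
  intro K w lam h e b H Ω _ S β Z pl hs hw h1 h2
  have h0 : 0 < h := lt_of_lt_of_le (by positivity) h1
  have hq : (0 : ℝ) < 2 ^ (K - w) := by positivity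
  have hcC : h / 2 ^ K ≤ C₀ := by rwa [div_le_iff₀ (by positivity)]
  have hc0 : 0 ≤ h / 2 ^ K := by positivity
  have hcB : h / 2 ^ K * (2 ^ K / h) = 1 := by field_simp
  refine ⟨u_le hs h1, fun ω ω' p p' e => ?_, ?_, ?_, fun L hL => ?_⟩
  · have e' : S.side ω = S.side ω' := e
    obtain ⟨b1, b2⟩ := hs.diam ω ω' p p' e'
    have b3 := (hs.inp ω p).2
    have b4 := (hs.inp ω' p').2
    have b5 : ((2 : ℝ) ^ (K - w))⁻¹ * (Cz * 2 ^ K) = Cz * 2 ^ w := by rw [pw hw]; field_simp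
    have b6 : (0 : ℝ) < 2 ^ w := by positivity
    constructor
    · rw [rs_x, rs_x, ← e', rsx_sub]
      rw [← e'] at b4
      refine (cmb (hs.unit _) _ (by positivity) _).trans ?_
      rw [abs_mul, abs_of_pos (by positivity : 0 < 2 ^ w / h)]
      have b7 := mul_le_mul_of_nonneg_left ((abs_sub _ _).trans (add_le_add b3 b4))
        (by positivity : 0 ≤ 2 ^ w / h)
      have b8 : 2 ^ w / h * (h + h) = 2 * 2 ^ w := by field_simp; ring
      have b9 := mul_le_mul_of_nonneg_left b1 (by positivity : 0 ≤ ((2 : ℝ) ^ (K - w))⁻¹)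
      linarith
    · rw [rs_t, rs_t, ← sub_mul, abs_mul, abs_of_pos (by positivity : 0 < ((2 : ℝ) ^ (K - w))⁻¹), mul_comm]
      have b9 := mul_le_mul_of_nonneg_left b2 (by positivity : 0 ≤ ((2 : ℝ) ^ (K - w))⁻¹)
      linarith
  · have b1 := hs.tim
    have b2 := hc_le_add S.P (S.tm 0) ((RS S pl K w h).tm 0) (fun ω => (S.tub 0 ω, S.side ω))
    have b3 : hc S.P (S.tm 0) (fun ω => ((RS S pl K w h).tm 0 ω, S.tub 0 ω, S.side ω)) ≤
        Real.log (2 * (1 * 2 ^ (K - w)) + 3) := by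
      refine ha.one _ _ _ _ (ha.flr S.P _ S.t _ (2 ^ 0) _ (by positivity) fun ω ω' _ _ _ _ e => ?_)
      have b4 := ha.clr _ _ _ (by positivity) (congrArg Prod.fst e)
      rw [rs_t, rs_t, ← sub_mul, abs_mul, abs_of_pos (by positivity : 0 < ((2 : ℝ) ^ (K - w))⁻¹),
        mul_inv_le_iff₀ hq] at b4
      linarith
    have b4 := log_pw 1 (K - w) zero_le_one
    rw [Nat.cast_sub hw] at b4
    have b5 := hc_le_add' S.P ((RS S pl K w h).tm 0) ((RS S pl K w h).tub 0) (fun ω => (S.tub 0 ω, S.side ω))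
    have b6 : hc S.P ((RS S pl K w h).tm 0) (fun ω => ((RS S pl K w h).tub 0 ω, S.tub 0 ω, S.side ω)) ≤
        hc S.P ((RS S pl K w h).tm 0) (fun ω => ((RS S pl K w h).tub 0 ω, S.side ω)) :=
      hc_mono_right _ _ fun ω ω' _ _ e => by
        simp only [Prod.mk.injEq] at e ⊢
        exact ⟨e.1, e.2.2⟩
    have b7 : hc S.P ((RS S pl K w h).tub 0) (fun ω => (S.tub 0 ω, S.side ω)) ≤
        Real.log (1 * (2 * (2 * (n : ℝ)) + 3) ^ n) := by
      refine ha.one _ _ _ _ (cnt_pair (cnt_fn le_rfl fun ω ω' _ _ e => ?_)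
        (ha.flv S.P _ _ _ (2 ^ 0) _ (by positivity) fun ω ω' _ _ _ _ e => ?_))
      · exact (tub_le hs hw h1 ha (congrArg Prod.fst e) (congrArg Prod.snd e)).1
      · rw [pow_zero, mul_one]
        exact (tub_le hs hw h1 ha (congrArg Prod.fst e) (congrArg Prod.snd e)).2
    linarith
  · have b1 := hs.dir
    have b2 := hc_le_add S.P (S.dir w) ((RS S pl K w h).dir w) S.ξ
    have b3 : hc S.P (S.dir w) (fun ω => ((RS S pl K w h).dir w ω, S.ξ ω)) ≤ c2 := by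
      rw [hc2]
      refine ha.one _ _ _ _ (ha.flv S.P _ S.u _ (2 ^ w)⁻¹ _ (by positivity) fun ω ω' _ _ _ _ e => ?_)
      have b4 := ha.clv _ _ _ (by positivity) (congrArg Prod.fst e)
      have e' : S.side ω = S.side ω' := congrArg S.sd (congrArg Prod.snd e)
      rw [rs_u, rs_u, ← e'] at b4
      have b5 := mv_fst (hs.unit (S.side ω)) hc0
        ((rsu (pl (S.side ω)) (2 ^ K / h) (S.u ω), 1) - (rsu (pl (S.side ω)) (2 ^ K / h) (S.u ω'), 1))
      rw [map_sub, mv_rsu (hs.unit _) hcB, mv_rsu (hs.unit _) hcB] at b5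
      simp only [Prod.fst_sub, Prod.snd_sub, sub_self, abs_zero, mul_zero, add_zero] at b5
      have b6 := mul_le_mul (by linarith : 1 + h / 2 ^ K ≤ 1 + C₀) b4 (norm_nonneg _) (by linarith)
      linarith
    linarith
  · obtain ⟨C, hC⟩ : ∃ C, C = |c1| + |c2| + c3 := ⟨_, rfl⟩
    rw [← hC]
    have hC3 : c3 ≤ C := by linarith
    have hC0 : 0 < C := by linarith
    have hl : ((2 : ℝ) ^ lam)⁻¹ ≤ 1 := inv_le_one_of_one_le₀ (one_le_pow₀ one_le_two)
    have hl0 : 0 < ((2 : ℝ) ^ lam)⁻¹ := by positivity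
    obtain ⟨ρ, hρ⟩ : ∃ ρ : ℝ, ρ = ((2 : ℝ) ^ lam)⁻¹ / C := ⟨_, rfl⟩
    have hρ0 : 0 ≤ ρ := by rw [hρ]; positivity
    have hρ1 : C * ρ = ((2 : ℝ) ^ lam)⁻¹ := by rw [hρ]; field_simp
    have hρ2 := mul_le_mul_of_nonneg_right hC3 hρ0
    have hρ3 := mul_le_mul_of_nonneg_right hc30 hρ0
    rw [← hρ]
    have key := fun a : S.α => hf.nea n (n - 2) Cu ((1 + C₀ + (Cu + C₀)) * ρ)
      ((L a).map (mv (pl (S.sd a)) (h / 2 ^ K)))
      ((Submodule.finrank_map_le _ _).trans ((hL a).trans (by omega))) (by linarith)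
    choose q hq using key
    refine le_trans (ha.pmo _ _ _ fun ω hω hN l hl => ?_) (hs.brd q)
    obtain ⟨z, hz, hz'⟩ := hN
    refine (hq (S.ξ ω) (S.u ω) (hs.bnd ω hω) ⟨_, Submodule.mem_map_of_mem hz, ?_⟩ l hl).trans ?_
    · have b1 := mv_le (hs.unit (S.side ω)) hc0 ((rsu (pl (S.side ω)) (2 ^ K / h) (S.u ω), 1) - z)
      rw [map_sub, mv_rsu (hs.unit _) hcB] at b1
      have b2 := v_le hs h2 hω
      exact b1.trans (mul_le_mul (by linarith) hz' (norm_nonneg _) (by linarith))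
    · rw [← mul_assoc, ← hc3]
      linarith

end Vale.Agent.P076N.TB
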