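import Vale.Agent.P076N.TB.Rs

/-!
# P076N / TB : row R2
-/

set_option linter.all false

open Finset Vale.Agent.P127 Vale.Agent.P127.Stk
open scoped RealInnerProductSpace

namespace Vale.Agent.P076N.TB

open RSx LSx in
theorem r2 (ha : TA) (n : ℕ) (hn : 2 ≤ n) (hLW : StLW n) : R2 n := by
  intro Cu Cz C₀ ε hCu hCz hC₀ hε
  obtain ⟨ε', hε', n₀, hL⟩ := hLW (n - 2) (by omega) Cu ε hε
  obtain ⟨c1, hc1⟩ : ∃ c : ℝ, c = Real.log ((2 * (2 * (n : ℝ) + (Cu + C₀)) + 3) ^ (n + 1)) := ⟨_, rfl⟩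
  obtain ⟨c2, hc2⟩ : ∃ c : ℝ, c = Real.log ((2 * (2 * (n : ℝ) + (Cu + 1)) + 3) ^ (n + 1)) := ⟨_, rfl⟩
  refine ⟨ε', hε', n₀, c1 + n * (c2 + Real.log (2 * Cz + 3)), ?_⟩
  intro K w lam h e b H Ω _ S β Z pl hs hw0 h1 h2 hlam hb
  have hw : w ≤ K := by omega
  have h0 : 0 < h := lt_of_lt_of_le (by positivity) h1
  have hq : (0 : ℝ) < 2 ^ (K - w) := by positivity
  have hn0 : (0 : ℝ) ≤ n := Nat.cast_nonneg _
  have hA : ((2 : ℝ) ^ (K - w))⁻¹ ≤ 1 := inv_le_one_of_one_le₀ (one_le_pow₀ one_le_two)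
  have hA0 : 0 < ((2 : ℝ) ^ (K - w))⁻¹ := by positivity
  let S2 : TSys Ω n := ⟨S.P, S.α, S.γ × (Zv n × ℤ), S.ξ, S.z, fun a => (S.sd a,
    flv (2 ^ 0) ((RS S pl K w h).z a).1, ⌊((RS S pl K w h).z a).2 / 2 ^ 0⌋), S.u⟩
  have key := hL lam 0 (K - w) Ω S2 (by omega) (by rw [Nat.cast_sub hw]; simpa using hlam) hs.bnd
    (fun q => (hs.brd q).trans hb)
  have e1 : S2.hB 0 (K - w) = hc S.P (S.cel 0)
      (fun ω => (S.cel (K - w) ω, S.side ω, (RS S pl K w h).cel 0 ω)) := rfl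
  have e2 : S2.hT 0 0 (K - w) = hc S.P (S.tm 0)
      (fun ω => (S.tm (K - w) ω, S.tub 0 ω, S.side ω, (RS S pl K w h).cel 0 ω)) := rfl
  have e3 : ((n - 2 : ℕ) : ℝ) + 2 = n := by rw [Nat.cast_sub hn]; push_cast; ring
  rw [e1, e2, e3, Nat.cast_sub hw] at key
  have b1 : hc S.P (S.cel 0) (fun ω => (S.cel (K - w) ω, S.side ω, (RS S pl K w h).cel 0 ω)) ≤
      hc S.P (S.cel 0) (fun ω => ((RS S pl K w h).cel 0 ω, S.side ω)) :=
    hc_mono_right _ _ fun ω ω' _ _ e => by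
      simp only [Prod.mk.injEq] at e ⊢
      exact ⟨e.2.2, e.2.1⟩
  have b2 := hc_pair S.P ((RS S pl K w h).cel 0) (S.cel 0) S.side
  have b3 := hc_pair S.P (S.cel 0) ((RS S pl K w h).cel 0) S.side
  have b4 : hc S.P (fun ω => ((RS S pl K w h).cel 0 ω, S.cel 0 ω)) S.side ≤
      hc S.P (fun ω => (S.cel 0 ω, (RS S pl K w h).cel 0 ω)) S.side :=
    hc_mono_left _ fun ω ω' _ _ e => by
      simp only [Prod.mk.injEq] at e ⊢
      exact ⟨e.1.2, e.1.1⟩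
  have b5 : hc S.P ((RS S pl K w h).cel 0) (fun ω => (S.cel 0 ω, S.side ω)) ≤ c1 := by
    rw [hc1]
    refine ha.one _ _ _ _ (ha.cel S.P _ _ _ _ (2 ^ 0) _ (by positivity) fun ω ω' p _ _ _ e => ?_)
    simp only [TSys.cel, TSys.tm, Prod.mk.injEq] at e
    obtain ⟨⟨f1, f2⟩, f3⟩ := e
    have g1 := ha.clv _ _ _ (by positivity) f1
    have g2 := ha.clr _ _ _ (by positivity) f2
    rw [pow_zero] at g2
    rw [pow_zero, mul_one] at g1 ⊢
    have g3 := v_le hs h2 p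
    constructor
    · rw [rs_x, rs_x, ← f3, rsx_sub]
      refine (cmb (hs.unit _) _ hA0.le _).trans ?_
      have g4 : (⟪(pl (S.side ω)).1, S.x ω⟫ - (pl (S.side ω)).2.1 * S.t ω - (pl (S.side ω)).2.2) -
          (⟪(pl (S.side ω)).1, S.x ω'⟫ - (pl (S.side ω)).2.1 * S.t ω' - (pl (S.side ω)).2.2) =
          ⟪(pl (S.side ω)).1, S.x ω - S.x ω'⟫ - (pl (S.side ω)).2.1 * (S.t ω - S.t ω') := by
        rw [inner_sub_right]; ring
      have g5 := abs_sub ⟪(pl (S.side ω)).1, S.x ω - S.x ω'⟫ ((pl (S.side ω)).2.1 * (S.t ω - S.t ω'))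
      rw [abs_mul] at g5
      have g6 := (in_le (hs.unit (S.side ω)) _).trans g1
      have g7 := mul_le_mul g3 g2 (abs_nonneg _) (by linarith)
      have g8 : 2 ^ w / h ≤ 1 := by rwa [div_le_one h0]
      rw [g4, abs_mul, abs_of_pos (by positivity : 0 < 2 ^ w / h)]
      have g9 := mul_le_mul g8 g5 (abs_nonneg _) zero_le_one
      have g10 := mul_le_mul hA g1 (norm_nonneg _) zero_le_one
      linarith
    · rw [rs_t, rs_t, ← sub_mul, abs_mul, abs_of_pos hA0]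
      have g10 := mul_le_mul g2 hA hA0.le zero_le_one
      linarith
  have b6 := hc_le_add' S.P (S.tm 0) ((RS S pl K w h).cel 0)
    (fun ω => (S.tm (K - w) ω, S.tub 0 ω, S.side ω))
  have b7 : hc S.P (S.tm 0) (fun ω => ((RS S pl K w h).cel 0 ω, S.tm (K - w) ω, S.tub 0 ω, S.side ω)) ≤
      hc S.P (S.tm 0) (fun ω => (S.tm (K - w) ω, S.tub 0 ω, S.side ω, (RS S pl K w h).cel 0 ω)) :=
    hc_mono_right _ _ fun ω ω' _ _ e => by
      simp only [Prod.mk.injEq] at e ⊢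
      exact ⟨e.2.1, e.2.2.1, e.2.2.2, e.1⟩
  have b8 : hc S.P ((RS S pl K w h).cel 0) (fun ω => (S.tm (K - w) ω, S.tub 0 ω, S.side ω)) ≤ c2 := by
    rw [hc2]
    refine ha.one _ _ _ _ (ha.cel S.P _ _ _ _ (2 ^ 0) _ (by positivity) fun ω ω' p _ _ _ e => ?_)
    simp only [Prod.mk.injEq] at e
    obtain ⟨f1, f2, f3⟩ := e
    obtain ⟨g1, g2⟩ := tub_le hs hw h1 ha f2 f3
    have g3 := ha.clr _ _ _ hq f1
    have g4 : |(RS S pl K w h).t ω - (RS S pl K w h).t ω'| ≤ 1 := by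
      rw [rs_t, rs_t, ← sub_mul, abs_mul, abs_of_pos hA0, mul_inv_le_iff₀ hq, one_mul]
      exact g3
    rw [pow_zero, mul_one]
    refine ⟨?_, by linarith⟩
    rw [← g1] at g2
    have g5 := u_le hs h1 ω p
    have g6 : (RS S pl K w h).x ω - (RS S pl K w h).x ω' =
        (((RS S pl K w h).x ω - (RS S pl K w h).t ω • (RS S pl K w h).u ω) -
          ((RS S pl K w h).x ω' - (RS S pl K w h).t ω' • (RS S pl K w h).u ω)) +
        ((RS S pl K w h).t ω - (RS S pl K w h).t ω') • (RS S pl K w h).u ω := by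
      rw [sub_smul]; abel
    rw [g6]
    refine (norm_add_le _ _).trans ?_
    rw [norm_smul, Real.norm_eq_abs]
    have g7 := mul_le_mul g4 g5 (norm_nonneg _) zero_le_one
    linarith
  have b9 := hc_le_add' S.P (S.tm 0) (S.tm (K - w)) (fun ω => (S.tub 0 ω, S.side ω))
  have b10 : hc S.P (S.tm (K - w)) (fun ω => (S.tub 0 ω, S.side ω)) ≤ Real.log (2 * (Cz * 2 ^ w) + 3) := by
    refine ha.one _ _ _ _ (ha.flr S.P _ S.t _ _ _ hq fun ω ω' p p' _ _ e => ?_)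
    have := (hs.diam ω ω' p p' (congrArg Prod.snd e)).2
    rw [pw hw] at this
    linarith
  have b11 := log_pw Cz w (by linarith)
  have b12 := hs.tim
  have b13 := hs.up
  have b14 : (K : ℝ) * Real.log 2 - e - (w * Real.log 2 + Real.log (2 * Cz + 3)) - c2 ≤ hc S.P (S.tm 0)
      (fun ω => (S.tm (K - w) ω, S.tub 0 ω, S.side ω, (RS S pl K w h).cel 0 ω)) := by linarith
  have b15 := mul_le_mul_of_nonneg_left b14 hn0
  have b16 : 0 ≤ ε * w := by positivity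
  push_cast at key
  linarith

end Vale.Agent.P076N.TB
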