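import Vale.Agent.P076N.TB.Spec

/-!
# P076N / TB : marginals and conditional independence, `tc : TC`
-/

set_option linter.all false

open Finset Vale.Agent.P127 Vale.Agent.P127.Stk
open scoped RealInnerProductSpace

namespace Vale.Agent.P076N.TB

noncomputable section

namespace TCx

variable {Ω Ω' Ω'' : Type} [Fintype Ω] [Fintype Ω'] [Fintype Ω'']

lemma prE_ind (P : Law Ω) (E : Ω → Prop) : prE P E = P.ex fun ω => Law.ind (E ω) := by
  classical
  unfold prE Law.ex
  rw [Finset.sum_filter]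
  refine Finset.sum_congr rfl fun ω _ => ?_
  show _ = P.w ω * Law.ind (E ω)
  by_cases h : E ω
  · rw [if_pos h, Law.ind_of h, mul_one]
  · rw [if_neg h, Law.ind_not h, mul_zero]

theorem prm {Q : Law Ω'} {π : Ω' → Ω} {P : Law Ω} (h : Mg Q π P) (E : Ω → Prop) :
    prE Q (fun a => E (π a)) = prE P E := by
  rw [prE_ind, prE_ind]
  exact ex_law_aux Q P π h fun ω => Law.ind (E ω)

theorem pos {Q : Law Ω'} {π : Ω' → Ω} {P : Law Ω} (h : Mg Q π P) (a : Ω') (ha : 0 < Q.w a) :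
    0 < P.w (π a) := by
  rw [← h]
  exact Q.pr_pos π ha

theorem cmp {R : Law Ω''} {ρ : Ω'' → Ω'} {Q : Law Ω'} {π : Ω' → Ω} {P : Law Ω} (h : Mg R ρ Q)
    (h' : Mg Q π P) : Mg R (fun a => π (ρ a)) P := fun ω => by
  rw [← h' ω]
  exact pr_law_aux R Q ρ h π ω

lemma ind_nn (p : Prop) : 0 ≤ Law.ind p := by
  by_cases h : p
  · rw [Law.ind_of h]; norm_num
  · rw [Law.ind_not h]

/-- expectation of a function of `(π, Y)` -/
lemma ex_pair (Q : Law Ω') (π : Ω' → Ω) {U : Type} (Y : Ω' → U) (f : Ω → U → ℝ) :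
    Q.ex (fun a => f (π a) (Y a)) = ∑ ω, ∑ y ∈ img Y, Q.pr (fun a => (π a, Y a)) (ω, y) * f ω y := by
  classical
  simp only [Law.pr_eq_ex]
  unfold Law.ex
  simp only [Finset.sum_mul]
  rw [Finset.sum_congr rfl fun ω _ => Finset.sum_comm, Finset.sum_comm]
  refine Finset.sum_congr rfl fun a _ => ?_
  rw [Finset.sum_eq_single (π a), Finset.sum_eq_single (Y a), Law.ind_of rfl, mul_one]
  · intro y _ hy
    rw [Law.ind_not fun h => hy (Prod.mk.inj h).2.symm, mul_zero, zero_mul]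
  · intro h
    exact absurd (Finset.mem_image_of_mem Y (Finset.mem_univ a)) h
  · intro ω _ hω
    refine Finset.sum_eq_zero fun y _ => ?_
    rw [Law.ind_not fun h => hω (Prod.mk.inj h).1.symm, mul_zero, zero_mul]
  · intro h
    exact absurd (Finset.mem_univ _) h

lemma ne_of_law (Q : Law Ω') : Nonempty Ω' := by
  by_contra hcon
  rw [not_nonempty_iff] at hcon
  have := Q.sum_one
  simp at this

/-- conditional independence from a kernel -/
theorem of_ker {Q : Law Ω'} {π : Ω' → Ω} {P : Law Ω} {S U : Type} {W : Ω → S} {Y : Ω' → U} (hm : Mg Q π P)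
    (K : S → U → ℝ) (h : ∀ ω y, Q.pr (fun a => (π a, Y a)) (ω, y) = P.w ω * K (W ω) y) : CI Q π P W Y := by
  classical
  refine ⟨hm, fun T X => indep_aux P Q π W Y K hm h X, fun E β hβ => ?_⟩
  obtain ⟨a₀⟩ := ne_of_law Q
  have hne : (img Y).Nonempty := ⟨Y a₀, Finset.mem_image_of_mem Y (Finset.mem_univ a₀)⟩
  set f : S → U → ℝ := fun s y => ∑ ω with W ω = s, P.w ω * Law.ind (E ω y) with hf
  have hmax : ∀ s, ∃ y ∈ img Y, ∀ y' ∈ img Y, f s y' ≤ f s y := fun s =>
    Finset.exists_max_image (img Y) (f s) hne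
  choose g _ hg using hmax
  refine le_trans ?_ (hβ g)
  rw [prE_ind, prE_ind, ex_pair Q π Y fun ω y => Law.ind (E ω y)]
  unfold Law.ex
  rw [← Finset.sum_fiberwise_of_maps_to (s := univ) (t := img W) (g := W)
      (fun ω _ => Finset.mem_image_of_mem W (Finset.mem_univ ω)),
    ← Finset.sum_fiberwise_of_maps_to (s := univ) (t := img W) (g := W)
      (fun ω _ => Finset.mem_image_of_mem W (Finset.mem_univ ω)) (f := fun ω => P.w ω * Law.ind (E ω (g (W ω))))]
  refine Finset.sum_le_sum fun s _ => ?_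
  have e1 : ∑ ω with W ω = s, P.w ω * Law.ind (E ω (g (W ω))) = f s (g s) :=
    Finset.sum_congr rfl fun ω hω => by rw [(Finset.mem_filter.1 hω).2]
  have e2 : ∑ ω with W ω = s, ∑ y ∈ img Y, Q.pr (fun a => (π a, Y a)) (ω, y) * Law.ind (E ω y) =
      ∑ y ∈ img Y, K s y * f s y := by
    rw [Finset.sum_comm]
    refine Finset.sum_congr rfl fun y _ => ?_
    rw [hf, Finset.mul_sum]
    refine Finset.sum_congr rfl fun ω hω => ?_
    rw [h, (Finset.mem_filter.1 hω).2]
    ring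
  rw [e1, e2]
  have f0 : ∀ y, 0 ≤ f s y := fun y => Finset.sum_nonneg fun ω _ => mul_nonneg (P.nn ω) (ind_nn _)
  by_cases hs : ∃ ω, W ω = s ∧ 0 < P.w ω
  · obtain ⟨ω, rfl, hω⟩ := hs
    have k0 : ∀ y, 0 ≤ K (W ω) y := fun y => by
      have := Q.pr_nonneg (fun a => (π a, Y a)) (ω, y)
      rw [h] at this
      rcases le_or_gt 0 (K (W ω) y) with c | c
      · exact c
      · nlinarith
    have k1 : ∑ y ∈ img Y, K (W ω) y ≤ 1 := by
      have a1 : ∀ y, Q.pr (fun a => (Y a, π a)) (y, ω) = P.w ω * K (W ω) y := by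
        intro y
        rw [← h, Law.pr_eq_ex, Law.pr_eq_ex]
        refine Q.ex_congr fun a _ => ?_
        congr 1
        simp only [Prod.mk.injEq]
        exact propext and_comm
      have a2 := Q.sum_pr_pair_le Y π ω (img Y)
      rw [Finset.sum_congr rfl fun y _ => a1 y, ← Finset.mul_sum, hm ω] at a2
      by_contra c
      push Not at c
      nlinarith
    calc ∑ y ∈ img Y, K (W ω) y * f (W ω) y ≤ ∑ y ∈ img Y, K (W ω) y * f (W ω) (g (W ω)) :=
          Finset.sum_le_sum fun y hy => mul_le_mul_of_nonneg_left (hg _ y hy) (k0 y)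
      _ = (∑ y ∈ img Y, K (W ω) y) * f (W ω) (g (W ω)) := by rw [Finset.sum_mul]
      _ ≤ 1 * f (W ω) (g (W ω)) := mul_le_mul_of_nonneg_right k1 (f0 _)
      _ = _ := one_mul _
  · have z : ∀ y, f s y = 0 := fun y => Finset.sum_eq_zero fun ω hω => by
      have : P.w ω = 0 := le_antisymm (not_lt.1 fun c => hs ⟨ω, (Finset.mem_filter.1 hω).2, c⟩) (P.nn ω)
      rw [this, zero_mul]
    simp [z]

theorem fn {Q : Law Ω'} {π : Ω' → Ω} {P : Law Ω} {S U U' : Type} {W : Ω → S} {Y : Ω' → U} (f : U → U')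
    (h : CI Q π P W Y) : CI Q π P W (fun a => f (Y a)) := by
  refine ⟨h.mg, fun T X => le_antisymm ?_ ?_, fun E β hβ => h.pre (fun ω y => E ω (f y)) β fun g => hβ fun s => f (g s)⟩
  · rw [← hc_of_law Q P π h.mg X W]
    exact hc_mono_right Q _ fun _ _ _ _ e => (Prod.mk.inj e).2
  · rw [← h.ent T X]
    exact hc_mono_right Q _ fun _ _ _ _ e => Prod.ext (congrArg f (Prod.mk.inj e).1) (Prod.mk.inj e).2

theorem glue (Q : Law Ω') (π : Ω' → Ω) (P : Law Ω) {S : Type} (W : Ω → S) (h : Mg Q π P) :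
    ∃ (Ω'' : Type) (_ : Fintype Ω'') (R : Law Ω'') (π' : Ω'' → Ω) (ρ : Ω'' → Ω'),
      Mg R ρ Q ∧ (∀ a, W (π' a) = W (π (ρ a))) ∧ CI R π' P W ρ := by
  classical
  have hW : ∀ s, P.pr W s = Q.pr (fun a => W (π a)) s := fun s => (pr_law_aux Q P π h W s).symm
  refine ⟨Law.GT W fun a => W (π a), inferInstance, Law.glue P Q W _ hW, fun p => p.fst, fun p => p.snd,
    fun a => ?_, fun p => p.eq, of_ker (fun ω => ?_) (fun s a => if W (π a) = s then Q.w a / P.pr W s else 0)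
      fun ω a => ?_⟩
  · rw [Law.glue_pr' hW (fun a => a) a]
    exact pr_id Q a
  · rw [Law.glue_pr hW (fun a => a) ω]
    exact pr_id P ω
  · rw [Law.pr_eq_ex]
    unfold Law.ex Law.glue
    simp only
    rw [Law.GT_sum W (fun a => W (π a)) (fun c b => P.w c * Q.w b / P.pr W (W c) * Law.ind ((c, b) = (ω, a))),
      Finset.sum_eq_single ω, Finset.sum_filter, Finset.sum_eq_single a]
    · split_ifs
      · rw [Law.ind_of rfl]
        ring
      · rw [mul_zero]
    · intro b _ hb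
      rw [Law.ind_not fun e => hb (Prod.mk.inj e).2, mul_zero, ite_self]
    · intro c
      exact absurd (Finset.mem_univ _) c
    · intro c _ hc'
      refine Finset.sum_eq_zero fun b _ => ?_
      rw [Law.ind_not fun e => hc' (Prod.mk.inj e).1, mul_zero]
    · intro c
      exact absurd (Finset.mem_univ _) c

theorem cop (P : Law Ω) {S : Type} (W : Ω → S) (N : ℕ) :
    ∃ Q : Law (Fin (N + 1) → Ω), (∀ a, 0 < Q.w a → ∀ i j, W (a i) = W (a j)) ∧
      ∀ (i : Fin (N + 1)) (U : Type) (Y : (Fin (N + 1) → Ω) → U),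
        (∀ a a', (∀ j, j ≠ i → a j = a' j) → Y a = Y a') → CI Q (fun a => a i) P W Y := by
  classical
  obtain ⟨Q, hQ⟩ := cw_exists P W N
  refine ⟨Q, fun a ha i j => by rw [(cw_supp hQ ha).1 i, (cw_supp hQ ha).1 j], fun i U Y hY => ?_⟩
  obtain ⟨ω₀⟩ := ne_of_law P
  refine of_ker (cw_marg hQ i) (fun s y => ∑ v : Fin N → Ω,
    ck_aux P W N s v * Law.ind (Y (i.insertNth ω₀ v : Fin (N + 1) → Ω) = y)) fun ω y => ?_
  rw [Law.pr_eq_ex]
  unfold Law.ex
  rw [← Fintype.sum_equiv (Fin.insertNthEquiv (fun _ => Ω) i)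
    (fun p : Ω × (Fin N → Ω) => Q.w (i.insertNth p.1 p.2 : Fin (N + 1) → Ω) *
      Law.ind (((i.insertNth p.1 p.2 : Fin (N + 1) → Ω) i,
        Y (i.insertNth p.1 p.2 : Fin (N + 1) → Ω)) = (ω, y))) _ (fun p => rfl)]
  rw [Fintype.sum_prod_type, Finset.sum_eq_single ω]
  · rw [Finset.mul_sum]
    refine Finset.sum_congr rfl fun v _ => ?_
    rw [hQ, cw_insert_aux, mul_assoc]
    congr 2
    have hY' : Y (i.insertNth ω v : Fin (N + 1) → Ω) = Y (i.insertNth ω₀ v : Fin (N + 1) → Ω) := by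
      refine hY _ _ fun k hk => ?_
      rcases Fin.eq_self_or_eq_succAbove i k with h1 | ⟨j, h1⟩
      · exact absurd h1 hk
      · rw [h1, Fin.insertNth_apply_succAbove, Fin.insertNth_apply_succAbove]
    rw [hY', Fin.insertNth_apply_same]
    by_cases h2 : Y (i.insertNth ω₀ v : Fin (N + 1) → Ω) = y
    · rw [Law.ind_of h2, Law.ind_of (by rw [h2])]
    · rw [Law.ind_not h2, Law.ind_not (fun h3 => h2 (Prod.mk.inj h3).2)]
  · intro ω' _ hω'
    refine Finset.sum_eq_zero fun v _ => ?_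
    rw [Law.ind_not, mul_zero]
    intro h3
    have h4 := (Prod.mk.inj h3).1
    rw [Fin.insertNth_apply_same] at h4
    exact hω' h4
  · intro h; exact absurd (Finset.mem_univ _) h

theorem cst {Q : Law Ω'} {π : Ω' → Ω} {P : Law Ω} (h : Mg Q π P) {S T U V : Type} (X : Ω → S) (Y : Ω → T)
    (σ : Ω → U) (G : Ω' → V) (hσ : Fn P σ Y) :
    hc P X Y - mi Q π G (fun a => σ (π a)) ≤ hc Q (fun a => X (π a)) (fun a => (Y (π a), G a)) := by
  have h1 : mi Q π G (fun a => (Y (π a), σ (π a))) ≤ mi Q π G (fun a => σ (π a)) :=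
    mi_cond_le Q G _ fun _ _ _ _ e => congrArg Y (Prod.mk.inj e).1
  have h2 : mi Q π G (fun a => (Y (π a), σ (π a))) = mi Q π G (fun a => Y (π a)) :=
    mi_congr_cond Q π G (fun a a' ha ha' e => Prod.ext e (hσ _ _ (pos h a ha) (pos h a' ha') e))
      fun _ _ _ _ e => (Prod.mk.inj e).1
  have h3 : mi Q (fun a => X (π a)) G (fun a => Y (π a)) ≤ mi Q π G (fun a => Y (π a)) :=
    mi_mono_left Q G fun _ _ _ _ e => congrArg X (Prod.mk.inj e).1
  have h4 : hc Q (fun a => X (π a)) (fun a => Y (π a)) = hc P X Y := hc_of_law Q P π h X Y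
  have h5 : hc Q (fun a => X (π a)) (fun a => (G a, Y (π a))) ≤
      hc Q (fun a => X (π a)) (fun a => (Y (π a), G a)) :=
    hc_mono_right Q _ fun _ _ _ _ e => Prod.ext (Prod.mk.inj e).2 (Prod.mk.inj e).1
  have h6 : mi Q (fun a => X (π a)) G (fun a => Y (π a)) = hc Q (fun a => X (π a)) (fun a => Y (π a)) -
    hc Q (fun a => X (π a)) (fun a => (G a, Y (π a))) := rfl
  linarith

theorem mic {Q : Law Ω'} {π : Ω' → Ω} {P : Law Ω} {S U V : Type} {c : Ω → S} {σ : Ω → U} {G : Ω' → V}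
    (h : CI Q π P (fun ω => (c ω, σ ω)) G) :
    mi Q π G (fun a => σ (π a)) = hc P c σ - hc Q (fun a => c (π a)) (fun a => (G a, σ (π a))) := by
  have h1 : mi Q π G (fun a => (c (π a), σ (π a))) = 0 := by
    have a1 := h.ent Ω fun ω => ω
    have a2 : hc Q π (fun a => (c (π a), σ (π a))) = hc P (fun ω => ω) fun ω => (c ω, σ ω) :=
      hc_of_law Q P π h.mg (fun ω => ω) fun ω => (c ω, σ ω)
    show hc Q π (fun a => (c (π a), σ (π a))) - hc Q π (fun a => (G a, c (π a), σ (π a))) = 0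
    rw [a2]
    exact sub_eq_zero.2 a1.symm
  have h2 := mi_pair Q G (fun a => c (π a)) π (fun a => σ (π a))
  have h3 : mi Q G (fun a => (c (π a), π a)) (fun a => σ (π a)) = mi Q G π (fun a => σ (π a)) :=
    le_antisymm (mi_mono_right Q G fun _ _ _ _ e =>
        Prod.ext (congrArg c (Prod.mk.inj e).1) (Prod.mk.inj e).1)
      (mi_mono_right Q G fun _ _ _ _ e => (Prod.mk.inj (Prod.mk.inj e).1).2)
  rw [mi_symm Q π G] at h1 ⊢
  rw [← h3, h2, h1, add_zero, mi_symm Q G, ← hc_of_law Q P π h.mg c σ]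
  rfl

end TCx

theorem tc : TC where
  hcm := fun h _ _ X Y => hc_of_law _ _ _ h X Y
  prm := fun h E => TCx.prm h E
  pos := fun h a => TCx.pos h a
  cmp := fun h h' => TCx.cmp h h'
  rfl := fun P ω => pr_id P ω
  fn := fun f h => TCx.fn f h
  glue := fun Q π P _ W h => TCx.glue Q π P W h
  cop := fun P _ W N => TCx.cop P W N
  cst := fun h _ _ _ _ X Y σ G => TCx.cst h X Y σ G
  mic := fun h => TCx.mic h

end

end Vale.Agent.P076N.TB
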