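import Vale.Agent.P076N.TB.Ta1

/-!
# P076N / TB : row TF, frames and strips
-/

set_option linter.all false

open Finset Vale.Agent.P127 Vale.Agent.P127.Stk
open scoped RealInnerProductSpace

namespace Vale.Agent.P076N.TB

namespace TFx

theorem frm (k f : ℕ) (W : Submodule ℝ (Vc k)) (hW : Module.finrank ℝ W ≤ f) :
    ∃ O : Vc k ≃ₗᵢ[ℝ] Vc k, ∀ v ∈ W, ∀ l : Fin k, f ≤ (l : ℕ) → O v l = 0 := by
  have hk : Module.finrank ℝ W ≤ k := (Submodule.finrank_le W).trans (by simp)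
  let b0 := stdOrthonormalBasis ℝ W
  let v : Fin k → Vc k := fun i => if h : (i : ℕ) < Module.finrank ℝ W then (b0 ⟨i, h⟩ : Vc k) else 0
  have hv : Orthonormal ℝ (({i | (i : ℕ) < Module.finrank ℝ W} : Set (Fin k)).domRestrict v) := by
    have h1 : Orthonormal ℝ (fun j => (b0 j : Vc k)) := b0.orthonormal.comp_linearIsometry W.subtypeₗᵢ
    have h2 := h1.comp (fun i : ({i | (i : ℕ) < Module.finrank ℝ W} : Set (Fin k)) => ⟨i.1, i.2⟩)
      fun i j e => Subtype.ext (Fin.ext (Fin.mk.inj e))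
    convert h2 using 1
    funext i
    exact dif_pos i.2
  obtain ⟨b, hb⟩ := hv.exists_orthonormalBasis_extension_of_card_eq (by simp)
  refine ⟨b.repr, fun x hx l hl => ?_⟩
  have e : x = ∑ j, b0.repr ⟨x, hx⟩ j • (b0 j : Vc k) := by
    have := congrArg (fun z : W => (z : Vc k)) (b0.sum_repr ⟨x, hx⟩)
    simpa using this.symm
  rw [b.repr_apply_apply, e, inner_sum]
  refine sum_eq_zero fun j _ => ?_
  have e2 : (b0 j : Vc k) = b (Fin.castLE hk j) := by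
    rw [hb _ (by simp)]
    simp [v]
  rw [inner_smul_right, e2, b.orthonormal.2, mul_zero]
  intro e3
  have := congrArg Fin.val e3
  simp only [Fin.val_castLE] at this
  omega

theorem nea (k f : ℕ) (Cu ρ : ℝ) (L : Submodule ℝ (Vc k × ℝ)) (hL : Module.finrank ℝ L ≤ f + 1) (hρ : ρ ≤ 1 / 2) :
    ∃ pl : Pl k, ∀ u : Vc k, ‖u‖ ≤ Cu → Near L ρ (u, 1) → InS pl f ((2 + 2 * Cu) * ρ) u := by
  have base : ∀ (u : Vc k) (z : Vc k × ℝ), ‖(u, (1 : ℝ)) - z‖ ≤ ρ → ‖u - z.1‖ ≤ ρ ∧ |1 - z.2| ≤ ρ :=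
    fun u z h => ⟨(norm_fst_le ((u, (1 : ℝ)) - z)).trans h, (norm_snd_le ((u, (1 : ℝ)) - z)).trans h⟩
  by_cases h0 : ∃ a, (a, (1 : ℝ)) ∈ L
  · obtain ⟨a, ha⟩ := h0
    have h1 : (L.comap (LinearMap.inl ℝ (Vc k) ℝ)).map (LinearMap.inl ℝ (Vc k) ℝ) < L := by
      refine lt_of_le_of_ne (Submodule.map_comap_le _ _) fun e => ?_
      rw [← e] at ha
      obtain ⟨x, -, hx⟩ := ha
      simpa using congrArg Prod.snd hx
    have h2 := Submodule.finrank_lt_finrank_of_lt h1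
    rw [← (Submodule.equivMapOfInjective _ LinearMap.inl_injective _).finrank_eq] at h2
    obtain ⟨O, hO⟩ := frm k f (L.comap (LinearMap.inl ℝ (Vc k) ℝ)) (by omega)
    refine ⟨(O, a), fun u hu ⟨z, hz, hz'⟩ l hl => ?_⟩
    obtain ⟨b1, b2⟩ := base u z hz'
    have b3 : O (z.1 - z.2 • a) l = 0 := by
      refine hO _ ?_ l hl
      have := L.sub_mem hz (L.smul_mem z.2 ha)
      rw [Submodule.mem_comap]
      convert this using 1
      ext <;> simp
    have b4 : z.2 * O (u - a) l = O ((u - z.1) - (1 - z.2) • u) l := by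
      have : z.2 • (u - a) = ((u - z.1) - (1 - z.2) • u) + (z.1 - z.2 • a) := by module
      have := congrArg (fun x => O x l) this
      simp only [map_smul, map_add, PiLp.smul_apply, PiLp.add_apply, smul_eq_mul, b3, add_zero] at this
      exact this
    have b5 := TAx.coord_le (O ((u - z.1) - (1 - z.2) • u)) l
    rw [O.norm_map, ← b4, abs_mul] at b5
    have b6 := norm_sub_le (u - z.1) ((1 - z.2) • u)
    rw [norm_smul, Real.norm_eq_abs] at b6
    have b7 := mul_le_mul b2 hu (norm_nonneg _) ((abs_nonneg _).trans b2)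
    have b8 : 1 / 2 ≤ |z.2| := le_trans (by have := (abs_le.1 b2).2; linarith) (le_abs_self _)
    have b9 := mul_le_mul_of_nonneg_right b8 (abs_nonneg (O (u - a) l))
    show |O (u - a) l| ≤ _
    linarith
  · refine ⟨(LinearIsometryEquiv.refl ℝ _, 0), fun u _ ⟨z, hz, hz'⟩ => (h0 ⟨z.2⁻¹ • z.1, ?_⟩).elim⟩
    have b2 := (abs_le.1 (base u z hz').2).2
    have b3 : z.2 ≠ 0 := by intro e; rw [e] at b2; linarith
    convert L.smul_mem z.2⁻¹ hz using 1
    ext <;> simp [b3]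

theorem str (k f : ℕ) (Cu : ℝ) (hf : f ≤ k) : ∃ C : ℝ, 1 ≤ C ∧ ∀ (y : ℕ) (pl : Pl k), ∃ F : Finset (Zv k),
    (#F : ℝ) ≤ C * 2 ^ (f * y) ∧ ∀ u : Vc k, ‖u‖ ≤ Cu → InS pl f (2 ^ y)⁻¹ u → flv (2 ^ y)⁻¹ u ∈ F := by
  classical
  have hCu := abs_nonneg Cu
  refine ⟨(4 * |Cu| + 3) ^ f * 7 ^ k * (2 * k + 3) ^ k, ?_, fun y pl => ?_⟩
  · have h1 : (1 : ℝ) ≤ (4 * |Cu| + 3) ^ f := one_le_pow₀ (by linarith)
    have h2 : (1 : ℝ) ≤ 7 ^ k := one_le_pow₀ (by norm_num)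
    have h3 : (1 : ℝ) ≤ (2 * k + 3) ^ k := one_le_pow₀ (by have := Nat.cast_nonneg (α := ℝ) k; linarith)
    exact one_le_mul_of_one_le_of_one_le (one_le_mul_of_one_le_of_one_le h1 h2) h3
  by_cases h0 : ∃ u : Vc k, ‖u‖ ≤ Cu ∧ InS pl f (2 ^ y)⁻¹ u
  swap
  · exact ⟨∅, by simp only [card_empty, Nat.cast_zero]; positivity, fun u h1 h2 => (h0 ⟨u, h1, h2⟩).elim⟩
  obtain ⟨u0, h1, h2⟩ := h0
  have hr : (0 : ℝ) < (2 ^ y)⁻¹ := by positivity
  have hy : (1 : ℝ) ≤ 2 ^ y := one_le_pow₀ one_le_two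
  let lam : Fin k → ℝ := fun l => if (l : ℕ) < f then 2 * |Cu| * 2 ^ y else 2
  let G : Finset (Zv k) := Fintype.piFinset fun l => Icc ⌊0 / ((2 : ℝ) ^ y)⁻¹ - lam l⌋ ⌊0 / ((2 : ℝ) ^ y)⁻¹ + lam l⌋
  let c : Zv k → Vc k := fun g => u0 + pl.1.symm (((2 : ℝ) ^ y)⁻¹ • toV g)
  let Bx : Zv k → Finset (Zv k) := fun g =>
    Fintype.piFinset fun l => Icc ⌊c g l / ((2 : ℝ) ^ y)⁻¹ - k⌋ ⌊c g l / ((2 : ℝ) ^ y)⁻¹ + k⌋
  refine ⟨G.biUnion Bx, ?_, fun u h3 h4 => mem_biUnion.2 ⟨flv (2 ^ y)⁻¹ (pl.1 (u - u0)), ?_, ?_⟩⟩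
  · have hB : ∀ g, (#(Bx g) : ℝ) ≤ (2 * k + 3) ^ k := fun g => by
      rw [Fintype.card_piFinset, Nat.cast_prod]
      calc _ ≤ ∏ _l : Fin k, (2 * (k : ℝ) + 3) :=
            prod_le_prod (fun _ _ => Nat.cast_nonneg _) fun l _ => TAx.icc_card _ _ (Nat.cast_nonneg _)
        _ = _ := by simp
    have hG : (#G : ℝ) ≤ (4 * |Cu| + 3) ^ f * 7 ^ k * 2 ^ (f * y) := by
      rw [Fintype.card_piFinset, Nat.cast_prod]
      have a1 : (1 : ℝ) ≤ (4 * |Cu| + 3) * 2 ^ y := one_le_mul_of_one_le_of_one_le (by linarith) hy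
      calc _ ≤ ∏ l : Fin k, ((if (l : ℕ) < f then (4 * |Cu| + 3) * 2 ^ y else 1) * 7 : ℝ) := by
            refine prod_le_prod (fun _ _ => Nat.cast_nonneg _) fun l _ => (TAx.icc_card _ _ ?_).trans ?_
            · simp only [lam]; split_ifs <;> positivity
            · simp only [lam]
              split_ifs
              · nlinarith
              · norm_num
        _ = ((4 * |Cu| + 3) * 2 ^ y) ^ #(univ.filter fun l : Fin k => (l : ℕ) < f) * 7 ^ k := by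
            rw [prod_mul_distrib, prod_ite]
            simp
        _ ≤ ((4 * |Cu| + 3) * 2 ^ y) ^ f * 7 ^ k := by
            refine mul_le_mul_of_nonneg_right (pow_le_pow_right₀ a1 ?_) (by positivity)
            refine le_trans (card_le_card_of_injOn (t := range f) (fun l : Fin k => (l : ℕ)) ?_ ?_) (by simp)
            · intro l hl
              simpa using hl
            · intro l _ l' _ e
              exact Fin.ext e
        _ = _ := by rw [mul_pow, ← pow_mul, mul_comm y f]; ring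
    calc (#(G.biUnion Bx) : ℝ) ≤ ∑ g ∈ G, (#(Bx g) : ℝ) := by exact_mod_cast card_biUnion_le
      _ ≤ ∑ _g ∈ G, (2 * (k : ℝ) + 3) ^ k := sum_le_sum fun g _ => hB g
      _ = #G * (2 * (k : ℝ) + 3) ^ k := by simp
      _ ≤ (4 * |Cu| + 3) ^ f * 7 ^ k * 2 ^ (f * y) * (2 * (k : ℝ) + 3) ^ k :=
          mul_le_mul_of_nonneg_right hG (by positivity)
      _ = _ := by ring
  · refine Fintype.mem_piFinset.2 fun l => TAx.flr_mem hr ?_
    rw [sub_zero]
    simp only [lam]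
    split_ifs with hl
    · have b1 := TAx.coord_le (pl.1 (u - u0)) l
      rw [pl.1.norm_map] at b1
      have b2 := norm_sub_le u u0
      have b3 := le_abs_self Cu
      rw [mul_assoc, mul_inv_cancel₀ (by positivity), mul_one]
      linarith
    · have b1 := h4 l (not_lt.1 hl)
      have b2 := h2 l (not_lt.1 hl)
      have e : pl.1 (u - u0) l = pl.1 (u - pl.2) l - pl.1 (u0 - pl.2) l := by
        rw [← PiLp.sub_apply, ← map_sub, sub_sub_sub_cancel_right]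
      rw [e]
      exact (abs_sub _ _).trans (by linarith)
  · refine Fintype.mem_piFinset.2 fun l => TAx.flr_mem hr ?_
    rw [← PiLp.sub_apply]
    refine (TAx.coord_le _ l).trans ?_
    have b1 := TAx.crn _ (pl.1 (u - u0)) hr
    rw [← pl.1.norm_map]
    simp only [c]
    rwa [← sub_sub, map_sub, pl.1.apply_symm_apply]

end TFx

theorem tf : TF := ⟨TFx.frm, TFx.nea, TFx.str⟩

end Vale.Agent.P076N.TB
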