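import Vale.Agent.P076N.TB.Ta
import Vale.Agent.P076N.TB.Tc
import Vale.Agent.P076N.TB.Tf
import Vale.Agent.P076N.TB.Lt
import Vale.Agent.P076N.TB.Ls
import Vale.Agent.P076N.TB.La
import Vale.Agent.P076N.TB.Pj
import Vale.Agent.P076N.TB.Cg
import Vale.Agent.P076N.TB.Ca
import Vale.Agent.P076N.TB.R1
import Vale.Agent.P076N.TB.R2
import Vale.Agent.P076N.TB.Bk
import Vale.Agent.P076N.TB.Cd
import Vale.Agent.P076N.TB.In
import Vale.Agent.P076N.TB.Fin

/-!
# P076N / TB : the tube lemmas LW, PJ, PLAN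
-/

namespace Vale.Agent.P076N.TB

theorem rows : Rows := ⟨ta, tc, tf, lt, ls, la, pj, cg, cs, ca, co, r1, r2, bk, cd, sp, ini, fin⟩

theorem stLW (k : ℕ) : StLW k := rows.lw k

theorem stPJ (k : ℕ) : StPJ k := rows.pj' k

theorem stPLAN (n : ℕ) (hn : 2 ≤ n) (hl : StLW n) : StPLAN n := rows.plan n hn hl

end Vale.Agent.P076N.TB
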