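import Vale.Agent.P076N.TB.Cs

/-!
# P076N / TB : row CO, the plate at one resolution
-/

set_option linter.all false

open Finset Vale.Agent.P127 Vale.Agent.P127.Stk
open scoped RealInnerProductSpace

namespace Vale.Agent.P076N.TB

noncomputable section

namespace COx

open CSx

/-- the tube is in the flat -/
lemma tube (hA : TA) (hC : TC) (hG : CG) {Ω Ω' : Type} [Fintype Ω] [Fintype Ω'] {n : ℕ} (S : TSys Ω n)
    (Q : Law Ω') (π : Ω' → Ω) {Γ : Type} (G : Ω' → Γ) (b : Γ → Vc n × ℝ) (L : Γ → Submodule ℝ (Vc n × ℝ))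
    (Cz e I Δ δ δ' : ℝ) (w s : ℕ) (hCz : 1 ≤ Cz) (hs1 : 1 ≤ s) (hsw : s ≤ w) (hm : Mg Q π S.P)
    (hd : Diam S (Cz * 2 ^ w))
    (ht : w * Real.log 2 - e ≤ hc S.P (S.tm 0) (fun ω => (S.tub 0 ω, S.side ω)))
    (hI : mi Q π G (fun a => S.side (π a)) ≤ I) (hf : 2 * (e + I + Real.log (14 * Cz)) ≤ δ' * s)
    (hmem : prE Q (fun a => ¬ Near (L (G a)) Δ (cen (S.cel 0 (π a)) - b (G a))) ≤ δ) :
    prE Q (fun a => ¬ Near (L (G a)) ((2 * Δ + 3 * ((n : ℝ) + 1)) / (2 ^ w / 2 ^ s)) (S.u (π a), 1)) ≤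
      δ + δ + δ' := by
  obtain ⟨Ω₁, _, R, π', ρ, m, e₁, i⟩ := hC.glue Q (fun a => a) Q (fun a => (WW S (π a), G a)) (hC.rfl Q)
  have m0 : Mg R (fun a => π (ρ a)) S.P := hC.cmp m hm
  have m1 : Mg R (fun a => π (π' a)) S.P := hC.cmp i.mg hm
  have w1 : ∀ a, WW S (π (ρ a)) = WW S (π (π' a)) := fun a => (Prod.mk.inj (e₁ a)).1.symm
  have g1 : ∀ a, G (π' a) = G (ρ a) := fun a => (Prod.mk.inj (e₁ a)).2
  have t1 : w * Real.log 2 - (e + I) ≤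
      hc R (fun a => S.tm 0 (π (π' a))) (fun a => (ρ a, WW S (π (π' a)), G (π' a))) := by
    rw [i.ent ℤ (fun a => S.tm 0 (π a))]
    have := hC.cst hm (S.tm 0) (WW S) S.side G fun _ _ _ _ h => (Prod.mk.inj h).2
    have h2 : hc S.P (S.tm 0) (WW S) = hc S.P (S.tm 0) (fun ω => (S.tub 0 ω, S.side ω)) := rfl
    linarith
  have f1 := hA.fano R (fun a => S.t (π (π' a))) (fun a => S.t (π (ρ a)))
    (fun a => (ρ a, WW S (π (π' a)), G (π' a))) (2 ^ 0) Cz (e + I) w s (by positivity) hCz hsw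
    (fun a a' _ _ h => congrArg (fun x => S.t (π x)) (Prod.mk.inj h).1) (fun a ha => by
      simp only [pow_zero, mul_one]
      exact (hd _ _ (hC.pos m1 a ha) (hC.pos m0 a ha) (onT hA S (w1 a)).2.1.symm).2) t1
  have f2 := fano_le f1 le_rfl (prE_nonneg _ _) (by exact_mod_cast hs1) hf
  have p0 := (hC.prm m (fun a => ¬ Near (L (G a)) Δ (cen (S.cel 0 (π a)) - b (G a)))).trans_le hmem
  have p1 := (hC.prm i.mg (fun a => ¬ Near (L (G a)) Δ (cen (S.cel 0 (π a)) - b (G a)))).trans_le hmem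
  rw [← hC.prm m]
  refine le_trans (hA.por R _ (fun a => ¬ Near (L (G (ρ a))) Δ (cen (S.cel 0 (π (ρ a))) - b (G (ρ a))) ∨
    ¬ Near (L (G (π' a))) Δ (cen (S.cel 0 (π (π' a))) - b (G (π' a)))) _ fun a _ h => ?_)
    (add_le_add ((hA.por R _ _ _ fun _ _ h => h).trans (add_le_add p0 p1)) f2)
  by_contra c
  rw [not_or, not_or, not_not, not_not, not_le, g1 a] at c
  obtain ⟨⟨c1, c2⟩, c3⟩ := c
  simp only [pow_zero, mul_one] at c3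
  rw [abs_sub_comm] at c3
  exact h (hG.tub _ _ _ _ ((n : ℝ) + 1) Δ (2 ^ w / 2 ^ s) _ _ _ _ _ (by positivity) (onT hA S (w1 a)).2.2
    (cen_close hA S _) (cen_close hA S _) c3.le c1 c2)

/-- from flats to plates -/
lemma plate (hA : TA) (hC : TC) (hG : CG) {Ω : Type} [Fintype Ω] {n : ℕ} (hn : 1 ≤ n) (S : TSys Ω n)
    (Cu Cz e ρ β Δ δ δ' H a h : ℝ) (w s : ℕ) (hCz : 1 ≤ Cz) (hs1 : 1 ≤ s) (hsw : s ≤ w)
    (hS : Core S w Cu Cz e ρ β) (hch : Chn S n Δ δ (n * w * Real.log 2 - H))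
    (hf : 2 * (e + (e + H) + Real.log (14 * Cz)) ≤ δ' * s)
    (h1 : (2 * Δ + 3 * ((n : ℝ) + 1)) / (2 ^ w / 2 ^ s) ≤ 1 / 2)
    (h2 : (2 * Cu + 2) * ((2 * Δ + 3 * ((n : ℝ) + 1)) / (2 ^ w / 2 ^ s)) ≤ a)
    (h3 : (2 * Cu + 2) * (Δ + ((n : ℝ) + 1)) ≤ h) : PlEx S a h (e + H) (δ + (δ + δ + δ')) := by
  obtain ⟨Ω', _, Q, π, Γ, G, b, L, hCI, hrk, hmem, hH⟩ := hch
  have hI : mi Q π G (fun a => S.side (π a)) ≤ e + H := by
    rw [hC.mic hCI]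
    have := hS.up
    linarith
  have ht := tube hA hC hG S Q π G b L Cz e (e + H) Δ δ δ' w s hCz hs1 hsw hCI.mg hS.diam hS.tim hI hf hmem
  choose pl hpl hin using fun g => hG.plt (L g) (b g) hn (hrk g)
  refine ⟨Ω', inferInstance, Q, π, Γ, G, pl, hCI, hI, hpl,
    (hA.por Q _ _ _ fun x hx hh => ?_).trans (add_le_add hmem ht)⟩
  by_contra c
  rw [not_or, not_not, not_not] at c
  have n1 := near_of c.1 (v' := (S.x (π x), S.t (π x)) - b (G x)) (b := (n : ℝ) + 1) (by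
    rw [sub_sub_sub_cancel_right]
    exact cen_close hA S _)
  obtain ⟨r1, r2⟩ := hin (G x) Cu _ _ _ _ _ (hS.bnd _ (hC.pos hCI.mg x hx)) h1 c.2 n1
  exact hh ⟨r1.trans h2, r2.trans h3⟩

lemma big (M η : ℝ) (hη : 0 < η) : ∃ w₀ : ℕ, ∀ w : ℕ, w₀ ≤ w → M ≤ η * w := by
  refine ⟨⌈M / η⌉₊, fun w hw => ?_⟩
  have h1 : M / η ≤ w := (Nat.le_ceil _).trans (by exact_mod_cast hw)
  rw [div_le_iff₀ hη] at h1
  linarith

lemma le_two_rpow (x : ℝ) : x ≤ (2 : ℝ) ^ x := by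
  rcases le_or_gt x 1 with h | h
  · rcases le_or_gt x 0 with h0 | h0
    · exact h0.trans (by positivity)
    · exact h.trans (Real.one_le_rpow (by norm_num) h0.le)
  · have := one_add_mul_self_le_rpow_one_add (s := (1 : ℝ)) (by norm_num) h.le
    norm_num at this
    linarith

lemma plex_mono {Ω : Type} [Fintype Ω] {n : ℕ} (hA : TA) {S : TSys Ω n} {a h I δ a' h' I' δ' : ℝ}
    (H : PlEx S a h I δ) (h1 : a ≤ a') (h2 : h ≤ h') (h3 : I ≤ I') (h4 : δ ≤ δ') : PlEx S a' h' I' δ' := by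
  obtain ⟨Ω', _, Q, π, Γ, G, pl, c1, c2, c3, c4⟩ := H
  exact ⟨Ω', inferInstance, Q, π, Γ, G, pl, c1, c2.trans h3, c3,
    ((hA.pmo Q _ _ fun x _ hx hy => hx ⟨hy.1.trans h1, hy.2.trans h2⟩).trans c4).trans h4⟩

lemma core_mono {Ω : Type} [Fintype Ω] {n : ℕ} (hA : TA) {S : TSys Ω n} {w : ℕ} {Cu Cz e ρ β e' ρ' β' : ℝ}
    (H : Core S w Cu Cz e ρ β) (h1 : e ≤ e') (h2 : ρ' ≤ ρ) (h3 : β ≤ β') : Core S w Cu Cz e' ρ' β' :=
  ⟨H.bnd, H.diam, by have := H.up; linarith, by have := H.tim; linarith, by have := H.dir; linarith,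
    fun L hL => ((hA.pmo _ _ _ fun _ _ hx => near_mono hx h2).trans (H.brd L hL)).trans h3⟩

lemma nums (Cu m ζ η η₁ : ℝ) (w s : ℕ) (hCu : 1 ≤ Cu) (hm : 1 ≤ m) (ζ0 : 0 < ζ) (ζ1 : ζ ≤ η) (ζ2 : ζ ≤ 1 / 2)
    (η0 : 0 < η₁) (η1 : η₁ ≤ ζ / 800) (a2 : 2 * (2 * Cu + 2) * (2 + 3 * m) + 2 ≤ ζ / 4 * w)
    (s2 : (s : ℝ) < ζ / 4 * w + 1) :
    (2 * 2 ^ (η₁ * w) + 3 * m) / (2 ^ w / 2 ^ s) ≤ 1 / 2 ∧
    (2 * Cu + 2) * ((2 * 2 ^ (η₁ * w) + 3 * m) / (2 ^ w / 2 ^ s)) ≤ 2 ^ (η * w) / 2 ^ w ∧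
    (2 * Cu + 2) * (2 ^ (η₁ * w) + m) ≤ 2 ^ (η * w) := by
  have hw0 : (0 : ℝ) ≤ w := Nat.cast_nonneg w
  have pK : 0 ≤ 2 * (2 * Cu + 2) * (2 + 3 * m) := by positivity
  have Δ1 : (1 : ℝ) ≤ 2 ^ (η₁ * w) := Real.one_le_rpow (by norm_num) (by positivity)
  have x1 : η₁ * w ≤ ζ / 800 * w := mul_le_mul_of_nonneg_right η1 hw0
  have x2 : ζ * w ≤ 1 / 2 * w := mul_le_mul_of_nonneg_right ζ2 hw0
  have b1 : 2 * (2 * Cu + 2) * (2 + 3 * m) * (2 ^ (η₁ * w) * 2 ^ s) ≤ 2 ^ (ζ * w) := by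
    have c1 : 2 * (2 * Cu + 2) * (2 + 3 * m) ≤ 2 ^ (ζ / 4 * w) := le_trans (by linarith) (le_two_rpow _)
    calc _ ≤ 2 ^ (ζ / 4 * w) * (2 ^ (η₁ * w) * 2 ^ s) := mul_le_mul_of_nonneg_right c1 (by positivity)
      _ = 2 ^ (ζ / 4 * w + (η₁ * w + s)) := by
          rw [Real.rpow_add (by norm_num), Real.rpow_add (by norm_num), Real.rpow_natCast]
      _ ≤ 2 ^ (ζ * w) := Real.rpow_le_rpow_of_exponent_le (by norm_num) (by linarith)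
  have b2 : (2 : ℝ) ^ (ζ * w) ≤ 2 ^ w := by
    rw [← Real.rpow_natCast 2 w]
    exact Real.rpow_le_rpow_of_exponent_le (by norm_num) (by linarith)
  have b3 : (2 : ℝ) ^ (ζ * w) ≤ 2 ^ (η * w) :=
    Real.rpow_le_rpow_of_exponent_le (by norm_num) (mul_le_mul_of_nonneg_right ζ1 hw0)
  have b0 : (0 : ℝ) < 2 ^ (ζ * w) := by positivity
  generalize (2 : ℝ) ^ (ζ * w) = X at *
  generalize (2 : ℝ) ^ (η * w) = Y at *
  generalize (2 : ℝ) ^ (η₁ * w) = Δ at *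
  have h2s : (1 : ℝ) ≤ 2 ^ s := one_le_pow₀ (by norm_num)
  have h2w : (0 : ℝ) < 2 ^ w := by positivity
  generalize (2 : ℝ) ^ s = T at *
  generalize (2 : ℝ) ^ w = V at *
  have b4 : (2 * Δ + 3 * m) / (V / T) ≤ (2 + 3 * m) * (Δ * T) / V := by
    rw [div_div_eq_mul_div]
    refine div_le_div_of_nonneg_right ?_ h2w.le
    rw [← mul_assoc]
    exact mul_le_mul_of_nonneg_right (by nlinarith) (by linarith)
  have b5 : 0 ≤ (2 + 3 * m) * (Δ * T) := by positivity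
  have b6 : (2 * Cu + 2) * ((2 + 3 * m) * (Δ * T)) ≤ X / 2 := by linarith
  refine ⟨b4.trans ?_, (mul_le_mul_of_nonneg_left b4 (by linarith)).trans ?_, ?_⟩
  · rw [div_le_iff₀ h2w]
    have := mul_le_mul_of_nonneg_right (show 1 ≤ 2 * Cu + 2 by linarith) b5
    linarith
  · rw [← mul_div_assoc]
    exact div_le_div_of_nonneg_right (by linarith) h2w.le
  · have c0 : Δ ≤ Δ * T := by nlinarith
    have c1 : Δ + m ≤ (2 + 3 * m) * (Δ * T) := by nlinarith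
    have c2 := mul_le_mul_of_nonneg_left c1 (by linarith : 0 ≤ 2 * Cu + 2)
    linarith

end COx

open CSx COx in
theorem co (hA : TA) (hC : TC) (hG : CG) (n : ℕ) (hn : 1 ≤ n) (hca : CA n) : CO n := by
  intro Cu Cz η hCu hCz hη
  -- wlog `η ≤ 1 / 2`
  set ζ := min η (1 / 2) with hζ
  have ζ0 : 0 < ζ := lt_min hη (by norm_num)
  have ζ1 : ζ ≤ η := min_le_left _ _
  have ζ2 : ζ ≤ 1 / 2 := min_le_right _ _
  clear_value ζ
  set η₁ := ζ ^ 2 / 400 with hη₁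
  have η0 : 0 < η₁ := by positivity
  have η1 : η₁ ≤ ζ / 800 := by rw [hη₁]; nlinarith
  obtain ⟨ε, ε0, w₀, H⟩ := hca Cu Cz η₁ hCu hCz η0
  have hn0 : (0 : ℝ) ≤ n := Nat.cast_nonneg n
  obtain ⟨w₁, H₁⟩ := big (Real.log (14 * Cz)) η₁ η0
  obtain ⟨w₂, H₂⟩ := big (2 * (2 * Cu + 2) * (2 + 3 * ((n : ℝ) + 1)) + 2) (ζ / 4) (by linarith)
  refine ⟨min ε η₁, lt_min ε0 η0, max w₀ (max w₁ w₂), fun w Ω _ S hw hS => ?_⟩
  have hw0 : (0 : ℝ) ≤ w := Nat.cast_nonneg w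
  have a1 := H₁ w (le_trans (le_max_left _ _) ((le_max_right _ _).trans hw))
  have a2 := H₂ w (le_trans (le_max_right _ _) ((le_max_right _ _).trans hw))
  have e1 : min ε η₁ * w ≤ ε * w := mul_le_mul_of_nonneg_right (min_le_left _ _) hw0
  have e2 : min ε η₁ * w ≤ η₁ * w := mul_le_mul_of_nonneg_right (min_le_right _ _) hw0
  have hch := H w Ω S ((le_max_left _ _).trans hw) (core_mono hA hS e1
    (Real.rpow_le_rpow_of_exponent_le (by norm_num) (by linarith)) (min_le_left _ _))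
  have pK : 0 ≤ 2 * (2 * Cu + 2) * (2 + 3 * ((n : ℝ) + 1)) := by positivity
  set s := ⌈ζ / 4 * w⌉₊ with hs
  have s1 : ζ / 4 * w ≤ s := Nat.le_ceil _
  have s2 : (s : ℝ) < ζ / 4 * w + 1 := Nat.ceil_lt_add_one (by positivity)
  have ζw : ζ * w ≤ 1 / 2 * w := mul_le_mul_of_nonneg_right ζ2 hw0
  have s3 : 1 ≤ s := by
    have : (1 : ℝ) ≤ s := by linarith
    exact_mod_cast this
  have s4 : s ≤ w := by
    have : (s : ℝ) ≤ w := by linarith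
    exact_mod_cast this
  obtain ⟨n1, n2, n3⟩ := nums Cu ((n : ℝ) + 1) ζ η η₁ w s hCu (by linarith) ζ0 ζ1 ζ2 η0 η1 a2 s2
  have hp := plate hA hC hG hn S Cu Cz _ _ _ _ η₁ (ζ / 4) (η₁ * w) (2 ^ (η * w) / 2 ^ w) (2 ^ (η * w)) w s hCz s3 s4
    hS hch (by
      have : ζ / 4 * (ζ / 4 * w) ≤ ζ / 4 * s := mul_le_mul_of_nonneg_left s1 (by linarith)
      have e3 : η₁ * w = ζ / 4 * (ζ / 4 * w) / 25 := by rw [hη₁]; ring
      have e4 : 0 ≤ η₁ * w := by positivity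
      linarith) n1 n2 n3
  refine plex_mono hA hp le_rfl le_rfl ?_ (by linarith)
  have : η₁ * w ≤ η / 800 * w := mul_le_mul_of_nonneg_right (by linarith) hw0
  have : 0 ≤ η * w := by positivity
  linarith

end

end Vale.Agent.P076N.TB
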