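import Vale.Agent.P076N.TB.Cs1

/-!
# P076N / TB : row CS, one link of the chain
-/

set_option linter.all false

open Finset Vale.Agent.P127 Vale.Agent.P127.Stk
open scoped RealInnerProductSpace

namespace Vale.Agent.P076N.TB

noncomputable section

namespace CSx

lemma rank_sup {n j : ℕ} (L : Submodule ℝ (Vc n × ℝ)) (v : Vc n × ℝ) (h : Module.finrank ℝ L ≤ j) :
    Module.finrank ℝ (L ⊔ Submodule.span ℝ {v} : Submodule ℝ (Vc n × ℝ)) ≤ j + 1 := by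
  refine (Submodule.finrank_add_le_finrank_add_finrank _ _).trans (add_le_add h ?_)
  have := finrank_span_le_card (R := ℝ) ({v} : Set (Vc n × ℝ))
  simpa using this

lemma fano_le {π s e l C δ : ℝ} (h : π * (s * Real.log 2) ≤ e + l) (hl : l ≤ C) (hπ : 0 ≤ π) (hs : 1 ≤ s)
    (hδ : 2 * (e + C) ≤ δ * s) : π ≤ δ := by
  have h2 : (1 : ℝ) / 2 ≤ Real.log 2 := by
    have := Real.log_two_gt_d9
    linarith
  have h3 : π * (s * (1 / 2)) ≤ π * (s * Real.log 2) :=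
    mul_le_mul_of_nonneg_left (mul_le_mul_of_nonneg_left h2 (by linarith)) hπ
  have h4 : π * s ≤ δ * s := by linarith
  exact le_of_mul_le_mul_right h4 (by linarith)

lemma num {n w s H e lg A1 A2 B1 B2 lq δ β δ' C X : ℝ} (hn : 0 ≤ n) (hw : 1 ≤ w) (hs : 0 ≤ s) (hlg : lg ≤ 1)
    (hlq : 0 ≤ lq) (hδ : 0 ≤ δ) (hβ : 0 ≤ β) (hδ' : 0 ≤ δ') (hB1 : 0 ≤ B1) (hB2 : 0 ≤ B2)
    (c1 : 2 + n * A1 + (n + 1) * A2 ≤ C) (c2 : n + 1 ≤ C) (c3 : n * (B1 + 1) ≤ C) (c4 : (n + 1) * (B2 + 1) ≤ C)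
    (h : H + ((n - 1) * w * lg - e) + (w * lg - e) + (w * lg - e) ≤ (n * w * lg + e) + X +
      (lg + n * (A1 + s) + δ' * (n * (B1 + w))) + (lg + (n + 1) * (A2 + lq) + (δ + β) * ((n + 1) * (B2 + w)))) :
    H + w * lg - 4 * e - C * (1 + s + lq) - C * (δ + β + δ') * w ≤ X := by
  have a1 : n * s ≤ C * s := mul_le_mul_of_nonneg_right (by linarith) hs
  have a2 : (n + 1) * lq ≤ C * lq := mul_le_mul_of_nonneg_right c2 hlq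
  have a3 : n * (B1 + w) ≤ C * w := by
    have : B1 + w ≤ (B1 + 1) * w := by nlinarith
    calc n * (B1 + w) ≤ n * ((B1 + 1) * w) := mul_le_mul_of_nonneg_left this hn
      _ = n * (B1 + 1) * w := by ring
      _ ≤ C * w := mul_le_mul_of_nonneg_right c3 (by linarith)
  have a4 : (n + 1) * (B2 + w) ≤ C * w := by
    have : B2 + w ≤ (B2 + 1) * w := by nlinarith
    calc (n + 1) * (B2 + w) ≤ (n + 1) * ((B2 + 1) * w) := mul_le_mul_of_nonneg_left this (by linarith)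
      _ = (n + 1) * (B2 + 1) * w := by ring
      _ ≤ C * w := mul_le_mul_of_nonneg_right c4 (by linarith)
  have a5 := mul_le_mul_of_nonneg_left a3 hδ'
  have a6 := mul_le_mul_of_nonneg_left a4 (add_nonneg hδ hβ)
  nlinarith

lemma memb (hA : TA) (hG : CG) {Ω Ω₂ : Type} [Fintype Ω] [Fintype Ω₂] {n : ℕ} (S : TSys Ω n) (R : Law Ω₂)
    (p0 p1 p2 : Ω₂ → Ω) {Γ : Type} (G : Ω₂ → Γ) (b : Γ → Vc n × ℝ) (L : Γ → Submodule ℝ (Vc n × ℝ))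
    (Cz C Δ δ δ' : ℝ) (w s : ℕ) (hCz : 1 ≤ Cz) (hΔ : 1 ≤ Δ) (hC : 2 * Cz * (1 + 3 * ((n : ℝ) + 1)) ≤ C)
    (hd : Diam S (Cz * 2 ^ w)) (h0 : ∀ a, 0 < R.w a → 0 < S.P.w (p0 a)) (h1 : ∀ a, 0 < R.w a → 0 < S.P.w (p1 a))
    (w1 : ∀ a, WW S (p0 a) = WW S (p1 a)) (w2 : ∀ a, WW S (p0 a) = WW S (p2 a))
    (P1 : prE R (fun a => ¬ Near (L (G a)) Δ (cen (S.cel 0 (p0 a)) - b (G a))) ≤ δ)
    (far0 : prE R (fun a => |S.t (p2 a) - S.t (p0 a)| ≤ 2 ^ w / 2 ^ s * 2 ^ 0) ≤ δ') :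
    prE R (fun a => ¬ Near (L (G a) ⊔ Submodule.span ℝ {cen (S.cel 0 (p2 a)) - b (G a)})
      (C * 2 ^ s * Δ) (cen (S.cel 0 (p1 a)) - b (G a))) ≤ δ + δ' := by
  have hn : (0 : ℝ) ≤ n := Nat.cast_nonneg n
  refine (hA.por R _ _ _ fun a ha h => ?_).trans (add_le_add P1 far0)
  by_contra c
  rw [not_or, not_not, not_le] at c
  obtain ⟨c1, c2⟩ := c
  simp only [pow_zero, mul_one] at c2
  have h2s : (1 : ℝ) ≤ 2 ^ s := one_le_pow₀ (by norm_num)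
  have hp : (0 : ℝ) < 2 ^ w / 2 ^ s := by positivity
  have d1 := (hd _ _ (h1 a ha) (h0 a ha) (onT hA S (w1 a)).2.1.symm).2
  have hM : 1 ≤ Cz * 2 ^ s := by nlinarith
  have d2 : Cz * 2 ^ w ≤ Cz * 2 ^ s * |S.t (p2 a) - S.t (p0 a)| :=
    calc Cz * 2 ^ w = Cz * 2 ^ s * (2 ^ w / 2 ^ s) := by field_simp
      _ ≤ _ := mul_le_mul_of_nonneg_left c2.le (by positivity)
  have d3 : 2 * (Cz * 2 ^ s) * (Δ + 3 * ((n : ℝ) + 1)) ≤ C * 2 ^ s * Δ :=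
    calc 2 * (Cz * 2 ^ s) * (Δ + 3 * ((n : ℝ) + 1)) ≤ 2 * (Cz * 2 ^ s) * ((1 + 3 * ((n : ℝ) + 1)) * Δ) :=
          mul_le_mul_of_nonneg_left (by nlinarith) (by positivity)
      _ = 2 * Cz * (1 + 3 * ((n : ℝ) + 1)) * (2 ^ s * Δ) := by ring
      _ ≤ C * (2 ^ s * Δ) := mul_le_mul_of_nonneg_right hC (by positivity)
      _ = _ := by ring
  have d4 : S.t (p2 a) ≠ S.t (p0 a) := fun z => by
    rw [z, sub_self, abs_zero] at c2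
    linarith
  exact h (near_mono (hG.mem _ _ _ _ _ ((n : ℝ) + 1) Δ (Cz * 2 ^ s) _ _ _ _ _ _ _ hM
    (onT hA S (w1 a)).2.2 (onT hA S (w2 a)).2.2 (cen_close hA S _) (cen_close hA S _) (cen_close hA S _)
    d4 (d1.trans d2) c1) d3)

lemma fn_xi {Ω : Type} [Fintype Ω] {n : ℕ} (S : TSys Ω n) : Fn S.P (fun ω => (S.cel 0 ω, S.side ω)) S.ξ :=
  fun ω ω' _ _ h => congrArg (fun a => ((flv (2 ^ 0) (S.z a).1, ⌊(S.z a).2 / 2 ^ 0⌋), S.sd a)) h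

end CSx

namespace CSx

lemma step (hA : TA) (hC : TC) (hG : CG) (n : ℕ) (Cu Cz C : ℝ) (hCu : 1 ≤ Cu) (hCz : 1 ≤ Cz)
    (c1 : 2 + n * Real.log (2 * ((4 + 2 * Cu) * (n + 1)) + 3) + (n + 1) * Real.log (2 * K1 n Cu Cz + 3) ≤ C)
    (c2 : (n : ℝ) + 1 ≤ C) (c3 : n * (Real.log (4 * Cu + 3) + 1) ≤ C)
    (c4 : (n + 1) * (Real.log (2 * Cz + 3) + 1) ≤ C) (c5 : Real.log (14 * Cz) ≤ C)
    (c6 : 2 * Cz * (1 + 3 * ((n : ℝ) + 1)) ≤ C)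
    (w s j : ℕ) (e ρ β Δ δ δ' H : ℝ) (Ω : Type) [Fintype Ω] (S : TSys Ω n) (hS : Core S w Cu Cz e ρ β)
    (hj : j + 1 ≤ n) (hs1 : 1 ≤ s) (hsw : s ≤ w) (hρ : 0 < ρ) (hρ1 : ρ ≤ 1) (hΔ : 1 ≤ Δ) (hβ : 0 ≤ β)
    (hδ : 0 ≤ δ) (hδ' : 0 ≤ δ') (hf : 2 * (e + C) ≤ δ' * s) (hch : Chn S j Δ δ H) :
    Chn S (j + 1) (C * 2 ^ s * Δ) (δ + δ')
      (H + w * Real.log 2 - 4 * e - C * (1 + s + Real.log (Δ / ρ)) - C * (δ + β + δ') * w) := by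
  have hn : (0 : ℝ) ≤ n := Nat.cast_nonneg n
  have pB1 : 0 ≤ Real.log (4 * Cu + 3) := Real.log_nonneg (by linarith)
  have pB2 : 0 ≤ Real.log (2 * Cz + 3) := Real.log_nonneg (by linarith)
  obtain ⟨Ω', _, Q, π, Γ, G, b, L, hCI, hrk, hmem, hH⟩ := hch
  obtain ⟨Ω₁, _, R₁, π₁, ρ₁, m₁, e₁, i₁⟩ := hC.glue Q π S.P (WW S) hCI.mg
  obtain ⟨Ω₂, _, R, π₂, ρ₂, m₂, e₂, i₂⟩ := hC.glue R₁ (fun a => π (ρ₁ a)) S.P (WW S) (hC.cmp m₁ hCI.mg)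
  have mQ : Mg R (fun a => ρ₁ (ρ₂ a)) Q := hC.cmp m₂ m₁
  have m0 : Mg R (fun a => π (ρ₁ (ρ₂ a))) S.P := hC.cmp mQ hCI.mg
  have m1 : Mg R (fun a => π₁ (ρ₂ a)) S.P := hC.cmp m₂ i₁.mg
  have w1 : ∀ a, WW S (π (ρ₁ (ρ₂ a))) = WW S (π₁ (ρ₂ a)) := fun a => (e₁ _).symm
  have w2 : ∀ a, WW S (π (ρ₁ (ρ₂ a))) = WW S (π₂ a) := fun a => (e₂ _).symm
  have s1 : ∀ a, S.side (π (ρ₁ (ρ₂ a))) = S.side (π₁ (ρ₂ a)) := fun a => (onT hA S (w1 a)).2.1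
  have s2 : ∀ a, S.side (π (ρ₁ (ρ₂ a))) = S.side (π₂ a) := fun a => (onT hA S (w2 a)).2.1
  have hs1' : (1 : ℝ) ≤ s := by exact_mod_cast hs1
  have hw1 : (1 : ℝ) ≤ w := by exact_mod_cast hs1.trans hsw
  -- the time of the third point is free
  have t2 : w * Real.log 2 - e ≤ hc R (fun a => S.tm 0 (π₂ a)) (fun a => (ρ₂ a, WW S (π₂ a))) := by
    rw [i₂.ent ℤ (S.tm 0)]
    exact hS.tim
  have far : ∀ p : Ω₁ → Ω, (∀ a, 0 < R.w a → 0 < S.P.w (p (ρ₂ a))) → (∀ a, S.side (π₂ a) = S.side (p (ρ₂ a))) →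
      prE R (fun a => |S.t (π₂ a) - S.t (p (ρ₂ a))| ≤ 2 ^ w / 2 ^ s * 2 ^ 0) ≤ δ' := by
    intro p hp hp'
    have := hA.fano R (fun a => S.t (π₂ a)) (fun a => S.t (p (ρ₂ a))) (fun a => (ρ₂ a, WW S (π₂ a))) (2 ^ 0) Cz e
      w s (by positivity) hCz hsw (fun a a' _ _ h => congrArg (fun x => S.t (p x)) (Prod.mk.inj h).1) (fun a ha => by
        simp only [pow_zero, mul_one]
        exact (hS.diam _ _ (hC.pos i₂.mg a ha) (hp a ha) (hp' a)).2) t2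
    exact fano_le this c5 (prE_nonneg _ _) hs1' hf
  have far1 := far π₁ (fun a ha => hC.pos m1 a ha) fun a => (s2 a).symm.trans (s1 a)
  have far0 := far (fun a => π (ρ₁ a)) (fun a ha => hC.pos m0 a ha) fun a => (s2 a).symm
  -- lower bounds
  have T1 : H ≤ hc R (fun a => S.cel 0 (π (ρ₁ (ρ₂ a)))) (fun a => (G (ρ₁ (ρ₂ a)), S.side (π (ρ₁ (ρ₂ a))))) := by
    rw [hC.hcm mQ (fun a => S.cel 0 (π a)) (fun a => (G a, S.side (π a)))]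
    exact hH
  have T2 : ((n : ℝ) - 1) * w * Real.log 2 - e ≤ hc R (fun a => S.dir w (π (ρ₁ (ρ₂ a))))
      (fun a => (S.cel 0 (π (ρ₁ (ρ₂ a))), G (ρ₁ (ρ₂ a)), S.side (π (ρ₁ (ρ₂ a))))) := by
    rw [hC.hcm mQ (fun a => S.dir w (π a)) (fun a => (S.cel 0 (π a), G a, S.side (π a)))]
    refine hS.dir.trans (le_trans (hc_mono_right S.P _ (fn_xi S)) ?_)
    rw [← hCI.ent _ (S.dir w)]
    exact hc_mono_right Q _ fun _ _ _ _ h => by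
      simp only [Prod.mk.injEq] at h ⊢
      tauto
  have T3 : w * Real.log 2 - e ≤ hc R (fun a => S.cel 0 (π₁ (ρ₂ a))) (fun a => (S.dir w (π (ρ₁ (ρ₂ a))),
      S.cel 0 (π (ρ₁ (ρ₂ a))), G (ρ₁ (ρ₂ a)), S.side (π (ρ₁ (ρ₂ a))))) := by
    rw [hC.hcm m₂ (fun a => S.cel 0 (π₁ a)) (fun a => (S.dir w (π (ρ₁ a)), S.cel 0 (π (ρ₁ a)), G (ρ₁ a),
      S.side (π (ρ₁ a))))]
    refine hS.tim.trans ?_
    rw [show (fun ω => (S.tub 0 ω, S.side ω)) = WW S from rfl, ← i₁.ent ℤ (S.tm 0)]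
    refine le_trans (hc_mono_left R₁ (X' := fun a => S.cel 0 (π₁ a)) fun _ _ _ _ h => ?_)
      (hc_mono_right R₁ _ fun _ _ _ _ h => congrArg (fun a => (S.dir w (π a), S.cel 0 (π a), G a,
        S.side (π a))) (Prod.mk.inj h).1)
    exact (Prod.mk.inj (Prod.mk.inj h).1).2
  have T4 : w * Real.log 2 - e ≤ hc R (fun a => S.cel 0 (π₂ a)) (fun a => (S.cel 0 (π₁ (ρ₂ a)),
      S.dir w (π (ρ₁ (ρ₂ a))), S.cel 0 (π (ρ₁ (ρ₂ a))), G (ρ₁ (ρ₂ a)), S.side (π (ρ₁ (ρ₂ a))))) := by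
    refine t2.trans (le_trans (hc_mono_left R (X' := fun a => S.cel 0 (π₂ a)) fun _ _ _ _ h => ?_)
      (hc_mono_right R _ fun _ _ _ _ h => congrArg (fun a => (S.cel 0 (π₁ a), S.dir w (π (ρ₁ a)),
        S.cel 0 (π (ρ₁ a)), G (ρ₁ a), S.side (π (ρ₁ a)))) (Prod.mk.inj h).1))
    exact (Prod.mk.inj (Prod.mk.inj h).1).2
  -- upper bounds
  have U1 : hc R (fun a => S.cel 0 (π₂ a)) (fun a => S.side (π (ρ₁ (ρ₂ a)))) ≤ n * w * Real.log 2 + e := by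
    rw [funext s2, hC.hcm i₂.mg (S.cel 0) S.side]
    exact hS.up
  have U3 := dir_le hA hG S R (fun a => π (ρ₁ (ρ₂ a))) (fun a => π₁ (ρ₂ a)) π₂ Cu δ' w s hCu hS.bnd
    (fun a ha => hC.pos m0 a ha) w1 w2 far1 hδ'
  have P1 : prE R (fun a => ¬ Near (L (G (ρ₁ (ρ₂ a)))) Δ (cen (S.cel 0 (π (ρ₁ (ρ₂ a)))) - b (G (ρ₁ (ρ₂ a))))) ≤ δ := by
    rw [hC.prm mQ (fun a => ¬ Near (L (G a)) Δ (cen (S.cel 0 (π a)) - b (G a)))]
    exact hmem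
  have P2 : prE R (fun a => Near (L (G (ρ₁ (ρ₂ a)))) ρ (S.u (π (ρ₁ (ρ₂ a))), 1)) ≤ β := by
    rw [hC.prm mQ (fun a => Near (L (G a)) ρ (S.u (π a), 1))]
    exact hCI.pre (fun ω g => Near (L g) ρ (S.u ω, 1)) β fun g =>
      hS.brd (fun a => L (g ((flv (2 ^ 0) (S.z a).1, ⌊(S.z a).2 / 2 ^ 0⌋), S.sd a))) fun a => (hrk _).trans (by omega)
  have U4 := pt_le hA hG S R (fun a => π (ρ₁ (ρ₂ a))) (fun a => π₁ (ρ₂ a)) (fun a => G (ρ₁ (ρ₂ a))) b L Cu Cz Δ ρ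
    (δ + β) w hCu hCz hρ hρ1 hΔ hS.bnd hS.diam (fun a ha => hC.pos m0 a ha) (fun a ha => hC.pos m1 a ha) w1
    ((hA.por R _ _ _ fun a _ h => by
      by_cases c : Near (L (G (ρ₁ (ρ₂ a)))) ρ (S.u (π (ρ₁ (ρ₂ a))), 1)
      · exact Or.inr c
      · exact Or.inl fun d => h ⟨d, c⟩).trans (add_le_add P1 P2)) (add_nonneg hδ hβ)
  have hch := chain R (fun a => S.cel 0 (π (ρ₁ (ρ₂ a)))) (fun a => S.dir w (π (ρ₁ (ρ₂ a))))
    (fun a => S.cel 0 (π₁ (ρ₂ a))) (fun a => S.cel 0 (π₂ a)) (fun a => G (ρ₁ (ρ₂ a)))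
    (fun a => S.side (π (ρ₁ (ρ₂ a))))
  have hlg : Real.log 2 ≤ 1 := by
    have := Real.log_le_sub_one_of_pos (show (0 : ℝ) < 2 by norm_num)
    linarith
  have hlq : 0 ≤ Real.log (Δ / ρ) := Real.log_nonneg (by rw [one_le_div hρ]; linarith)
  have key := num (X := hc R (fun a => S.cel 0 (π₁ (ρ₂ a)))
      (fun a => ((G (ρ₁ (ρ₂ a)), S.cel 0 (π₂ a)), S.side (π (ρ₁ (ρ₂ a)))))) (H := H) (e := e)
    hn hw1 (Nat.cast_nonneg s) hlg hlq hδ hβ hδ' pB1 pB2 c1 c2 c3 c4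
    (le_trans (add_le_add (add_le_add (add_le_add T1 T2) T3) T4)
      (hch.trans (add_le_add (add_le_add (add_le_add U1 le_rfl) U3) U4)))
  have P3 := memb hA hG S R (fun a => π (ρ₁ (ρ₂ a))) (fun a => π₁ (ρ₂ a)) π₂ (fun a => G (ρ₁ (ρ₂ a))) b L Cz C Δ δ δ'
    w s hCz hΔ c6 hS.diam (fun a ha => hC.pos m0 a ha) (fun a ha => hC.pos m1 a ha) w1 w2 P1 far0
  -- a fresh copy
  obtain ⟨Ω₃, _, R₃, π₃, ρ₃, m₃, e₃, i₃⟩ := hC.glue R (fun a => π₁ (ρ₂ a)) S.P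
    (fun ω => (S.cel 0 ω, S.side ω)) m1
  have c3 : ∀ a, S.cel 0 (π₃ a) = S.cel 0 (π₁ (ρ₂ (ρ₃ a))) := fun a => (Prod.mk.inj (e₃ a)).1
  have s3 : ∀ a, S.side (π₃ a) = S.side (π (ρ₁ (ρ₂ (ρ₃ a)))) := fun a =>
    (Prod.mk.inj (e₃ a)).2.trans (s1 _).symm
  refine ⟨Ω₃, inferInstance, R₃, π₃, Γ × (Zv n × ℤ), fun a => (G (ρ₁ (ρ₂ (ρ₃ a))), S.cel 0 (π₂ (ρ₃ a))),
    fun g => b g.1, fun g => L g.1 ⊔ Submodule.span ℝ {cen g.2 - b g.1},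
    hC.fn (fun a => (G (ρ₁ (ρ₂ a)), S.cel 0 (π₂ a))) i₃, fun g => rank_sup _ _ (hrk _), ?_, ?_⟩
  · simp only [c3]
    exact (hC.prm m₃ _).trans_le P3
  · simp only [c3, s3]
    exact key.trans_eq (hC.hcm m₃ _ _).symm

end CSx

open CSx in
theorem cs (hA : TA) (hC : TC) (hG : CG) (n : ℕ) : CS n := by
  intro Cu Cz hCu hCz
  have hn : (0 : ℝ) ≤ n := Nat.cast_nonneg n
  have pK : 0 ≤ K1 n Cu Cz := by unfold K1; positivity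
  have pA1 : 0 ≤ Real.log (2 * ((4 + 2 * Cu) * (n + 1)) + 3) := Real.log_nonneg (by
    have : 0 ≤ (4 + 2 * Cu) * ((n : ℝ) + 1) := by positivity
    linarith)
  have pA2 : 0 ≤ Real.log (2 * K1 n Cu Cz + 3) := Real.log_nonneg (by linarith)
  have pB1 : 0 ≤ Real.log (4 * Cu + 3) := Real.log_nonneg (by linarith)
  have pB2 : 0 ≤ Real.log (2 * Cz + 3) := Real.log_nonneg (by linarith)
  have pL : 0 ≤ Real.log (14 * Cz) := Real.log_nonneg (by linarith)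
  have q1 : 0 ≤ n * Real.log (2 * ((4 + 2 * Cu) * (n + 1)) + 3) := by positivity
  have q2 : 0 ≤ (n + 1) * Real.log (2 * K1 n Cu Cz + 3) := by positivity
  have q3 : 0 ≤ n * (Real.log (4 * Cu + 3) + 1) := by positivity
  have q4 : 0 ≤ (n + 1) * (Real.log (2 * Cz + 3) + 1) := by positivity
  have q5 : 0 ≤ 2 * Cz * (1 + 3 * ((n : ℝ) + 1)) := by positivity
  refine ⟨2 + n * Real.log (2 * ((4 + 2 * Cu) * (n + 1)) + 3) + (n + 1) * Real.log (2 * K1 n Cu Cz + 3) + (n + 1) +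
    n * (Real.log (4 * Cu + 3) + 1) + (n + 1) * (Real.log (2 * Cz + 3) + 1) + Real.log (14 * Cz) +
    2 * Cz * (1 + 3 * ((n : ℝ) + 1)), by linarith, ?_⟩
  intro w s j e ρ β Δ δ δ' H Ω _ S hS hj hs1 hsw hρ hρ1 hΔ _ hβ hδ hδ' hf hch
  exact step hA hC hG n Cu Cz _ hCu hCz (by linarith) (by linarith) (by linarith) (by linarith) (by linarith)
    (by linarith) w s j e ρ β Δ δ δ' H Ω S hS hj hs1 hsw hρ hρ1 hΔ hβ hδ hδ' hf hch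

end

end Vale.Agent.P076N.TB
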