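import Vale.Agent.P076N.TB.Spec

/-!
# P076N / TB : row CS, the estimates on a space with three points of one tube
-/

set_option linter.all false

open Finset Vale.Agent.P127 Vale.Agent.P127.Stk
open scoped RealInnerProductSpace

namespace Vale.Agent.P076N.TB.CSx

noncomputable section

variable {Ω Ω₂ : Type} [Fintype Ω] [Fintype Ω₂] {n : ℕ}

/-- the tube and the side -/
def WW (S : TSys Ω n) (ω : Ω) : (Vc n × Zv n) × S.γ := (S.tub 0 ω, S.side ω)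

lemma onT (hA : TA) (S : TSys Ω n) {ω ω' : Ω} (h : WW S ω = WW S ω') :
    S.u ω' = S.u ω ∧ S.side ω = S.side ω' ∧ OnT ((n : ℝ) + 1) (S.u ω) (S.x ω) (S.t ω) (S.x ω') (S.t ω') := by
  have h1 : S.tub 0 ω = S.tub 0 ω' := (Prod.mk.inj h).1
  have h2 : S.u ω = S.u ω' := (Prod.mk.inj h1).1
  have h3 := hA.clv (2 ^ 0) _ _ (by positivity) (Prod.mk.inj h1).2
  refine ⟨h2.symm, (Prod.mk.inj h).2, ?_⟩
  unfold OnT
  rw [← h2] at h3
  refine h3.trans ?_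
  simp

lemma cel_close (hA : TA) (S : TSys Ω n) {ω ω' : Ω} (h : S.cel 0 ω = S.cel 0 ω') :
    ‖S.x ω - S.x ω'‖ ≤ (n : ℝ) + 1 ∧ |S.t ω - S.t ω'| ≤ (n : ℝ) + 1 := by
  have h1 := hA.clv (2 ^ 0) _ _ (by positivity) (Prod.mk.inj h).1
  have h2 := hA.clr (2 ^ 0) _ _ (by positivity) (Prod.mk.inj h).2
  have h3 : (0 : ℝ) ≤ n := Nat.cast_nonneg n
  simp only [pow_zero, mul_one] at h1 h2
  constructor <;> linarith

lemma cen_close (hA : TA) (S : TSys Ω n) (ω : Ω) : ‖(S.x ω, S.t ω) - cen (S.cel 0 ω)‖ ≤ (n : ℝ) + 1 := by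
  have h1 := hA.crn (2 ^ 0) (S.x ω) (by positivity)
  have h3 : (0 : ℝ) ≤ n := Nat.cast_nonneg n
  have h4 := Int.floor_le (S.t ω / 2 ^ 0)
  have h5 := Int.lt_floor_add_one (S.t ω / 2 ^ 0)
  rw [Prod.norm_def]
  refine max_le ?_ ?_
  · show ‖S.x ω - toV (flv (2 ^ 0) (S.x ω))‖ ≤ _
    simp only [pow_zero, mul_one, one_smul] at h1 ⊢
    linarith
  · show ‖S.t ω - ((⌊S.t ω / 2 ^ 0⌋ : ℤ) : ℝ)‖ ≤ _
    simp only [pow_zero, div_one] at h4 h5 ⊢
    rw [Real.norm_eq_abs, abs_le]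
    constructor <;> linarith

lemma near_sub {L : Submodule ℝ (Vc n × ℝ)} {a b : ℝ} {v v' : Vc n × ℝ} (h : Near L a v) (h' : Near L b v') :
    Near L (a + b) (v - v') := by
  obtain ⟨l, hl, e⟩ := h
  obtain ⟨l', hl', e'⟩ := h'
  refine ⟨l - l', L.sub_mem hl hl', ?_⟩
  have : v - v' - (l - l') = (v - l) - (v' - l') := by abel
  rw [this]
  exact (norm_sub_le _ _).trans (add_le_add e e')

lemma near_of {L : Submodule ℝ (Vc n × ℝ)} {a b : ℝ} {v v' : Vc n × ℝ} (h : Near L a v) (h' : ‖v' - v‖ ≤ b) :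
    Near L (a + b) v' := by
  obtain ⟨l, hl, e⟩ := h
  refine ⟨l, hl, ?_⟩
  have : v' - l = (v - l) + (v' - v) := by abel
  rw [this]
  exact (norm_add_le _ _).trans (add_le_add e h')

lemma near_mono {L : Submodule ℝ (Vc n × ℝ)} {a b : ℝ} {v : Vc n × ℝ} (h : Near L a v) (h' : a ≤ b) :
    Near L b v := by
  obtain ⟨l, hl, e⟩ := h
  exact ⟨l, hl, e.trans h'⟩

lemma log_pow_le (m j : ℕ) (x y : ℝ) (hx : 0 < x) (hy : 1 ≤ y) (h : x ≤ y * 2 ^ j) :
    Real.log (x ^ m) ≤ m * (Real.log y + j) := by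
  rw [Real.log_pow]
  refine mul_le_mul_of_nonneg_left ?_ (Nat.cast_nonneg m)
  refine (Real.log_le_log hx h).trans ?_
  rw [Real.log_mul (by linarith) (by positivity), Real.log_pow]
  have h2 : Real.log 2 ≤ 1 := by
    have := Real.log_le_sub_one_of_pos (show (0 : ℝ) < 2 by norm_num)
    linarith
  have h3 : (j : ℝ) * Real.log 2 ≤ j := by
    have : (0 : ℝ) ≤ j := Nat.cast_nonneg j
    nlinarith
  linarith

/-- the direction is determined by two far points -/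
lemma dir_le (hA : TA) (hG : CG) (S : TSys Ω n) (R : Law Ω₂) (p0 p1 p2 : Ω₂ → Ω) (Cu δ : ℝ) (w s : ℕ)
    (hCu : 1 ≤ Cu) (hb : S.Bnd Cu) (h0 : ∀ a, 0 < R.w a → 0 < S.P.w (p0 a))
    (w1 : ∀ a, WW S (p0 a) = WW S (p1 a)) (w2 : ∀ a, WW S (p0 a) = WW S (p2 a))
    (hδ : prE R (fun a => |S.t (p2 a) - S.t (p1 a)| ≤ 2 ^ w / 2 ^ s * 2 ^ 0) ≤ δ) (hδ0 : 0 ≤ δ) :
    hc R (fun a => S.dir w (p0 a)) (fun a => (S.cel 0 (p1 a), S.cel 0 (p2 a))) ≤
      Real.log 2 + n * (Real.log (2 * ((4 + 2 * Cu) * (n + 1)) + 3) + s) +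
        δ * (n * (Real.log (4 * Cu + 3) + w)) := by
  have hn : (0 : ℝ) ≤ n := Nat.cast_nonneg n
  have h2s : (1 : ℝ) ≤ 2 ^ s := one_le_pow₀ (by norm_num)
  have h2w : (1 : ℝ) ≤ 2 ^ w := one_le_pow₀ (by norm_num)
  have hl : 0 ≤ (4 + 2 * Cu) * (n + 1) := by positivity
  have c1 := hA.flv R (fun a => ¬ |S.t (p2 a) - S.t (p1 a)| ≤ 2 ^ w / 2 ^ s * 2 ^ 0) (fun a => S.u (p0 a))
    (fun a => (S.cel 0 (p1 a), S.cel 0 (p2 a))) (2 ^ w)⁻¹ ((4 + 2 * Cu) * (n + 1) * 2 ^ s) (by positivity)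
    (fun a a' ha ha' hE _ e => by
      obtain ⟨u1, _, _⟩ := onT hA S (w1 a)
      obtain ⟨u1', _, _⟩ := onT hA S (w1 a')
      obtain ⟨_, _, o⟩ := onT hA S ((w1 a).symm.trans (w2 a))
      obtain ⟨_, _, o'⟩ := onT hA S ((w1 a').symm.trans (w2 a'))
      obtain ⟨x1, t1⟩ := cel_close hA S (Prod.mk.inj e).1
      obtain ⟨x2, t2⟩ := cel_close hA S (Prod.mk.inj e).2
      rw [u1] at o
      rw [u1'] at o'
      have := hG.vel (n + 1) (2 ^ w / 2 ^ s) Cu _ _ _ _ _ _ _ _ _ _ (by positivity) o o' x1 t1 x2 t2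
        (hb _ (h0 a' ha')) (by
          rw [abs_sub_comm]
          simp only [pow_zero, mul_one] at hE
          exact (not_le.1 hE).le)
      refine this.trans (le_of_eq ?_)
      field_simp)
  have c2 := hA.flv R (fun _ => True) (fun a => S.u (p0 a))
    (fun a => (S.cel 0 (p1 a), S.cel 0 (p2 a))) (2 ^ w)⁻¹ (2 * Cu * 2 ^ w) (by positivity)
    (fun a a' ha ha' _ _ _ => by
      have e : 2 * Cu * 2 ^ w * ((2 : ℝ) ^ w)⁻¹ = Cu + Cu := by field_simp; ring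
      rw [e]
      exact (norm_sub_le _ _).trans (add_le_add (hb _ (h0 a ha)) (hb _ (h0 a' ha'))))
  have k1 : (1 : ℝ) ≤ 2 * ((4 + 2 * Cu) * (n + 1) * 2 ^ s) + 3 := by
    have : 0 ≤ (4 + 2 * Cu) * (n + 1) * 2 ^ s := by positivity
    linarith
  have k2 : (1 : ℝ) ≤ 2 * (2 * Cu * 2 ^ w) + 3 := by
    have : 0 ≤ 2 * Cu * 2 ^ w := by positivity
    linarith
  have h := hA.exc R _ _ _ _ _ δ (one_le_pow₀ k1) (one_le_pow₀ k2) c1 c2
    ((hA.pmo R _ _ fun a _ h => not_not.1 h).trans hδ)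
  have l1 := log_pow_le n s _ (2 * ((4 + 2 * Cu) * (n + 1)) + 3) (by linarith) (by linarith)
    (show 2 * ((4 + 2 * Cu) * (n + 1) * 2 ^ s) + 3 ≤ _ by nlinarith)
  have l2 := log_pow_le n w _ (4 * Cu + 3) (by linarith) (by linarith)
    (show 2 * (2 * Cu * 2 ^ w) + 3 ≤ _ by nlinarith)
  have l3 := mul_le_mul_of_nonneg_left l2 hδ0
  exact le_trans h (by linarith)

/-- the constant of the fourth term -/
def K1 (n : ℕ) (Cu Cz : ℝ) : ℝ := (1 + Cu) * (2 + 2 * (n + 1) + (5 + Cu) * (Cz * (n + 1)))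

/-- the first point is determined by the flat, the direction and the second point -/
lemma pt_le (hA : TA) (hG : CG) (S : TSys Ω n) (R : Law Ω₂) (p0 p1 : Ω₂ → Ω) {Γ : Type} (G : Ω₂ → Γ)
    (b : Γ → Vc n × ℝ) (L : Γ → Submodule ℝ (Vc n × ℝ)) (Cu Cz Δ ρ δ : ℝ) (w : ℕ)
    (hCu : 1 ≤ Cu) (hCz : 1 ≤ Cz) (hρ : 0 < ρ) (hρ1 : ρ ≤ 1) (hΔ : 1 ≤ Δ) (hb : S.Bnd Cu)
    (hd : Diam S (Cz * 2 ^ w)) (h0 : ∀ a, 0 < R.w a → 0 < S.P.w (p0 a)) (h1 : ∀ a, 0 < R.w a → 0 < S.P.w (p1 a))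
    (w1 : ∀ a, WW S (p0 a) = WW S (p1 a))
    (hδ : prE R (fun a => ¬ (Near (L (G a)) Δ (cen (S.cel 0 (p0 a)) - b (G a)) ∧
      ¬ Near (L (G a)) ρ (S.u (p0 a), 1))) ≤ δ) (hδ0 : 0 ≤ δ) :
    hc R (fun a => S.cel 0 (p0 a)) (fun a => (S.dir w (p0 a), S.cel 0 (p1 a), G a, S.side (p0 a))) ≤
      Real.log 2 + (n + 1) * (Real.log (2 * K1 n Cu Cz + 3) + Real.log (Δ / ρ)) +
        δ * ((n + 1) * (Real.log (2 * Cz + 3) + w)) := by
  have hn : (0 : ℝ) ≤ n := Nat.cast_nonneg n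
  have h2w : (1 : ℝ) ≤ 2 ^ w := one_le_pow₀ (by norm_num)
  have hq : 1 ≤ Δ / ρ := by rw [one_le_div hρ]; linarith
  have hK : 0 ≤ K1 n Cu Cz := by unfold K1; positivity
  have hr : (n : ℝ) + 1 ≤ Cz * (n + 1) := by nlinarith
  have c1 := hA.cel R (fun a => Near (L (G a)) Δ (cen (S.cel 0 (p0 a)) - b (G a)) ∧
      ¬ Near (L (G a)) ρ (S.u (p0 a), 1)) (fun a => S.x (p0 a)) (fun a => S.t (p0 a))
    (fun a => (S.dir w (p0 a), S.cel 0 (p1 a), G a, S.side (p0 a))) (2 ^ 0) (K1 n Cu Cz * (Δ / ρ))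
    (by positivity) (fun a a' ha ha' hE hE' e => by
      have e1 : S.dir w (p0 a) = S.dir w (p0 a') := (Prod.mk.inj e).1
      have e2 : S.cel 0 (p1 a) = S.cel 0 (p1 a') := (Prod.mk.inj (Prod.mk.inj e).2).1
      have e3 : G a = G a' := (Prod.mk.inj (Prod.mk.inj (Prod.mk.inj e).2).2).1
      obtain ⟨_, _, o⟩ := onT hA S (w1 a)
      obtain ⟨_, s', o'⟩ := onT hA S (w1 a')
      obtain ⟨x1, t1⟩ := cel_close hA S e2
      have d1 := (hd _ _ (h0 a' ha') (h1 a' ha') s').2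
      have d2 := hA.clv (2 ^ w)⁻¹ _ _ (by positivity) e1
      have d3 : Cz * 2 ^ w * ‖S.u (p0 a) - S.u (p0 a')‖ ≤ Cz * (n + 1) := by
        calc Cz * 2 ^ w * ‖S.u (p0 a) - S.u (p0 a')‖ ≤ Cz * 2 ^ w * (n * (2 ^ w)⁻¹) :=
              mul_le_mul_of_nonneg_left d2 (by positivity)
          _ = Cz * n := by field_simp
          _ ≤ Cz * (n + 1) := by nlinarith
      have n1 := hE'.1
      rw [← e3] at n1
      have n2 := near_of (near_sub hE.1 n1) (v' := (S.x (p0 a) - S.x (p0 a'), S.t (p0 a) - S.t (p0 a')))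
        (b := (n + 1) + (n + 1)) (by
          have : (S.x (p0 a) - S.x (p0 a'), S.t (p0 a) - S.t (p0 a')) -
              (cen (S.cel 0 (p0 a)) - b (G a) - (cen (S.cel 0 (p0 a')) - b (G a))) =
              ((S.x (p0 a), S.t (p0 a)) - cen (S.cel 0 (p0 a))) -
                ((S.x (p0 a'), S.t (p0 a')) - cen (S.cel 0 (p0 a'))) := by
            rw [← Prod.mk_sub_mk]
            abel
          rw [this]
          exact (norm_sub_le _ _).trans (add_le_add (cen_close hA S _) (cen_close hA S _)))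
      obtain ⟨r1, r2⟩ := hG.pnt (L (G a)) (Cz * (n + 1)) ρ _ (Cz * 2 ^ w) Cu _ _ _ _ _ _ _ _ _ _ hρ hρ1
        (le_trans o hr) (le_trans o' hr) (x1.trans hr) (t1.trans hr) (hb _ (h0 a ha)) d1 d3 n2 hE.2
      have r3 : (Δ + Δ + ((n : ℝ) + 1 + (n + 1)) + (5 + Cu) * (Cz * (n + 1))) / ρ ≤
          (2 + 2 * (n + 1) + (5 + Cu) * (Cz * (n + 1))) * (Δ / ρ) := by
        rw [← mul_div_assoc]
        refine div_le_div_of_nonneg_right ?_ hρ.le
        have : 0 ≤ (5 + Cu) * (Cz * (n + 1)) := by positivity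
        nlinarith
      have r4 : 0 ≤ (2 + 2 * ((n : ℝ) + 1) + (5 + Cu) * (Cz * (n + 1))) * (Δ / ρ) := by positivity
      have r5 : K1 n Cu Cz * (Δ / ρ) * 2 ^ 0 =
          (1 + Cu) * ((2 + 2 * (n + 1) + (5 + Cu) * (Cz * (n + 1))) * (Δ / ρ)) := by unfold K1; ring
      rw [r5]
      constructor
      · exact r2.trans (mul_le_mul_of_nonneg_left r3 (by linarith))
      · refine (r1.trans r3).trans ?_
        nlinarith)
  have c2 := hA.cel R (fun _ => True) (fun a => S.x (p0 a)) (fun a => S.t (p0 a))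
    (fun a => (S.dir w (p0 a), S.cel 0 (p1 a), G a, S.side (p0 a))) (2 ^ 0) (Cz * 2 ^ w)
    (by positivity) (fun a a' ha ha' _ _ e => by
      simp only [pow_zero, mul_one]
      exact hd _ _ (h0 a ha) (h0 a' ha') (Prod.mk.inj (Prod.mk.inj (Prod.mk.inj e).2).2).2)
  have k0 : 0 ≤ K1 n Cu Cz * (Δ / ρ) := by positivity
  have k1 : (1 : ℝ) ≤ 2 * (K1 n Cu Cz * (Δ / ρ)) + 3 := by linarith
  have k2 : (1 : ℝ) ≤ 2 * (Cz * 2 ^ w) + 3 := by
    have : 0 ≤ Cz * 2 ^ w := by positivity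
    linarith
  have h := hA.exc R _ _ _ _ _ δ (one_le_pow₀ k1) (one_le_pow₀ k2) c1 c2 hδ
  have l1 : Real.log ((2 * (K1 n Cu Cz * (Δ / ρ)) + 3) ^ (n + 1)) ≤
      (n + 1) * (Real.log (2 * K1 n Cu Cz + 3) + Real.log (Δ / ρ)) := by
    rw [Real.log_pow, ← Real.log_mul (by linarith) (by linarith)]
    push_cast
    refine mul_le_mul_of_nonneg_left (Real.log_le_log (by linarith) (by nlinarith)) (by linarith)
  have l2 := log_pow_le (n + 1) w _ (2 * Cz + 3) (by linarith) (by linarith)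
    (show 2 * (Cz * 2 ^ w) + 3 ≤ _ by nlinarith)
  push_cast at l2
  have l3 := mul_le_mul_of_nonneg_left l2 hδ0
  exact le_trans h (by linarith)

/-- the chain rule -/
lemma chain (R : Law Ω₂) {A B C D E F : Type} (c : Ω₂ → A) (u : Ω₂ → B) (c' : Ω₂ → C) (c'' : Ω₂ → D)
    (G : Ω₂ → E) (σ : Ω₂ → F) :
    hc R c (fun a => (G a, σ a)) + hc R u (fun a => (c a, G a, σ a)) +
      hc R c' (fun a => (u a, c a, G a, σ a)) + hc R c'' (fun a => (c' a, u a, c a, G a, σ a)) ≤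
    hc R c'' σ + hc R c' (fun a => ((G a, c'' a), σ a)) + hc R u (fun a => (c' a, c'' a)) +
      hc R c (fun a => (u a, c' a, G a, σ a)) := by
  have a1 := hc_pair R c (fun a => (u a, c' a, c'' a)) (fun a => (G a, σ a))
  have a2 := hc_pair R u (fun a => (c' a, c'' a)) (fun a => (c a, G a, σ a))
  have a3 := hc_pair R c' c'' (fun a => (u a, c a, G a, σ a))
  have b1 := hc_pair R c'' (fun a => (c' a, u a, c a)) (fun a => (G a, σ a))
  have b2 := hc_pair R c' (fun a => (u a, c a)) (fun a => (c'' a, G a, σ a))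
  have b3 := hc_pair R u c (fun a => (c' a, c'' a, G a, σ a))
  have e : hc R (fun a => (c a, u a, c' a, c'' a)) (fun a => (G a, σ a)) ≤
      hc R (fun a => (c'' a, c' a, u a, c a)) (fun a => (G a, σ a)) :=
    hc_mono_left R fun _ _ _ _ h => by
      simp only [Prod.mk.injEq] at h ⊢
      tauto
  have d1 : hc R c'' (fun a => (G a, σ a)) ≤ hc R c'' σ :=
    hc_mono_right R _ fun _ _ _ _ h => (Prod.mk.inj h).2
  have d2 : hc R c' (fun a => (c'' a, G a, σ a)) ≤ hc R c' (fun a => ((G a, c'' a), σ a)) :=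
    hc_mono_right R _ fun _ _ _ _ h => by
      simp only [Prod.mk.injEq] at h ⊢
      tauto
  have d3 : hc R u (fun a => (c' a, c'' a, G a, σ a)) ≤ hc R u (fun a => (c' a, c'' a)) :=
    hc_mono_right R _ fun _ _ _ _ h => by
      simp only [Prod.mk.injEq] at h ⊢
      tauto
  have d4 : hc R c (fun a => (u a, c' a, c'' a, G a, σ a)) ≤ hc R c (fun a => (u a, c' a, G a, σ a)) :=
    hc_mono_right R _ fun _ _ _ _ h => by
      simp only [Prod.mk.injEq] at h ⊢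
      tauto
  linarith

end

end Vale.Agent.P076N.TB.CSx
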