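import Vale.Agent.P076N.TB.Ls

/-!
# P076N / TB : the rescaled system, elementary facts for the rows R1 and R2
-/

set_option linter.all false

open Finset Vale.Agent.P127 Vale.Agent.P127.Stk
open scoped RealInnerProductSpace

namespace Vale.Agent.P076N.TB.RSx

variable {n : ℕ}

theorem in_le {ν : Vc n} (hν : ‖ν‖ = 1) (z : Vc n) : |⟪ν, z⟫| ≤ ‖z‖ := by
  have := abs_real_inner_le_norm ν z
  rwa [hν, one_mul] at this

theorem pr_le {ν : Vc n} (hν : ‖ν‖ = 1) (z : Vc n) : ‖z - ⟪ν, z⟫ • ν‖ ≤ ‖z‖ := by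
  refine (sq_le_sq₀ (norm_nonneg _) (norm_nonneg _)).1 ?_
  rw [norm_sub_sq_real, norm_smul, hν, inner_smul_right, real_inner_comm, Real.norm_eq_abs, mul_one, sq_abs]
  nlinarith [sq_nonneg ⟪ν, z⟫]

/-- the basic bound for `A P z + c ν` -/
theorem cmb {ν : Vc n} (hν : ‖ν‖ = 1) (z : Vc n) {A : ℝ} (hA : 0 ≤ A) (c : ℝ) :
    ‖A • (z - ⟪ν, z⟫ • ν) + c • ν‖ ≤ A * ‖z‖ + |c| := by
  refine (norm_add_le _ _).trans ?_
  rw [norm_smul, norm_smul, hν, Real.norm_eq_abs, Real.norm_eq_abs, abs_of_nonneg hA, mul_one]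
  exact add_le_add (mul_le_mul_of_nonneg_left (pr_le hν z) hA) le_rfl

theorem rsx_sub (p : Plt n) (A B : ℝ) (x x' : Vc n) (t t' : ℝ) : rsx p A B x t - rsx p A B x' t' =
    A • ((x - x') - ⟪p.1, x - x'⟫ • p.1) +
      (B * ((⟪p.1, x⟫ - p.2.1 * t - p.2.2) - (⟪p.1, x'⟫ - p.2.1 * t' - p.2.2))) • p.1 := by
  simp only [rsx, inner_sub_right]
  module

theorem rsx_tub (p : Plt n) (A B B' : ℝ) (hB : A * B' = B) (x x' u : Vc n) (t t' : ℝ) :
    (rsx p A B x t - (t * A) • rsu p B' u) - (rsx p A B x' t' - (t' * A) • rsu p B' u) =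
    A • (((x - t • u) - (x' - t' • u)) - ⟪p.1, (x - t • u) - (x' - t' • u)⟫ • p.1) +
      (B * ⟪p.1, (x - t • u) - (x' - t' • u)⟫) • p.1 := by
  subst hB
  simp only [rsx, rsu, inner_sub_right, inner_smul_right]
  module

theorem in_rsu {p : Plt n} (hp : ‖p.1‖ = 1) (B : ℝ) (u : Vc n) : ⟪p.1, rsu p B u⟫ = B * (⟪p.1, u⟫ - p.2.1) := by
  simp only [rsu, inner_add_right, inner_sub_right, inner_smul_right, real_inner_self_eq_norm_sq, hp]
  ring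

/-- the inverse of the rescaling of directions -/
noncomputable def mv (p : Plt n) (c : ℝ) : (Vc n × ℝ) →ₗ[ℝ] (Vc n × ℝ) where
  toFun z := ((z.1 - ⟪p.1, z.1⟫ • p.1) + (p.2.1 * z.2 + c * ⟪p.1, z.1⟫) • p.1, z.2)
  map_add' z z' := by
    simp only [Prod.fst_add, Prod.snd_add, inner_add_right, Prod.mk_add_mk, Prod.mk.injEq, and_true]
    module
  map_smul' a z := by
    simp only [Prod.smul_fst, Prod.smul_snd, inner_smul_right, RingHom.id_apply, Prod.smul_mk, smul_eq_mul,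
      Prod.mk.injEq, and_true]
    module

theorem mv_rsu {p : Plt n} (hp : ‖p.1‖ = 1) {c B : ℝ} (h : c * B = 1) (u : Vc n) :
    mv p c (rsu p B u, 1) = (u, 1) := by
  refine Prod.ext ?_ rfl
  show (rsu p B u - ⟪p.1, rsu p B u⟫ • p.1) + (p.2.1 * 1 + c * ⟪p.1, rsu p B u⟫) • p.1 = u
  rw [in_rsu hp, ← mul_assoc c, h, rsu]
  module

theorem mv_fst {p : Plt n} (hp : ‖p.1‖ = 1) {c : ℝ} (hc : 0 ≤ c) (z : Vc n × ℝ) :
    ‖(mv p c z).1‖ ≤ (1 + c) * ‖z.1‖ + |p.2.1| * |z.2| := by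
  have h1 := cmb hp z.1 zero_le_one (p.2.1 * z.2 + c * ⟪p.1, z.1⟫)
  rw [one_smul] at h1
  have h2 := abs_add_le (p.2.1 * z.2) (c * ⟪p.1, z.1⟫)
  rw [abs_mul, abs_mul, abs_of_nonneg hc] at h2
  have h3 := mul_le_mul_of_nonneg_left (in_le hp z.1) hc
  exact h1.trans (by linarith)

theorem mv_le {p : Plt n} (hp : ‖p.1‖ = 1) {c : ℝ} (hc : 0 ≤ c) (z : Vc n × ℝ) :
    ‖mv p c z‖ ≤ (1 + c + |p.2.1|) * ‖z‖ := by
  have h1 := mv_fst hp hc z
  have h2 := mul_le_mul_of_nonneg_left (norm_fst_le z) (by linarith : 0 ≤ 1 + c)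
  have h3 : |z.2| ≤ ‖z‖ := norm_snd_le z
  have h4 := mul_le_mul_of_nonneg_left h3 (abs_nonneg p.2.1)
  have h5 : 0 ≤ c * ‖z‖ := by positivity
  have h6 : 0 ≤ |p.2.1| * ‖z‖ := by positivity
  rw [Prod.norm_def]
  exact max_le (by linarith) (le_trans h3 (by linarith))

theorem log_pw (c : ℝ) (m : ℕ) (hc : 0 ≤ c) :
    Real.log (2 * (c * 2 ^ m) + 3) ≤ m * Real.log 2 + Real.log (2 * c + 3) := by
  have h1 : (1 : ℝ) ≤ 2 ^ m := one_le_pow₀ (by norm_num)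
  have h2 : Real.log (2 * (c * 2 ^ m) + 3) ≤ Real.log ((2 * c + 3) * 2 ^ m) :=
    Real.log_le_log (by positivity) (by nlinarith)
  rw [Real.log_mul (by positivity) (by positivity), Real.log_pow] at h2
  linarith

section sys

variable {Ω : Type} [Fintype Ω] {S : TSys Ω n} {β : Type} {Z : Ω → β} {pl : S.γ → Plt n} {K w lam : ℕ}
  {Cu Cz C₀ h e b H : ℝ}

theorem rs_x (ω : Ω) : (RS S pl K w h).x ω =
    rsx (pl (S.side ω)) (2 ^ (K - w))⁻¹ (2 ^ w / h) (S.x ω) (S.t ω) := rfl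

theorem rs_t (ω : Ω) : (RS S pl K w h).t ω = S.t ω * (2 ^ (K - w))⁻¹ := div_eq_mul_inv _ _

theorem rs_u (ω : Ω) : (RS S pl K w h).u ω = rsu (pl (S.side ω)) (2 ^ K / h) (S.u ω) := rfl

theorem pw (hw : w ≤ K) : (2 : ℝ) ^ K = 2 ^ (K - w) * 2 ^ w := by rw [← pow_add, Nat.sub_add_cancel hw]

theorem v_le (hs : St S Z pl K w lam Cu Cz h e b H) (h2 : h ≤ C₀ * 2 ^ K) {ω : Ω} (hω : 0 < S.P.w ω) :
    |(pl (S.side ω)).2.1| ≤ Cu + C₀ := by
  have h1 := (hs.inp ω hω).1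
  have h3 := (in_le (hs.unit (S.side ω)) (S.u ω)).trans (hs.bnd ω hω)
  have h4 : h / 2 ^ K ≤ C₀ := by rwa [div_le_iff₀ (by positivity)]
  rw [abs_le] at h1 h3 ⊢
  constructor <;> linarith

theorem u_le (hs : St S Z pl K w lam Cu Cz h e b H) (h1 : 2 ^ w ≤ h) : (RS S pl K w h).Bnd (Cu + 1) := by
  intro ω hω
  have h0 : 0 < h := lt_of_lt_of_le (by positivity) h1
  have h2 := cmb (hs.unit (S.side ω)) (S.u ω) zero_le_one
    (2 ^ K / h * (⟪(pl (S.side ω)).1, S.u ω⟫ - (pl (S.side ω)).2.1))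
  rw [one_smul, abs_mul, abs_of_pos (by positivity : 0 < 2 ^ K / h)] at h2
  have h3 := mul_le_mul_of_nonneg_left (hs.inp ω hω).1 (by positivity : 0 ≤ 2 ^ K / h)
  have h4 : 2 ^ K / h * (h / 2 ^ K) = 1 := by field_simp
  have h5 := hs.bnd ω hω
  exact h2.trans (by linarith)

/-- equal tubes give close rescaled tubes -/
theorem tub_le (hs : St S Z pl K w lam Cu Cz h e b H) (hw : w ≤ K) (h1 : 2 ^ w ≤ h) (ha : TA) {ω ω' : Ω}
    (e1 : S.tub 0 ω = S.tub 0 ω') (e2 : S.side ω = S.side ω') :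
    (RS S pl K w h).u ω = (RS S pl K w h).u ω' ∧
    ‖((RS S pl K w h).x ω - (RS S pl K w h).t ω • (RS S pl K w h).u ω) -
      ((RS S pl K w h).x ω' - (RS S pl K w h).t ω' • (RS S pl K w h).u ω')‖ ≤ 2 * n := by
  have h0 : 0 < h := lt_of_lt_of_le (by positivity) h1
  simp only [TSys.tub, Prod.mk.injEq] at e1
  obtain ⟨e3, e4⟩ := e1
  rw [← e3] at e4
  have b1 := ha.clv _ _ _ (by positivity) e4
  rw [pow_zero, mul_one] at b1
  simp only [rs_x, rs_t, rs_u, ← e2, ← e3, true_and]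
  rw [rsx_tub _ _ _ _ (by rw [pw hw]; field_simp)]
  refine (cmb (hs.unit _) _ (by positivity) _).trans ?_
  have b2 := (in_le (hs.unit (S.side ω)) _).trans b1
  have b3 : ((2 : ℝ) ^ (K - w))⁻¹ ≤ 1 := inv_le_one_of_one_le₀ (one_le_pow₀ one_le_two)
  have b4 : 2 ^ w / h ≤ 1 := by rwa [div_le_one h0]
  rw [abs_mul, abs_of_pos (by positivity : 0 < 2 ^ w / h)]
  have b5 := mul_le_mul b3 b1 (norm_nonneg _) zero_le_one
  have b6 := mul_le_mul b4 b2 (abs_nonneg _) zero_le_one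
  linarith

end sys

end Vale.Agent.P076N.TB.RSx
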