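import Vale.Agent.P076N.TB.Co

/-!
# P076N / TB : row SP, one step of the iteration
-/

set_option linter.all false

open Finset Vale.Agent.P127 Vale.Agent.P127.Stk
open scoped RealInnerProductSpace

namespace Vale.Agent.P076N.TB

noncomputable section

namespace SPx

open CSx COx

lemma st_mono {Ω : Type} [Fintype Ω] {n : ℕ} {S : TSys Ω n} {β : Type} {Z : Ω → β} {pl : S.γ → Plt n}
    {K w lam : ℕ} {Cu Cz h e b H h' e' b' : ℝ} (hS : St S Z pl K w lam Cu Cz h e b H) (h0 : h ≤ h') (h1 : e ≤ e')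
    (h2 : b ≤ b') : St S Z pl K w lam Cu Cz h' e' b' H :=
  ⟨hS.bnd, hS.diam, hS.cnt, hS.unit, fun ω hω => ⟨(hS.inp ω hω).1.trans
      (div_le_div_of_nonneg_right h0 (by positivity)), (hS.inp ω hω).2.trans h0⟩,
    by have := hS.up; linarith, by have := hS.tim; linarith, by have := hS.dir; linarith,
    fun p => (hS.brd p).trans h2, by have := hS.zz; linarith⟩

lemma num1 (M η₁ : ℝ) (w lam : ℕ) (hM : 0 < M) (h1 : M ≤ w / 4) (h2 : (lam : ℝ) ≤ w / 8) (h3 : η₁ ≤ 1 / 8) :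
    (2 : ℝ) ^ (η₁ * w) * 2 ^ ((w : ℝ) / 2) ≤ ((2 : ℝ) ^ lam)⁻¹ / M * 2 ^ w := by
  have hw0 : (0 : ℝ) ≤ w := Nat.cast_nonneg w
  have c1 : M ≤ 2 ^ ((w : ℝ) / 4) := h1.trans (le_two_rpow _)
  have x1 : η₁ * w ≤ 1 / 8 * w := mul_le_mul_of_nonneg_right h3 hw0
  have c2 : (2 : ℝ) ^ (η₁ * w) * 2 ^ ((w : ℝ) / 2) * (2 ^ lam * M) ≤ 2 ^ w :=
    calc _ ≤ (2 : ℝ) ^ (η₁ * w) * 2 ^ ((w : ℝ) / 2) * (2 ^ lam * 2 ^ ((w : ℝ) / 4)) := by gcongr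
      _ = 2 ^ (η₁ * w + w / 2 + (lam + w / 4)) := by
          rw [Real.rpow_add (by norm_num), Real.rpow_add (by norm_num), Real.rpow_add (by norm_num),
            Real.rpow_natCast]
      _ ≤ 2 ^ (w : ℝ) := Real.rpow_le_rpow_of_exponent_le (by norm_num) (by linarith)
      _ = 2 ^ w := Real.rpow_natCast 2 w
  have e : ((2 : ℝ) ^ lam)⁻¹ / M * 2 ^ w = 2 ^ w / (2 ^ lam * M) := by field_simp
  rw [e, le_div_iff₀ (by positivity)]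
  exact c2

lemma num2 (C x : ℝ) (lam : ℕ) (hC : 1 ≤ C) (h : lam + C ≤ x) : (2 : ℝ) ^ (-x) ≤ ((2 : ℝ) ^ lam)⁻¹ / C := by
  have c1 : (2 : ℝ) ^ lam * C ≤ 2 ^ x :=
    calc (2 : ℝ) ^ lam * C ≤ 2 ^ lam * 2 ^ C := mul_le_mul_of_nonneg_left (le_two_rpow _) (by positivity)
      _ = 2 ^ ((lam : ℝ) + C) := by rw [Real.rpow_add (by norm_num), Real.rpow_natCast]
      _ ≤ 2 ^ x := Real.rpow_le_rpow_of_exponent_le (by norm_num) h
  rw [Real.rpow_neg (by norm_num), div_eq_mul_inv, ← mul_inv]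
  exact inv_anti₀ (by positivity) c1

/-- from the plate of the rescaled system to the new state -/
lemma back (hA : TA) (hC : TC) (hF : TF) (hB : BK) {n : ℕ} (hn : 2 ≤ n) {Ω : Type} [Fintype Ω] (S : TSys Ω n)
    {β : Type} (Z : Ω → β) (pl : S.γ → Plt n) (K w lam : ℕ) (Cu Cz h e b H η₁ I δ : ℝ) (hCu : 1 ≤ Cu)
    (hS : St S Z pl K w lam Cu Cz h e b H) (hwK : w ≤ K) (hh : 0 < h) (h1 : 12 + 12 * Cu ≤ w / 4)
    (h2 : (lam : ℝ) ≤ w / 8) (h3 : η₁ ≤ 1 / 8)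
    (hP : PlEx (RS S pl K w h) (2 ^ (η₁ * w) / 2 ^ w) (2 ^ (η₁ * w)) I δ) :
    ∃ (Ω' : Type) (_ : Fintype Ω') (Q : Law Ω') (π : Ω' → Ω) (Γ : Type) (G : Ω' → Γ) (A : Type) (F : S.α → A)
      (q : S.γ × Γ → Plt n), CI Q π S.P (fun ω => F (S.ξ ω)) G ∧ mi Q π G (fun a => S.side (π a)) ≤ I ∧
      (∀ s, ‖(q s).1‖ = 1) ∧ prE Q (fun a => ¬ InP (q (S.side (π a), G a)) (h / 2 ^ ((w : ℝ) / 2) / 2 ^ K)
        (h / 2 ^ ((w : ℝ) / 2)) (S.x (π a)) (S.t (π a)) (S.u (π a))) ≤ δ + b := by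
  obtain ⟨Ω', _, Q, π, Γ, G, p1, hCI, hI, hu, hp⟩ := hP
  have hM : 0 < 12 + 12 * Cu := by linarith
  have k1 := num1 (12 + 12 * Cu) η₁ w lam hM h1 h2 h3
  have l1 : (1 : ℝ) ≤ 2 ^ lam := one_le_pow₀ (by norm_num)
  have l2 : ((2 : ℝ) ^ lam)⁻¹ ≤ 1 := inv_le_one_of_one_le₀ l1
  have l3 : (1 : ℝ) ≤ 2 ^ ((w : ℝ) / 2) := Real.one_le_rpow (by norm_num) (by positivity)
  have m0 : (0 : ℝ) < 2 ^ (η₁ * w) := by positivity
  have τ0 : 0 < ((2 : ℝ) ^ lam)⁻¹ / (12 + 12 * Cu) := by positivity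
  have τ1 : 6 * (((2 : ℝ) ^ lam)⁻¹ / (12 + 12 * Cu)) ≤ 1 / 2 := by
    rw [← mul_div_assoc, div_le_iff₀ hM]
    linarith
  have τ2 : (2 + 2 * Cu) * (6 * (((2 : ℝ) ^ lam)⁻¹ / (12 + 12 * Cu))) = ((2 : ℝ) ^ lam)⁻¹ := by
    field_simp
    ring
  generalize ((2 : ℝ) ^ lam)⁻¹ / (12 + 12 * Cu) = τ at k1 τ0 τ1 τ2
  have τ3 : (2 : ℝ) ^ (η₁ * w) / 2 ^ w ≤ τ := by
    rw [div_le_iff₀ (by positivity)]
    nlinarith
  have τ4 : (2 : ℝ) ^ (η₁ * w) * h / (τ * 2 ^ w) ≤ h / 2 ^ ((w : ℝ) / 2) := by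
    rw [div_le_div_iff₀ (by positivity) (by positivity)]
    nlinarith
  choose q L hq hL hin using fun s : S.γ × Γ =>
    hB n K w (pl s.1) (p1 s.2) h τ (2 ^ (η₁ * w)) (hS.unit _) (hu _) hwK hh τ0 (by linarith) m0.le τ3
  choose pp hpp using fun s : S.γ × Γ => hF.nea n (n - 2) Cu (6 * τ) (L s) ((hL s).trans (by omega)) τ1
  refine ⟨Ω', inferInstance, Q, π, Γ, G, _, fun a => ((flv (2 ^ 0) ((RS S pl K w h).z a).1,
    ⌊((RS S pl K w h).z a).2 / 2 ^ 0⌋), S.sd a), q, hCI, hI, hq, ?_⟩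
  have p2 : prE Q (fun a => InS (pp (S.side (π a), G a)) (n - 2) (2 ^ lam)⁻¹ (S.u (π a))) ≤ b :=
    hCI.pre (fun ω g => InS (pp (S.side ω, g)) (n - 2) (2 ^ lam)⁻¹ (S.u ω)) b fun g =>
      hS.brd fun a => pp (S.sd a, g ((flv (2 ^ 0) ((RS S pl K w h).z a).1,
        ⌊((RS S pl K w h).z a).2 / 2 ^ 0⌋), S.sd a))
  refine (hA.por Q _ _ _ fun a ha hx => ?_).trans (add_le_add hp p2)
  by_contra c
  rw [not_or, not_not] at c
  have hω : 0 < S.P.w (π a) := hC.pos hCI.mg a ha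
  rcases hin (S.side (π a), G a) (S.x (π a)) (S.u (π a)) (S.t (π a)) (hS.inp _ hω) c.1 with r | r
  · exact hx ⟨r.1.trans (div_le_div_of_nonneg_right τ4 (by positivity)), r.2.trans τ4⟩
  · have := hpp _ _ (hS.bnd _ hω) r
    rw [τ2] at this
    exact c.2 this

end SPx

open CSx COx SPx in
theorem sp (hA : TA) (hC : TC) (hF : TF) (hB : BK) (n : ℕ) (hn : 2 ≤ n) (hco : CO n) (hr1 : R1 n) (hr2 : R2 n)
    (hcd : CD n) : SP n := by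
  intro Cu Cz C₀ θ η hCu hCz hC₀ hθ hη
  obtain ⟨C₁, hC₁, H₁⟩ := hr1 Cu Cz C₀ hCu hCz hC₀
  obtain ⟨Cd, hCd, Hd⟩ := hcd Cu Cz hCu hCz
  obtain ⟨η₁, η0, η1, η2⟩ : ∃ η₁ : ℝ, 0 < η₁ ∧ η₁ ≤ 1 / 8 ∧ Cd * η₁ ≤ η / 8 :=
    ⟨min (1 / 8) (η / 8 / Cd), lt_min (by norm_num) (by positivity), min_le_left _ _, by
      rw [mul_comm, ← le_div_iff₀ (by linarith)]
      exact min_le_right _ _⟩
  have η3 : η₁ ≤ η / 8 := by nlinarith
  obtain ⟨εc, εc0, w₀, Hc⟩ := hco (Cu + 1) (Cz + 2) η₁ (by linarith) (by linarith) η0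
  obtain ⟨ε', ε'0, n₀, C₂, H₂⟩ := hr2 Cu Cz C₀ (εc * θ / 4) hCu hCz hC₀ (by positivity)
  have hn0 : (0 : ℝ) ≤ n := Nat.cast_nonneg n
  obtain ⟨ε, ε0, ε1, ε2, ε3, ε4, ε5⟩ : ∃ ε : ℝ, 0 < ε ∧ ε ≤ η₁ ∧ ε ≤ εc ∧ ε ≤ ε' / 2 ∧ ε ≤ θ / 8 ∧
      (n + 1) * ε ≤ εc * θ / 4 :=
    ⟨min (min η₁ εc) (min (min (ε' / 2) (θ / 8)) (εc * θ / 4 / (n + 1))),
      lt_min (lt_min η0 εc0) (lt_min (lt_min (by positivity) (by positivity)) (by positivity)),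
      (min_le_left _ _).trans (min_le_left _ _), (min_le_left _ _).trans (min_le_right _ _),
      (min_le_right _ _).trans ((min_le_left _ _).trans (min_le_left _ _)),
      (min_le_right _ _).trans ((min_le_left _ _).trans (min_le_right _ _)), by
        rw [mul_comm, ← le_div_iff₀ (by linarith)]
        exact (min_le_right _ _).trans (min_le_right _ _)⟩
  have ε6 : ε ≤ εc * θ / 4 := by nlinarith
  obtain ⟨K₁, G₁⟩ := big (max C₁ C₂) (εc * θ / 4) (by positivity)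
  obtain ⟨K₂, G₂⟩ := big (max (w₀ : ℝ) (4 * (12 + 12 * Cu))) θ hθ
  obtain ⟨K₃, G₃⟩ := big 1 (η / 4) (by positivity)
  refine ⟨ε, ε0, K₁ + K₂ + K₃ + 2 * n₀ + 1, fun K w lam h H Ω _ S β Z pl hK hθw hwK hlam hh1 hh2 hS => ?_⟩
  have hK0 : (0 : ℝ) ≤ K := Nat.cast_nonneg K
  have g1 := G₁ K (by omega)
  have g2 := G₂ K (by omega)
  have g3 := G₃ K (by omega)
  have g11 : C₁ ≤ εc * θ / 4 * K := (le_max_left _ _).trans g1
  have g12 : C₂ ≤ εc * θ / 4 * K := (le_max_right _ _).trans g1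
  have g21 : (w₀ : ℝ) ≤ w := ((le_max_left _ _).trans g2).trans hθw
  have g22 : 4 * (12 + 12 * Cu) ≤ w := ((le_max_right _ _).trans g2).trans hθw
  have hwK' : 2 * (w : ℝ) ≤ K := by exact_mod_cast hwK
  have x1 : εc * θ / 4 * K ≤ εc * w / 4 := by
    have := mul_le_mul_of_nonneg_left hθw εc0.le
    linarith
  have x2 : ε * K ≤ εc * θ / 4 * K := mul_le_mul_of_nonneg_right ε6 hK0
  have x3 : (n + 1) * (ε * K) ≤ εc * θ / 4 * K := by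
    rw [← mul_assoc]
    exact mul_le_mul_of_nonneg_right ε5 hK0
  have x4 : ε * K ≤ θ / 8 * K := mul_le_mul_of_nonneg_right ε4 hK0
  have x5 : ε * K ≤ ε' / 2 * K := mul_le_mul_of_nonneg_right ε3 hK0
  have x6 : ε' / 2 * K ≤ ε' * ((K : ℝ) - w) := by
    have := mul_le_mul_of_nonneg_left (show (K : ℝ) / 2 ≤ K - w by linarith) ε'0.le
    linarith
  have x7 : 0 ≤ εc * w := by positivity
  have hh0 : 0 < h := lt_of_lt_of_le (by positivity) hh1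
  obtain ⟨r1, r2, r3, r4, r5⟩ := H₁ K w lam h _ _ H Ω S β Z pl hS (by omega) hh1 hh2
  have r6 := H₂ K w lam h _ _ H Ω S β Z pl hS (by omega) hh1 hh2 (by linarith) (by linarith)
  have hcore : Core (RS S pl K w h) w (Cu + 1) (Cz + 2) (εc * w) (2 ^ (-(εc * w))) εc :=
    ⟨r1, r2, le_trans r6 (by linarith), le_trans (by linarith) r3, le_trans (by linarith) r4,
      fun L hL => ((hA.pmo _ _ _ fun _ _ hx => near_mono hx (num2 C₁ _ lam hC₁ (by linarith))).trans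
        (r5 L hL)).trans ε2⟩
  have hP := Hc w Ω _ (by exact_mod_cast g21) hcore
  obtain ⟨Ω', _, Q, π, Γ, G, A, F, q, c1, c2, c3, c4⟩ := back hA hC hF hB hn S Z pl K w lam Cu Cz h _ _ H η₁ _ _ hCu
    hS (by omega) hh0 (by linarith) (by linarith) η1 hP
  obtain ⟨d1, d2⟩ := Hd K w lam h (h / 2 ^ ((w : ℝ) / 2)) _ _ H _ _ Ω Ω' S β Z pl Q π Γ G _ A F q hS (by omega)
    (by omega) (by positivity) (by linarith) (by linarith) c1 c2 c4 c3 fun _ _ hx => hx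
  refine ⟨Ω', inferInstance, _, π, q, d1, st_mono d2 le_rfl ?_ (by linarith)⟩
  have y1 : ε * K ≤ η / 8 * K := mul_le_mul_of_nonneg_right (by linarith) hK0
  have y2 : η₁ * w ≤ η / 8 * K := mul_le_mul η3 (by linarith) (Nat.cast_nonneg w) (by linarith)
  have y3 : Cd * (η₁ + ε) * K ≤ η / 4 * K := by
    refine mul_le_mul_of_nonneg_right ?_ hK0
    have := mul_le_mul_of_nonneg_left ε1 (by linarith : 0 ≤ Cd)
    linarith
  have y4 : 0 ≤ η * K := by positivity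
  linarith

end

end Vale.Agent.P076N.TB
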