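import Vale.Agent.P076N.Tube

/-!
# P076N / TB : rows for LW, PJ, PLAN (notes/P076/tb.md)

`TA` (counting), `TC` (conditional independence), `TF` (frames) are tools; every row takes the tools it needs
and other rows as hypotheses.
-/

set_option linter.all false

open Finset Vale.Agent.P127 Vale.Agent.P127.Stk
open scoped RealInnerProductSpace

namespace Vale.Agent.P076N.TB

noncomputable section

section defs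

variable {Ω Ω' : Type} [Fintype Ω] [Fintype Ω']

/-- the law of `π` under `Q` is `P` -/
def Mg (Q : Law Ω') (π : Ω' → Ω) (P : Law Ω) : Prop := ∀ ω, Q.pr π ω = P.w ω

/-- `π` has the law `P` and is independent of `Y` given `W ∘ π` -/
structure CI (Q : Law Ω') (π : Ω' → Ω) (P : Law Ω) {S U : Type} (W : Ω → S) (Y : Ω' → U) : Prop where
  mg : Mg Q π P
  ent : ∀ (T : Type) (X : Ω → T), hc Q (fun a => X (π a)) (fun a => (Y a, W (π a))) = hc P X W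
  pre : ∀ (E : Ω → U → Prop) (β : ℝ), (∀ g : S → U, prE P (fun ω => E ω (g (W ω))) ≤ β) →
    prE Q (fun a => E (π a) (Y a)) ≤ β

/-- on the event `E` the variable `X` has at most `N` values given `Y` -/
def Cnt (P : Law Ω) (E : Ω → Prop) {S T : Type} (X : Ω → S) (Y : Ω → T) (N : ℝ) : Prop :=
  ∀ ω, 0 < P.w ω → E ω → ∃ F : Finset S, (#F : ℝ) ≤ N ∧ ∀ ω', 0 < P.w ω' → E ω' → Y ω' = Y ω → X ω' ∈ F

end defs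

/-- **[TA]** counting tools -/
structure TA : Prop where
  flr : ∀ {Ω : Type} [Fintype Ω] (P : Law Ω) (E : Ω → Prop) {T : Type} (V : Ω → ℝ) (Y : Ω → T) (r lam : ℝ),
    0 < r → (∀ ω ω', 0 < P.w ω → 0 < P.w ω' → E ω → E ω' → Y ω = Y ω' → |V ω - V ω'| ≤ lam * r) →
    Cnt P E (fun ω => ⌊V ω / r⌋) Y (2 * lam + 3)
  flv : ∀ {Ω : Type} [Fintype Ω] (P : Law Ω) (E : Ω → Prop) {T : Type} {k : ℕ} (V : Ω → Vc k) (Y : Ω → T)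
    (r lam : ℝ), 0 < r → (∀ ω ω', 0 < P.w ω → 0 < P.w ω' → E ω → E ω' → Y ω = Y ω' → ‖V ω - V ω'‖ ≤ lam * r) →
    Cnt P E (fun ω => flv r (V ω)) Y ((2 * lam + 3) ^ k)
  cel : ∀ {Ω : Type} [Fintype Ω] (P : Law Ω) (E : Ω → Prop) {T : Type} {k : ℕ} (V : Ω → Vc k) (t : Ω → ℝ)
    (Y : Ω → T) (r lam : ℝ), 0 < r → (∀ ω ω', 0 < P.w ω → 0 < P.w ω' → E ω → E ω' → Y ω = Y ω' →
      ‖V ω - V ω'‖ ≤ lam * r ∧ |t ω - t ω'| ≤ lam * r) →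
    Cnt P E (fun ω => (P076N.flv r (V ω), ⌊t ω / r⌋)) Y ((2 * lam + 3) ^ (k + 1))
  /-- equal cells are close -/
  clv : ∀ {k : ℕ} (r : ℝ) (a b : Vc k), 0 < r → P076N.flv r a = P076N.flv r b → ‖a - b‖ ≤ k * r
  clr : ∀ (r a b : ℝ), 0 < r → ⌊a / r⌋ = ⌊b / r⌋ → |a - b| ≤ r
  /-- the corner of a cell is close -/
  crn : ∀ {k : ℕ} (r : ℝ) (a : Vc k), 0 < r → ‖a - r • toV (P076N.flv r a)‖ ≤ k * r
  /-- coarse cells are functions of fine cells -/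
  upr : ∀ (p q : ℕ) (a b : ℝ), p ≤ q → ⌊a / 2 ^ p⌋ = ⌊b / 2 ^ p⌋ → ⌊a / 2 ^ q⌋ = ⌊b / 2 ^ q⌋
  one : ∀ {Ω : Type} [Fintype Ω] (P : Law Ω) {S T : Type} (X : Ω → S) (Y : Ω → T) (N : ℝ),
    Cnt P (fun _ => True) X Y N → hc P X Y ≤ Real.log N
  two : ∀ {Ω : Type} [Fintype Ω] (P : Law Ω) (E : Ω → Prop) {S T : Type} (X : Ω → S) (Y : Ω → T) (N N' : ℝ),
    1 ≤ N → 1 ≤ N' → Cnt P E X Y N → Cnt P (fun ω => ¬ E ω) X Y N' →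
    hc P X Y ≤ Real.log 2 + prE P E * Real.log N + (1 - prE P E) * Real.log N'
  /-- the form that is used most: good count `N`, bad event of probability at most `δ`, total count `N'` -/
  exc : ∀ {Ω : Type} [Fintype Ω] (P : Law Ω) (E : Ω → Prop) {S T : Type} (X : Ω → S) (Y : Ω → T) (N N' δ : ℝ),
    1 ≤ N → 1 ≤ N' → Cnt P E X Y N → Cnt P (fun _ => True) X Y N' → prE P (fun ω => ¬ E ω) ≤ δ →
    hc P X Y ≤ Real.log 2 + Real.log N + δ * Real.log N'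
  fano : ∀ {Ω : Type} [Fintype Ω] (P : Law Ω) {T : Type} (t t' : Ω → ℝ) (Y : Ω → T) (r A e : ℝ) (w s : ℕ),
    0 < r → 1 ≤ A → s ≤ w → Fn P t' Y → (∀ ω, 0 < P.w ω → |t ω - t' ω| ≤ A * 2 ^ w * r) →
    w * Real.log 2 - e ≤ hc P (fun ω => ⌊t ω / r⌋) Y →
    prE P (fun ω => |t ω - t' ω| ≤ 2 ^ w / 2 ^ s * r) * (s * Real.log 2) ≤ e + Real.log (14 * A)
  pmo : ∀ {Ω : Type} [Fintype Ω] (P : Law Ω) (E E' : Ω → Prop), (∀ ω, 0 < P.w ω → E ω → E' ω) →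
    prE P E ≤ prE P E'
  por : ∀ {Ω : Type} [Fintype Ω] (P : Law Ω) (E E₁ E₂ : Ω → Prop), (∀ ω, 0 < P.w ω → E ω → E₁ ω ∨ E₂ ω) →
    prE P E ≤ prE P E₁ + prE P E₂
  /-- conditioning on a likely event -/
  onl : ∀ {Ω : Type} [Fintype Ω] (P : Law Ω) (E : Ω → Prop) {S T : Type} (X : Ω → S) (Y : Ω → T) (N δ : ℝ),
    δ ≤ 1 / 2 → prE P (fun ω => ¬ E ω) ≤ δ → Cnt P (fun _ => True) X Y N →
    hc P X Y - Real.log 2 - δ * Real.log N ≤ hc (on P E) X Y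
  onu : ∀ {Ω : Type} [Fintype Ω] (P : Law Ω) (E : Ω → Prop) {S T : Type} (X : Ω → S) (Y : Ω → T) (δ : ℝ),
    δ ≤ 1 / 2 → prE P (fun ω => ¬ E ω) ≤ δ → hc (on P E) X Y ≤ (1 + 2 * δ) * hc P X Y
  onp : ∀ {Ω : Type} [Fintype Ω] (P : Law Ω) (E E' : Ω → Prop),
    prE P (fun ω => ¬ E ω) ≤ 1 / 2 → prE (on P E) E' ≤ 2 * prE P E'
  ons : ∀ {Ω : Type} [Fintype Ω] (P : Law Ω) (E : Ω → Prop) (ω : Ω),
    prE P (fun ω => ¬ E ω) ≤ 1 / 2 → 0 < (on P E).w ω → E ω ∧ 0 < P.w ω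
  /-- Han type inequality with triangular coordinates `A j` -/
  han : ∀ {Ω : Type} [Fintype Ω] (P : Law Ω) {r : ℕ} {S T U V : Type} (X : Ω → S) (G : Ω → T)
    (A : Fin r → Ω → ℤ) (W : Fin r → Ω → U) (Z : Fin r → Ω → V) (c : ℝ) (d e : Fin r → ℝ),
    hc P (fun ω j => A j ω) (fun ω => (X ω, G ω)) ≤ c →
    (∀ j, hc P (fun ω => ((fun i => if j < i then A i ω else 0 : Fin r → ℤ), G ω)) (W j) ≤ d j) →
    (∀ j, hc P (Z j) (fun ω => (A j ω, W j ω)) ≤ e j) →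
    ∑ j, hc P (Z j) (W j) ≤ hc P X G + c + ∑ j, (d j + e j)

/-- **[TC]** tools for marginals and conditional independence -/
structure TC : Prop where
  hcm : ∀ {Ω Ω' : Type} [Fintype Ω] [Fintype Ω'] {Q : Law Ω'} {π : Ω' → Ω} {P : Law Ω}, Mg Q π P →
    ∀ {S T : Type} (X : Ω → S) (Y : Ω → T), hc Q (fun a => X (π a)) (fun a => Y (π a)) = hc P X Y
  prm : ∀ {Ω Ω' : Type} [Fintype Ω] [Fintype Ω'] {Q : Law Ω'} {π : Ω' → Ω} {P : Law Ω}, Mg Q π P →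
    ∀ (E : Ω → Prop), prE Q (fun a => E (π a)) = prE P E
  pos : ∀ {Ω Ω' : Type} [Fintype Ω] [Fintype Ω'] {Q : Law Ω'} {π : Ω' → Ω} {P : Law Ω}, Mg Q π P →
    ∀ a, 0 < Q.w a → 0 < P.w (π a)
  cmp : ∀ {Ω Ω' Ω'' : Type} [Fintype Ω] [Fintype Ω'] [Fintype Ω''] {R : Law Ω''} {ρ : Ω'' → Ω'} {Q : Law Ω'}
    {π : Ω' → Ω} {P : Law Ω}, Mg R ρ Q → Mg Q π P → Mg R (fun a => π (ρ a)) P
  rfl : ∀ {Ω : Type} [Fintype Ω] (P : Law Ω), Mg P (fun a => a) P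
  fn : ∀ {Ω Ω' : Type} [Fintype Ω] [Fintype Ω'] {Q : Law Ω'} {π : Ω' → Ω} {P : Law Ω} {S U U' : Type}
    {W : Ω → S} {Y : Ω' → U} (f : U → U'), CI Q π P W Y → CI Q π P W (fun a => f (Y a))
  /-- a fresh copy with the same value of `W`, independent of everything else -/
  glue : ∀ {Ω Ω' : Type} [Fintype Ω] [Fintype Ω'] (Q : Law Ω') (π : Ω' → Ω) (P : Law Ω) {S : Type}
    (W : Ω → S), Mg Q π P → ∃ (Ω'' : Type) (_ : Fintype Ω'') (R : Law Ω'') (π' : Ω'' → Ω) (ρ : Ω'' → Ω'),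
      Mg R ρ Q ∧ (∀ a, W (π' a) = W (π (ρ a))) ∧ CI R π' P W ρ
  /-- copies -/
  cop : ∀ {Ω : Type} [Fintype Ω] (P : Law Ω) {S : Type} (W : Ω → S) (N : ℕ),
    ∃ Q : Law (Fin (N + 1) → Ω), (∀ a, 0 < Q.w a → ∀ i j, W (a i) = W (a j)) ∧
      ∀ (i : Fin (N + 1)) (U : Type) (Y : (Fin (N + 1) → Ω) → U),
        (∀ a a', (∀ j, j ≠ i → a j = a' j) → Y a = Y a') → CI Q (fun a => a i) P W Y
  /-- extra conditioning costs at most the mutual information -/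
  cst : ∀ {Ω Ω' : Type} [Fintype Ω] [Fintype Ω'] {Q : Law Ω'} {π : Ω' → Ω} {P : Law Ω}, Mg Q π P →
    ∀ {S T U V : Type} (X : Ω → S) (Y : Ω → T) (σ : Ω → U) (G : Ω' → V), Fn P σ Y →
      hc P X Y - mi Q π G (fun a => σ (π a)) ≤ hc Q (fun a => X (π a)) (fun a => (Y (π a), G a))
  /-- the information passes through `c` -/
  mic : ∀ {Ω Ω' : Type} [Fintype Ω] [Fintype Ω'] {Q : Law Ω'} {π : Ω' → Ω} {P : Law Ω} {S U V : Type}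
    {c : Ω → S} {σ : Ω → U} {G : Ω' → V}, CI Q π P (fun ω => (c ω, σ ω)) G →
      mi Q π G (fun a => σ (π a)) = hc P c σ - hc Q (fun a => c (π a)) (fun a => (G a, σ (π a)))

/-- `v` is close to the subspace `L` -/
def Near {n : ℕ} (L : Submodule ℝ (Vc n × ℝ)) (ρ : ℝ) (v : Vc n × ℝ) : Prop := ∃ l ∈ L, ‖v - l‖ ≤ ρ

/-- **[TF]** frames and strips -/
structure TF : Prop where
  frm : ∀ (k f : ℕ) (W : Submodule ℝ (Vc k)), Module.finrank ℝ W ≤ f →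
    ∃ O : Vc k ≃ₗᵢ[ℝ] Vc k, ∀ v ∈ W, ∀ l : Fin k, f ≤ (l : ℕ) → O v l = 0
  nea : ∀ (k f : ℕ) (Cu ρ : ℝ) (L : Submodule ℝ (Vc k × ℝ)), Module.finrank ℝ L ≤ f + 1 → ρ ≤ 1 / 2 →
    ∃ pl : Pl k, ∀ u : Vc k, ‖u‖ ≤ Cu → Near L ρ (u, 1) → InS pl f ((2 + 2 * Cu) * ρ) u
  str : ∀ (k f : ℕ) (Cu : ℝ), f ≤ k → ∃ C : ℝ, 1 ≤ C ∧ ∀ (y : ℕ) (pl : Pl k), ∃ F : Finset (Zv k),
    (#F : ℝ) ≤ C * 2 ^ (f * y) ∧ ∀ u : Vc k, ‖u‖ ≤ Cu → InS pl f (2 ^ y)⁻¹ u → flv (2 ^ y)⁻¹ u ∈ F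

/-! ## LW -/

/-- the corner of a direction cell -/
def vq {k : ℕ} (y : ℕ) (q : Zv k) : Vc k := ((2 : ℝ) ^ y)⁻¹ • toV q

/-- `r` copies given `ξ` with triangular functionals which depend on the rounded directions only -/
def Tri {Ω : Type} [Fintype Ω] {k : ℕ} (S : TSys Ω k) (r y : ℕ) (B ρ β : ℝ) : Prop :=
  ∃ (Ω' : Type) (_ : Fintype Ω') (Q : Law Ω') (π : Fin r → Ω' → Ω) (ν : (Fin r → Zv k) → Fin r → Vc k)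
    (v : (Fin r → Zv k) → Fin r → ℝ), (∀ j, Mg Q (π j) S.P) ∧
    (∀ a, 0 < Q.w a → ∀ i j, S.ξ (π i a) = S.ξ (π j a)) ∧ (∀ d j, ‖ν d j‖ ≤ 1) ∧
    (∀ d i j, i < j → ⟪ν d j, vq y (d i)⟫ = v d j) ∧
    (∀ a, 0 < Q.w a → ∀ j, |v (fun i => S.dir y (π i a)) j| ≤ B) ∧
    ∀ j, prE Q (fun a => |⟪ν (fun i => S.dir y (π i a)) j, vq y (S.dir y (π j a))⟫ -
      v (fun i => S.dir y (π i a)) j| < ρ) ≤ β

/-- **[LT]** transversal copies -/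
def LT : Prop := ∀ (k f w y : ℕ) (Cu β : ℝ) (Ω : Type) [Fintype Ω] (S : TSys Ω k), f + 1 ≤ k → 0 ≤ β →
  w + k + 1 ≤ y → S.Bnd Cu → S.Brd f w β → Tri S (f + 2) y (Cu + k) (2 ^ (w + 1))⁻¹ β

/-- **[LS]** one step of length `y` from the scale `s` -/
def LS : Prop := ∀ (k r : ℕ) (Cu B : ℝ), ∃ C : ℝ, 0 ≤ C ∧ ∀ (Ω Ω' : Type) [Fintype Ω] [Fintype Ω']
  (S : TSys Ω k) (Q : Law Ω') (π : Fin (r + 1) → Ω' → Ω) (ν : (Fin (r + 1) → Zv k) → Fin (r + 1) → Vc k)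
  (v : (Fin (r + 1) → Zv k) → Fin (r + 1) → ℝ) (p s s' y w : ℕ) (β : ℝ), p ≤ s → s ≤ s' → s' ≤ s + y → 0 ≤ β →
  S.Bnd Cu → (∀ j, Mg Q (π j) S.P) → (∀ a, 0 < Q.w a → ∀ i j, S.ξ (π i a) = S.ξ (π j a)) → (∀ d j, ‖ν d j‖ ≤ 1) →
  (∀ d i j, i < j → ⟪ν d j, vq y (d i)⟫ = v d j) →
  (∀ a, 0 < Q.w a → ∀ j, |v (fun i => S.dir y (π i a)) j| ≤ B) →
  (∀ j, prE Q (fun a => |⟪ν (fun i => S.dir y (π i a)) j, vq y (S.dir y (π j a))⟫ -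
      v (fun i => S.dir y (π i a)) j| < (2 ^ w)⁻¹) ≤ β) →
  ∑ j, hc Q (fun a => S.tm s (π j a))
      (fun a => (S.tm s' (π j a), S.tub p (π j a), S.side (π j a), fun i => S.dir y (π i a))) ≤
    S.hB s s' + C * (1 + w + β * y)

/-! ## PLAN -/

/-- the corner of a unit cell -/
def cen {n : ℕ} (c : Zv n × ℤ) : Vc n × ℝ := (toV c.1, (c.2 : ℝ))

/-- plates: normal, velocity, offset -/
abbrev Plt (n : ℕ) := Vc n × ℝ × ℝ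

/-- the point and the velocity are in the plate -/
def InP {n : ℕ} (p : Plt n) (a h : ℝ) (x : Vc n) (t : ℝ) (u : Vc n) : Prop :=
  |⟪p.1, u⟫ - p.2.1| ≤ a ∧ |⟪p.1, x⟫ - p.2.1 * t - p.2.2| ≤ h

section sys

variable {Ω : Type} [Fintype Ω] {n : ℕ}

/-- the directions avoid the subspaces of dimension `f` of space time -/
def BrdL (S : TSys Ω n) (f : ℕ) (ρ β : ℝ) : Prop :=
  ∀ L : S.α → Submodule ℝ (Vc n × ℝ), (∀ a, Module.finrank ℝ (L a) ≤ f) →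
    prE S.P (fun ω => Near (L (S.ξ ω)) ρ (S.u ω, 1)) ≤ β

def Diam (S : TSys Ω n) (R : ℝ) : Prop := ∀ ω ω', 0 < S.P.w ω → 0 < S.P.w ω' → S.side ω = S.side ω' →
  ‖S.x ω - S.x ω'‖ ≤ R ∧ |S.t ω - S.t ω'| ≤ R

/-- the hypotheses at one resolution -/
structure Core (S : TSys Ω n) (w : ℕ) (Cu Cz e ρ β : ℝ) : Prop where
  bnd : S.Bnd Cu
  diam : Diam S (Cz * 2 ^ w)
  up : hc S.P (S.cel 0) S.side ≤ n * w * Real.log 2 + e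
  tim : w * Real.log 2 - e ≤ hc S.P (S.tm 0) (fun ω => (S.tub 0 ω, S.side ω))
  dir : ((n : ℝ) - 1) * w * Real.log 2 - e ≤ hc S.P (S.dir w) S.ξ
  brd : BrdL S (n - 1) ρ β

/-- a random flat of dimension `j` through the point, in which the point has entropy `H` -/
def Chn (S : TSys Ω n) (j : ℕ) (Δ δ H : ℝ) : Prop :=
  ∃ (Ω' : Type) (_ : Fintype Ω') (Q : Law Ω') (π : Ω' → Ω) (Γ : Type) (G : Ω' → Γ) (b : Γ → Vc n × ℝ)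
    (L : Γ → Submodule ℝ (Vc n × ℝ)), CI Q π S.P (fun ω => (S.cel 0 ω, S.side ω)) G ∧
    (∀ g, Module.finrank ℝ (L g) ≤ j) ∧
    prE Q (fun a => ¬ Near (L (G a)) Δ (cen (S.cel 0 (π a)) - b (G a))) ≤ δ ∧
    H ≤ hc Q (fun a => S.cel 0 (π a)) (fun a => (G a, S.side (π a)))

/-- a random plate with small information -/
def PlEx (S : TSys Ω n) (a h I δ : ℝ) : Prop :=
  ∃ (Ω' : Type) (_ : Fintype Ω') (Q : Law Ω') (π : Ω' → Ω) (Γ : Type) (G : Ω' → Γ) (pl : Γ → Plt n),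
    CI Q π S.P (fun ω => (S.cel 0 ω, S.side ω)) G ∧ mi Q π G (fun a => S.side (π a)) ≤ I ∧
    (∀ g, ‖(pl g).1‖ = 1) ∧
    prE Q (fun b => ¬ InP (pl (G b)) a h (S.x (π b)) (S.t (π b)) (S.u (π b))) ≤ δ

end sys

/-- a point with a velocity -/
structure Pt (n : ℕ) where
  x : Vc n
  t : ℝ

/-- two points on the tube of width `r` with velocity `u` -/
def OnT {n : ℕ} (r : ℝ) (u x : Vc n) (t : ℝ) (x' : Vc n) (t' : ℝ) : Prop := ‖(x - t • u) - (x' - t' • u)‖ ≤ r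

/-- **[CG]** the geometry of the chain -/
structure CG : Prop where
  /-- two far points determine the velocity -/
  vel : ∀ {n : ℕ} (r T Cu : ℝ) (u x x' v y y' : Vc n) (t t' s s' : ℝ), 0 < T → OnT r u x t x' t' →
    OnT r v y s y' s' → ‖x - y‖ ≤ r → |t - s| ≤ r → ‖x' - y'‖ ≤ r → |t' - s'| ≤ r → ‖v‖ ≤ Cu → T ≤ |t - t'| →
    ‖u - v‖ ≤ (4 + 2 * Cu) * r / T
  /-- a transversal tube meets the flat in one point -/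
  pnt : ∀ {n : ℕ} (L : Submodule ℝ (Vc n × ℝ)) (r ρ Δ T Cu : ℝ) (u x x' v y y' : Vc n) (t t' s s' : ℝ),
    0 < ρ → ρ ≤ 1 → OnT r u x t x' t' → OnT r v y s y' s' → ‖x' - y'‖ ≤ r → |t' - s'| ≤ r → ‖u‖ ≤ Cu →
    |s - s'| ≤ T → T * ‖u - v‖ ≤ r → Near L Δ (x - y, t - s) → ¬ Near L ρ (u, 1) →
    |t - s| ≤ (Δ + (5 + Cu) * r) / ρ ∧ ‖x - y‖ ≤ (1 + Cu) * ((Δ + (5 + Cu) * r) / ρ)
  /-- the third point is in the new flat -/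
  mem : ∀ {n : ℕ} (L : Submodule ℝ (Vc n × ℝ)) (b c c' c'' : Vc n × ℝ) (r Δ M : ℝ) (u x x' x'' : Vc n)
    (t t' t'' : ℝ), 1 ≤ M → OnT r u x t x' t' → OnT r u x t x'' t'' → ‖(x, t) - c‖ ≤ r → ‖(x', t') - c'‖ ≤ r →
    ‖(x'', t'') - c''‖ ≤ r → t'' ≠ t → |t' - t| ≤ M * |t'' - t| → Near L Δ (c - b) →
    Near (L ⊔ Submodule.span ℝ {c'' - b}) (2 * M * (Δ + 3 * r)) (c' - b)
  /-- two far points of a tube in the flat put the direction in the flat -/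
  tub : ∀ {n : ℕ} (L : Submodule ℝ (Vc n × ℝ)) (b c c' : Vc n × ℝ) (r Δ T : ℝ) (u x x' : Vc n) (t t' : ℝ),
    0 < T → OnT r u x t x' t' → ‖(x, t) - c‖ ≤ r → ‖(x', t') - c'‖ ≤ r → T ≤ |t - t'| → Near L Δ (c - b) →
    Near L Δ (c' - b) → Near L ((2 * Δ + 3 * r) / T) (u, 1)
  /-- a hyperplane is a plate -/
  plt : ∀ {n : ℕ} (L : Submodule ℝ (Vc n × ℝ)) (b : Vc n × ℝ), 1 ≤ n → Module.finrank ℝ L ≤ n →
    ∃ p : Plt n, ‖p.1‖ = 1 ∧ ∀ (Cu τ Δ : ℝ) (x u : Vc n) (t : ℝ), ‖u‖ ≤ Cu → τ ≤ 1 / 2 → Near L τ (u, 1) →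
      Near L Δ ((x, t) - b) → InP p ((2 * Cu + 2) * τ) ((2 * Cu + 2) * Δ) x t u

/-- **[CS]** one link of the chain -/
def CS (n : ℕ) : Prop := ∀ Cu Cz : ℝ, 1 ≤ Cu → 1 ≤ Cz → ∃ C : ℝ, 1 ≤ C ∧
  ∀ (w s j : ℕ) (e ρ β Δ δ δ' H : ℝ) (Ω : Type) [Fintype Ω] (S : TSys Ω n), Core S w Cu Cz e ρ β → j + 1 ≤ n →
    1 ≤ s → s ≤ w → 0 < ρ → ρ ≤ 1 → 1 ≤ Δ → 0 ≤ e → 0 ≤ β → 0 ≤ δ → 0 ≤ δ' → 2 * (e + C) ≤ δ' * s →
    Chn S j Δ δ H → Chn S (j + 1) (C * 2 ^ s * Δ) (δ + δ')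
      (H + w * Real.log 2 - 4 * e - C * (1 + s + Real.log (Δ / ρ)) - C * (δ + β + δ') * w)

/-- **[CA]** the whole chain -/
def CA (n : ℕ) : Prop := ∀ Cu Cz η : ℝ, 1 ≤ Cu → 1 ≤ Cz → 0 < η → ∃ ε : ℝ, 0 < ε ∧ ∃ w₀ : ℕ,
  ∀ (w : ℕ) (Ω : Type) [Fintype Ω] (S : TSys Ω n), w₀ ≤ w → Core S w Cu Cz (ε * w) (2 ^ (-(ε * w))) ε →
    Chn S n (2 ^ (η * w)) η (n * w * Real.log 2 - η * w)

/-- **[CO]** the plate at one resolution -/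
def CO (n : ℕ) : Prop := ∀ Cu Cz η : ℝ, 1 ≤ Cu → 1 ≤ Cz → 0 < η → ∃ ε : ℝ, 0 < ε ∧ ∃ w₀ : ℕ,
  ∀ (w : ℕ) (Ω : Type) [Fintype Ω] (S : TSys Ω n), w₀ ≤ w → Core S w Cu Cz (ε * w) (2 ^ (-(ε * w))) ε →
    PlEx S (2 ^ (η * w) / 2 ^ w) (2 ^ (η * w)) (η * w) η

/-- the rescaled position -/
def rsx {n : ℕ} (p : Plt n) (A B : ℝ) (x : Vc n) (t : ℝ) : Vc n :=
  A • (x - ⟪p.1, x⟫ • p.1) + (B * (⟪p.1, x⟫ - p.2.1 * t - p.2.2)) • p.1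

/-- the rescaled velocity -/
def rsu {n : ℕ} (p : Plt n) (B : ℝ) (u : Vc n) : Vc n := (u - ⟪p.1, u⟫ • p.1) + (B * (⟪p.1, u⟫ - p.2.1)) • p.1

section sys2

variable {Ω Ω' : Type} [Fintype Ω] [Fintype Ω'] {n : ℕ}

/-- the plate of thickness `h` becomes a cube of side `2 ^ w` -/
def RS (S : TSys Ω n) (pl : S.γ → Plt n) (K w : ℕ) (h : ℝ) : TSys Ω n where
  P := S.P
  α := S.α
  γ := S.γ
  ξ := S.ξ
  z a := (rsx (pl (S.sd a)) (2 ^ (K - w))⁻¹ (2 ^ w / h) (S.z a).1 (S.z a).2, (S.z a).2 / 2 ^ (K - w))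
  sd := S.sd
  u ω := rsu (pl (S.side ω)) (2 ^ K / h) (S.u ω)

/-- the extension by `G`, conditioned on `E` -/
def EX (S : TSys Ω n) (Q : Law Ω') (π : Ω' → Ω) {Γ : Type} (G : Ω' → Γ) (E : Ω' → Prop) : TSys Ω' n where
  P := on Q E
  α := S.α × Γ
  γ := S.γ × Γ
  ξ a := (S.ξ (π a), G a)
  z a := S.z a.1
  sd a := (S.sd a.1, a.2)
  u a := S.u (π a)

open Classical in
/-- the state of the iteration -/
structure St (S : TSys Ω n) {β : Type} (Z : Ω → β) (pl : S.γ → Plt n) (K w lam : ℕ) (Cu Cz h e b H : ℝ) :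
    Prop where
  bnd : S.Bnd Cu
  diam : Diam S (Cz * 2 ^ K)
  cnt : ∀ s, (#((univ.filter fun ω => 0 < S.P.w ω ∧ S.side ω = s).image Z) : ℝ) ≤ 2 ^ (Cz * K)
  unit : ∀ s, ‖(pl s).1‖ = 1
  inp : ∀ ω, 0 < S.P.w ω → InP (pl (S.side ω)) (h / 2 ^ K) h (S.x ω) (S.t ω) (S.u ω)
  up : hc S.P (S.cel 0) S.side ≤ n * K * Real.log 2 + e
  tim : K * Real.log 2 - e ≤ hc S.P (S.tm 0) (fun ω => (S.tub 0 ω, S.side ω))
  dir : ((n : ℝ) - 1) * w * Real.log 2 - e ≤ hc S.P (S.dir w) S.ξ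
  brd : S.Brd (n - 2) lam b
  zz : H - e ≤ hc S.P Z S.side

/-- `S'` refines `S` along `π` -/
structure Ref (S' : TSys Ω' n) (S : TSys Ω n) (π : Ω' → Ω) : Prop where
  pos : ∀ a, 0 < S'.P.w a → 0 < S.P.w (π a)
  x : ∀ a, S'.x a = S.x (π a)
  t : ∀ a, S'.t a = S.t (π a)
  u : ∀ a, S'.u a = S.u (π a)
  sd : ∃ f : S'.γ → S.γ, ∀ a, f (S'.side a) = S.side (π a)

end sys2

/-- **[R1]** the rescaled system, everything except the upper bound -/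
def R1 (n : ℕ) : Prop := ∀ Cu Cz C₀ : ℝ, 1 ≤ Cu → 1 ≤ Cz → 1 ≤ C₀ → ∃ C : ℝ, 1 ≤ C ∧
  ∀ (K w lam : ℕ) (h e b H : ℝ) (Ω : Type) [Fintype Ω] (S : TSys Ω n) (β : Type) (Z : Ω → β) (pl : S.γ → Plt n),
    St S Z pl K w lam Cu Cz h e b H → w ≤ K → 2 ^ w ≤ h → h ≤ C₀ * 2 ^ K →
    (RS S pl K w h).Bnd (Cu + 1) ∧ Diam (RS S pl K w h) ((Cz + 2) * 2 ^ w) ∧
    w * Real.log 2 - e - C ≤ hc S.P ((RS S pl K w h).tm 0) (fun ω => ((RS S pl K w h).tub 0 ω, S.side ω)) ∧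
    ((n : ℝ) - 1) * w * Real.log 2 - e - C ≤ hc S.P ((RS S pl K w h).dir w) S.ξ ∧
    BrdL (RS S pl K w h) (n - 1) ((2 ^ lam)⁻¹ / C) b

/-- **[R2]** the rescaled system, the upper bound -/
def R2 (n : ℕ) : Prop := ∀ Cu Cz C₀ ε : ℝ, 1 ≤ Cu → 1 ≤ Cz → 1 ≤ C₀ → 0 < ε → ∃ ε' : ℝ, 0 < ε' ∧ ∃ (n₀ : ℕ) (C : ℝ),
  ∀ (K w lam : ℕ) (h e b H : ℝ) (Ω : Type) [Fintype Ω] (S : TSys Ω n) (β : Type) (Z : Ω → β) (pl : S.γ → Plt n),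
    St S Z pl K w lam Cu Cz h e b H → w + n₀ ≤ K → 2 ^ w ≤ h → h ≤ C₀ * 2 ^ K → (lam : ℝ) ≤ ε' * ((K : ℝ) - w) →
    b ≤ ε' → hc S.P ((RS S pl K w h).cel 0) S.side ≤ n * w * Real.log 2 + (n + 1) * e + ε * K + C

/-- **[BK]** the new plate in the old coordinates -/
def BK : Prop := ∀ (n K w : ℕ) (p p' : Plt n) (h τ m : ℝ), ‖p.1‖ = 1 → ‖p'.1‖ = 1 → w ≤ K → 0 < h → 0 < τ →
  τ ≤ 1 / 2 → 0 ≤ m → m / 2 ^ w ≤ τ → ∃ (q : Plt n) (L : Submodule ℝ (Vc n × ℝ)), ‖q.1‖ = 1 ∧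
    Module.finrank ℝ L ≤ n - 1 ∧ ∀ (x u : Vc n) (t : ℝ), InP p (h / 2 ^ K) h x t u →
      InP p' (m / 2 ^ w) m (rsx p (2 ^ (K - w))⁻¹ (2 ^ w / h) x t) (t / 2 ^ (K - w)) (rsu p (2 ^ K / h) u) →
      InP q (m * h / (τ * 2 ^ w) / 2 ^ K) (m * h / (τ * 2 ^ w)) x t u ∨ Near L (6 * τ) (u, 1)

/-- **[CD]** extension and conditioning keep the state -/
def CD (n : ℕ) : Prop := ∀ Cu Cz : ℝ, 1 ≤ Cu → 1 ≤ Cz → ∃ C : ℝ, 1 ≤ C ∧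
  ∀ (K w lam : ℕ) (h h' e b H I δ : ℝ) (Ω Ω' : Type) [Fintype Ω] [Fintype Ω'] (S : TSys Ω n) (β : Type) (Z : Ω → β)
    (pl : S.γ → Plt n) (Q : Law Ω') (π : Ω' → Ω) (Γ : Type) (G : Ω' → Γ) (E : Ω' → Prop) (A : Type) (F : S.α → A)
    (pl' : S.γ × Γ → Plt n), St S Z pl K w lam Cu Cz h e b H → w ≤ K → 1 ≤ K → 0 ≤ e → 0 ≤ δ → δ ≤ 1 / 2 →
    CI Q π S.P (fun ω => F (S.ξ ω)) G → mi Q π G (fun a => S.side (π a)) ≤ I → prE Q (fun a => ¬ E a) ≤ δ →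
    (∀ s, ‖(pl' s).1‖ = 1) →
    (∀ a, 0 < Q.w a → E a → InP (pl' (S.side (π a), G a)) (h' / 2 ^ K) h' (S.x (π a)) (S.t (π a)) (S.u (π a))) →
    Ref (EX S Q π G E) S π ∧
      St (EX S Q π G E) (fun a => Z (π a)) pl' K w lam Cu Cz h' (2 * e + I + 1 + C * δ * K) (2 * b) H

/-- **[SP]** one step of the iteration -/
def SP (n : ℕ) : Prop := ∀ Cu Cz C₀ θ η : ℝ, 1 ≤ Cu → 1 ≤ Cz → 1 ≤ C₀ → 0 < θ → 0 < η → ∃ ε : ℝ, 0 < ε ∧ ∃ K₀ : ℕ,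
  ∀ (K w lam : ℕ) (h H : ℝ) (Ω : Type) [Fintype Ω] (S : TSys Ω n) (β : Type) (Z : Ω → β) (pl : S.γ → Plt n),
    K₀ ≤ K → θ * K ≤ w → 2 * w ≤ K → (lam : ℝ) ≤ ε * K → 2 ^ w ≤ h → h ≤ C₀ * 2 ^ K →
    St S Z pl K w lam Cu Cz h (ε * K) ε H →
    ∃ (Ω' : Type) (_ : Fintype Ω') (S' : TSys Ω' n) (π : Ω' → Ω) (pl' : S'.γ → Plt n), Ref S' S π ∧
      St S' (fun a => Z (π a)) pl' K w lam Cu Cz (h / 2 ^ ((w : ℝ) / 2)) (η * K) η H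

open Classical in
/-- **[IN]** the first state -/
def IN (n : ℕ) : Prop := ∀ Cu Cz : ℝ, 1 ≤ Cu → 1 ≤ Cz → ∃ C : ℝ, 1 ≤ C ∧
  ∀ (K w w' lam : ℕ) (e : ℝ) (Ω : Type) [Fintype Ω] (S : TSys Ω n) (β : Type) (Z : Ω → β), w' ≤ w → lam ≤ w →
    0 ≤ e → S.Bnd Cu → Diam S (Cz * 2 ^ K) →
    (∀ s, (#((univ.filter fun ω => 0 < S.P.w ω ∧ S.side ω = s).image Z) : ℝ) ≤ 2 ^ (Cz * K)) →
    hc S.P (S.cel 0) S.side ≤ n * K * Real.log 2 + e →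
    K * Real.log 2 - e ≤ hc S.P (S.tm 0) (fun ω => (S.tub 0 ω, S.side ω)) →
    (∀ y ≤ w, ∀ a q, S.P.pr (fun ω => (S.ξ ω, S.dir y ω)) (a, q) ≤
      Real.exp e / 2 ^ ((n - 1) * y) * S.P.pr S.ξ a) →
    ∃ pl : S.γ → Plt n, St S Z pl K w' lam Cu Cz ((Cu + Cz) * 2 ^ K) e (C * Real.exp e / 2 ^ lam) (hc S.P Z S.side)

/-- the rows -/
structure Rows : Prop where
  ta : TA
  tc : TC
  tf : TF
  lt : TA → TC → TF → LT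
  ls : TA → TC → LS
  la : TA → TC → LT → LS → ∀ k, StLW k
  pj : TA → TC → CG → ∀ k, StPJ k
  cg : CG
  cs : TA → TC → CG → ∀ n, CS n
  ca : TA → TC → ∀ n, CS n → CA n
  co : TA → TC → CG → ∀ n, 1 ≤ n → CA n → CO n
  r1 : TA → TF → ∀ n, 2 ≤ n → R1 n
  r2 : TA → ∀ n, 2 ≤ n → StLW n → R2 n
  bk : BK
  cd : TA → TC → ∀ n, CD n
  sp : TA → TC → TF → BK → ∀ n, 2 ≤ n → CO n → R1 n → R2 n → CD n → SP n
  ini : TA → TF → ∀ n, 2 ≤ n → IN n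
  fin : TA → ∀ n, 2 ≤ n → SP n → IN n → StPLAN n

theorem Rows.lw (h : Rows) (k : ℕ) : StLW k := h.la h.ta h.tc (h.lt h.ta h.tc h.tf) (h.ls h.ta h.tc) k

theorem Rows.pj' (h : Rows) (k : ℕ) : StPJ k := h.pj h.ta h.tc h.cg k

theorem Rows.plan (h : Rows) (n : ℕ) (hn : 2 ≤ n) (hl : StLW n) : StPLAN n :=
  h.fin h.ta n hn (h.sp h.ta h.tc h.tf h.bk n hn
    (h.co h.ta h.tc h.cg n (by omega) (h.ca h.ta h.tc n (h.cs h.ta h.tc h.cg n))) (h.r1 h.ta h.tf n hn)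
    (h.r2 h.ta n hn hl) (h.cd h.ta h.tc n)) (h.ini h.ta h.tf n hn)

end

end Vale.Agent.P076N.TB
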