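import Vale.Agent.P076N.TB.Ta1

/-!
# P076N / TB : counting tools, `ta : TA`
-/

set_option linter.all false

open Finset Vale.Agent.P127 Vale.Agent.P127.Stk
open scoped RealInnerProductSpace

namespace Vale.Agent.P076N.TB

noncomputable section

namespace TAx

variable {Ω : Type} [Fintype Ω]

theorem por (P : Law Ω) (E E₁ E₂ : Ω → Prop) (h : ∀ ω, 0 < P.w ω → E ω → E₁ ω ∨ E₂ ω) :
    prE P E ≤ prE P E₁ + prE P E₂ := by
  classical
  unfold prE
  rw [Finset.sum_filter, Finset.sum_filter, Finset.sum_filter, ← Finset.sum_add_distrib]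
  refine Finset.sum_le_sum fun ω _ => ?_
  have h0 := P.nn ω
  rcases h0.eq_or_lt with h1 | h1
  · rw [← h1]
    simp
  · by_cases a : E ω
    · rcases h ω h1 a with b | b
      · rw [if_pos a, if_pos b]
        split_ifs <;> linarith
      · rw [if_pos a, if_pos b]
        split_ifs <;> linarith
    · rw [if_neg a]
      split_ifs <;> linarith

theorem pmo (P : Law Ω) (E E' : Ω → Prop) (h : ∀ ω, 0 < P.w ω → E ω → E' ω) : prE P E ≤ prE P E' := by
  have h1 := por P E E' (fun _ => False) fun ω a b => Or.inl (h ω a b)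
  have h2 : prE P (fun _ => False) = 0 := by simp [prE]
  linarith

lemma half {P : Law Ω} {E : Ω → Prop} {δ : ℝ} (hδ : δ ≤ 1 / 2) (h : prE P (fun ω => ¬ E ω) ≤ δ) :
    0 ≤ δ ∧ 1 - δ ≤ prE P E ∧ 0 < prE P E := by
  have h0 := prE_nonneg P (fun ω => ¬ E ω)
  rw [prE_not] at h h0
  exact ⟨by linarith, by linarith, by linarith⟩

theorem ons (P : Law Ω) (E : Ω → Prop) (ω : Ω) (h : prE P (fun ω => ¬ E ω) ≤ 1 / 2)
    (hω : 0 < (on P E).w ω) : E ω ∧ 0 < P.w ω := on_pos (half le_rfl h).2.2 hω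

theorem onu (P : Law Ω) (E : Ω → Prop) {S T : Type} (X : Ω → S) (Y : Ω → T) (δ : ℝ)
    (hδ : δ ≤ 1 / 2) (h : prE P (fun ω => ¬ E ω) ≤ δ) : hc (on P E) X Y ≤ (1 + 2 * δ) * hc P X Y := by
  obtain ⟨h0, h1, _⟩ := half hδ h
  have h2 := (Dom.on (p := 1 - δ) (by linarith) h1).hc_le X Y
  have h3 : 1 / (1 - δ) ≤ 1 + 2 * δ := by
    rw [div_le_iff₀ (by linarith)]
    nlinarith
  exact le_trans h2 (mul_le_mul_of_nonneg_right h3 (hc_nonneg P X Y))

theorem onp (P : Law Ω) (E E' : Ω → Prop) (h : prE P (fun ω => ¬ E ω) ≤ 1 / 2) :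
    prE (on P E) E' ≤ 2 * prE P E' := by
  classical
  obtain ⟨_, h1, h2⟩ := half le_rfl h
  unfold prE
  rw [Finset.mul_sum]
  refine Finset.sum_le_sum fun ω _ => ?_
  rw [on_w h2]
  have h0 := P.nn ω
  split_ifs
  · rw [div_le_iff₀ h2]
    nlinarith
  · linarith

theorem onl (P : Law Ω) (E : Ω → Prop) {S T : Type} (X : Ω → S) (Y : Ω → T) (N δ : ℝ)
    (hδ : δ ≤ 1 / 2) (h : prE P (fun ω => ¬ E ω) ≤ δ) (hc' : Cnt P (fun _ => True) X Y N) :
    hc P X Y - Real.log 2 - δ * Real.log N ≤ hc (on P E) X Y := by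
  classical
  obtain ⟨h0, h1, h2⟩ := half hδ h
  have hN := Real.log_nonneg (cnt_one_le P X Y N hc')
  have hl : 0 ≤ Real.log 2 := Real.log_nonneg (by norm_num)
  have hδN := mul_nonneg h0 hN
  rcases (prE_le_one P E).eq_or_lt with h3 | h3
  · have : on P E = P := by
      refine law_ext fun ω => ?_
      rw [on_w h2, h3, div_one]
      split_ifs with a
      · rfl
      · have h4 : prE P (fun ω => ¬ E ω) = 0 := by rw [prE_not, h3, sub_self]
        unfold prE at h4
        have h5 := (Finset.sum_eq_zero_iff_of_nonneg fun i _ => P.nn i).1 h4 ω (by simpa using a)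
        exact h5.symm
    rw [this]
    linarith
  · have h4 := hc_le_on P E h2 h3 X Y
    have h5 : 0 < prE P (fun ω => ¬ E ω) := by rw [prE_not]; linarith
    have h6 : hc (on P fun ω => ¬ E ω) X Y ≤ Real.log N := by
      refine one _ X Y N fun ω hω _ => ?_
      obtain ⟨F, hF, hm⟩ := hc' ω (on_pos h5 hω).2 trivial
      exact ⟨F, hF, fun ω' hω' _ e => hm ω' (on_pos h5 hω').2 trivial e⟩
    have h7 := hc_nonneg (on P E) X Y
    have h8 : (1 - prE P E) * hc (on P fun ω => ¬ E ω) X Y ≤ δ * Real.log N :=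
      mul_le_mul (by linarith) h6 (hc_nonneg _ X Y) h0
    nlinarith

/-- the coordinates with index at least `m` -/
def tl {r : ℕ} (A : Fin r → Ω → ℤ) (m : ℕ) (ω : Ω) : Fin r → ℤ := fun i => if m ≤ (i : ℕ) then A i ω else 0

lemma tl_step (P : Law Ω) {r : ℕ} {T : Type} (A : Fin r → Ω → ℤ) (G : Ω → T) (j : Fin r) :
    hc P (tl A j) G = hc P (tl A (j + 1)) G + hc P (A j) (fun ω => (tl A (j + 1) ω, G ω)) := by
  rw [← hc_pair]
  refine hc_congr P ?_ ?_ (fun _ _ _ _ h => h) (fun _ _ _ _ h => h)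
  · intro ω ω' _ _ h
    have h1 := (Prod.mk.inj (Prod.mk.inj h).1).1
    have h2 := (Prod.mk.inj (Prod.mk.inj h).1).2
    funext i
    have h3 := congrFun h1 i
    unfold tl at h3 ⊢
    by_cases a : (j : ℕ) + 1 ≤ i
    · rw [if_pos a, if_pos a] at h3
      rw [if_pos (by omega), if_pos (by omega), h3]
    · by_cases b : (j : ℕ) ≤ i
      · have : i = j := Fin.ext (by omega)
        rw [if_pos b, if_pos b, this, h2]
      · rw [if_neg b, if_neg b]
  · intro ω ω' _ _ h
    have h1 := (Prod.mk.inj h).1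
    refine Prod.ext ?_ ?_
    · funext i
      have h3 := congrFun h1 i
      show tl A (j + 1) ω i = tl A (j + 1) ω' i
      unfold tl at h3 ⊢
      by_cases a : (j : ℕ) + 1 ≤ i
      · rw [if_pos (by omega), if_pos (by omega)] at h3
        rw [if_pos a, if_pos a, h3]
      · rw [if_neg a, if_neg a]
    · have h3 := congrFun h1 j
      unfold tl at h3
      rw [if_pos le_rfl, if_pos le_rfl] at h3
      exact h3

lemma tl_sum (P : Law Ω) {r : ℕ} {T : Type} (A : Fin r → Ω → ℤ) (G : Ω → T) :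
    ∑ j : Fin r, hc P (A j) (fun ω => (tl A (j + 1) ω, G ω)) = hc P (fun ω j => A j ω) G := by
  have h1 : ∀ j : Fin r, hc P (A j) (fun ω => (tl A (j + 1) ω, G ω)) =
      (fun m => hc P (tl A m) G - hc P (tl A (m + 1)) G) (j : ℕ) := by
    intro j
    have := tl_step P A G j
    simp only
    linarith
  rw [Finset.sum_congr rfl fun j _ => h1 j,
    Fin.sum_univ_eq_sum_range (fun m => hc P (tl A m) G - hc P (tl A (m + 1)) G) r,
    Finset.sum_range_sub' (fun m => hc P (tl A m) G) r]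
  have h2 : hc P (tl A r) G = 0 := hc_zero P fun ω ω' _ _ _ => by
    funext i
    unfold tl
    rw [if_neg (by omega), if_neg (by omega)]
  have h3 : tl A 0 = fun ω j => A j ω := by
    funext ω i
    unfold tl
    rw [if_pos (Nat.zero_le _)]
  rw [h2, h3, sub_zero]

theorem han (P : Law Ω) {r : ℕ} {S T U V : Type} (X : Ω → S) (G : Ω → T)
    (A : Fin r → Ω → ℤ) (W : Fin r → Ω → U) (Z : Fin r → Ω → V) (c : ℝ) (d e : Fin r → ℝ)
    (h1 : hc P (fun ω j => A j ω) (fun ω => (X ω, G ω)) ≤ c)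
    (h2 : ∀ j, hc P (fun ω => ((fun i => if j < i then A i ω else 0 : Fin r → ℤ), G ω)) (W j) ≤ d j)
    (h3 : ∀ j, hc P (Z j) (fun ω => (A j ω, W j ω)) ≤ e j) :
    ∑ j, hc P (Z j) (W j) ≤ hc P X G + c + ∑ j, (d j + e j) := by
  have a1 := hc_le_add P (fun ω j => A j ω) X G
  have a2 := tl_sum P A G
  have a3 : ∀ j : Fin r, hc P (Z j) (W j) ≤
      hc P (A j) (fun ω => (tl A (j + 1) ω, G ω)) + (d j + e j) := by
    intro j
    have b1 := hc_le_add P (Z j) (A j) (W j)
    have b2 := hc_le_add' P (A j) (fun ω => (tl A (j + 1) ω, G ω)) (W j)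
    have b3 : hc P (A j) (fun ω => ((tl A (j + 1) ω, G ω), W j ω)) ≤
        hc P (A j) (fun ω => (tl A (j + 1) ω, G ω)) :=
      hc_mono_right P _ fun _ _ _ _ h => (Prod.mk.inj h).1
    have b4 : (fun ω => (tl A (j + 1) ω, G ω)) =
        fun ω => ((fun i => if j < i then A i ω else 0 : Fin r → ℤ), G ω) := by
      funext ω
      refine Prod.ext ?_ rfl
      funext i
      show (if (j : ℕ) + 1 ≤ (i : ℕ) then A i ω else 0) = if j < i then A i ω else 0
      by_cases a : j < i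
      · rw [if_pos a, if_pos (Nat.succ_le_of_lt a)]
      · rw [if_neg a, if_neg fun b => a (Nat.lt_of_succ_le b)]
    have b5 := h2 j
    rw [← b4] at b5
    have b6 := h3 j
    linarith
  have a4 := Finset.sum_le_sum fun j (_ : j ∈ (univ : Finset (Fin r))) => a3 j
  rw [Finset.sum_add_distrib] at a4
  linarith

end TAx

theorem ta : TA where
  flr := fun P E _ V Y r lam => TAx.flr P E V Y r lam
  flv := fun P E _ _ V Y r lam => TAx.flv' P E V Y r lam
  cel := fun P E _ _ V t Y r lam => TAx.cel P E V t Y r lam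
  clv := fun r a b => TAx.clv r a b
  clr := TAx.clr
  crn := fun r a => TAx.crn r a
  upr := TAx.upr
  one := fun P _ _ X Y N => TAx.one P X Y N
  two := fun P E _ _ X Y N N' => TAx.two P E X Y N N'
  exc := fun P E _ _ X Y N N' δ => TAx.exc P E X Y N N' δ
  fano := fun P _ t t' Y r A e w s => TAx.fano P t t' Y r A e w s
  pmo := fun P E E' => TAx.pmo P E E'
  por := fun P E E₁ E₂ => TAx.por P E E₁ E₂
  onl := fun P E _ _ X Y N δ => TAx.onl P E X Y N δ
  onu := fun P E _ _ X Y δ => TAx.onu P E X Y δ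
  onp := fun P E E' => TAx.onp P E E'
  ons := fun P E ω => TAx.ons P E ω
  han := fun P _ _ _ _ _ X G A W Z c d e => TAx.han P X G A W Z c d e

end

end Vale.Agent.P076N.TB
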