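import Vale.Agent.P076N.TB.Spec

/-!
# P076N / TB : counting tools, first part
-/

set_option linter.all false

open Finset Vale.Agent.P127 Vale.Agent.P127.Stk
open scoped RealInnerProductSpace

namespace Vale.Agent.P076N.TB.TAx

noncomputable section

variable {Ω : Type} [Fintype Ω]

lemma flr_mem {a b r lam : ℝ} (hr : 0 < r) (h : |a - b| ≤ lam * r) :
    ⌊a / r⌋ ∈ Finset.Icc ⌊b / r - lam⌋ ⌊b / r + lam⌋ := by
  have h1 := abs_le.1 h
  rw [Finset.mem_Icc]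
  constructor
  · apply Int.floor_mono
    rw [sub_le_iff_le_add, div_le_iff₀ hr, add_mul, div_mul_cancel₀ _ hr.ne']
    linarith [h1.1]
  · apply Int.floor_mono
    rw [div_le_iff₀ hr, add_mul, div_mul_cancel₀ _ hr.ne']
    linarith [h1.2]

lemma icc_card (x lam : ℝ) (h : 0 ≤ lam) : (#(Finset.Icc ⌊x - lam⌋ ⌊x + lam⌋) : ℝ) ≤ 2 * lam + 3 := by
  rw [Int.card_Icc]
  have h1 := Int.floor_le (x + lam)
  have h2 := Int.lt_floor_add_one (x - lam)
  have h3 : (⌊x - lam⌋ : ℤ) ≤ ⌊x + lam⌋ := Int.floor_mono (by linarith)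
  have h4 : (((⌊x + lam⌋ + 1 - ⌊x - lam⌋).toNat : ℤ) : ℝ) = ((⌊x + lam⌋ + 1 - ⌊x - lam⌋ : ℤ) : ℝ) := by
    rw [Int.toNat_of_nonneg (by omega)]
  push_cast at h4
  linarith

lemma coord_le {k : ℕ} (v : Vc k) (l : Fin k) : |v l| ≤ ‖v‖ := by
  have := PiLp.norm_apply_le v l
  simpa [Real.norm_eq_abs] using this

lemma norm_le_of {k : ℕ} (v : Vc k) (r : ℝ) (hr : 0 ≤ r) (h : ∀ l, |v l| ≤ r) : ‖v‖ ≤ k * r := by
  rw [EuclideanSpace.norm_eq]
  have h1 : ∑ l, ‖v l‖ ^ 2 ≤ (k * r) ^ 2 := by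
    calc ∑ l, ‖v l‖ ^ 2 ≤ ∑ _l : Fin k, r ^ 2 := Finset.sum_le_sum fun l _ => by
          rw [Real.norm_eq_abs]
          exact pow_le_pow_left₀ (abs_nonneg _) (h l) 2
      _ = k * r ^ 2 := by simp
      _ ≤ (k * r) ^ 2 := by
          rw [mul_pow]
          refine mul_le_mul_of_nonneg_right ?_ (sq_nonneg r)
          rcases Nat.eq_zero_or_pos k with h0 | h0
          · simp [h0]
          · have : (1 : ℝ) ≤ k := by exact_mod_cast h0
            nlinarith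
  calc √(∑ l, ‖v l‖ ^ 2) ≤ √((k * r) ^ 2) := Real.sqrt_le_sqrt h1
    _ = k * r := Real.sqrt_sq (by positivity)

theorem flr (P : Law Ω) (E : Ω → Prop) {T : Type} (V : Ω → ℝ) (Y : Ω → T) (r lam : ℝ) (hr : 0 < r)
    (h : ∀ ω ω', 0 < P.w ω → 0 < P.w ω' → E ω → E ω' → Y ω = Y ω' → |V ω - V ω'| ≤ lam * r) :
    Cnt P E (fun ω => ⌊V ω / r⌋) Y (2 * lam + 3) := by
  intro ω hω hE
  have h0 : 0 ≤ lam := by
    have := h ω ω hω hω hE hE rfl
    rw [sub_self, abs_zero] at this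
    exact nonneg_of_mul_nonneg_left this hr
  exact ⟨Finset.Icc ⌊V ω / r - lam⌋ ⌊V ω / r + lam⌋, icc_card _ _ h0,
    fun ω' hω' hE' e => flr_mem hr (h ω' ω hω' hω hE' hE e)⟩

theorem flv' (P : Law Ω) (E : Ω → Prop) {T : Type} {k : ℕ} (V : Ω → Vc k) (Y : Ω → T) (r lam : ℝ)
    (hr : 0 < r) (h : ∀ ω ω', 0 < P.w ω → 0 < P.w ω' → E ω → E ω' → Y ω = Y ω' → ‖V ω - V ω'‖ ≤ lam * r) :
    Cnt P E (fun ω => flv r (V ω)) Y ((2 * lam + 3) ^ k) := by
  classical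
  intro ω hω hE
  have h0 : 0 ≤ lam := by
    have := h ω ω hω hω hE hE rfl
    rw [sub_self, norm_zero] at this
    exact nonneg_of_mul_nonneg_left this hr
  refine ⟨Fintype.piFinset fun l => Finset.Icc ⌊V ω l / r - lam⌋ ⌊V ω l / r + lam⌋, ?_, ?_⟩
  · rw [Fintype.card_piFinset]
    push_cast
    calc ∏ l, (#(Finset.Icc ⌊V ω l / r - lam⌋ ⌊V ω l / r + lam⌋) : ℝ) ≤ ∏ _l : Fin k, (2 * lam + 3) :=
          Finset.prod_le_prod (fun _ _ => by positivity) fun l _ => icc_card _ _ h0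
      _ = (2 * lam + 3) ^ k := by simp
  · intro ω' hω' hE' e
    rw [Fintype.mem_piFinset]
    intro l
    refine flr_mem hr ?_
    have h1 := coord_le (V ω' - V ω) l
    rw [PiLp.sub_apply] at h1
    exact h1.trans (h ω' ω hω' hω hE' hE e)

theorem cnt_pair (P : Law Ω) (E : Ω → Prop) {S S' T : Type} (X : Ω → S) (X' : Ω → S') (Y : Ω → T) (N N' : ℝ)
    (h : Cnt P E X Y N) (h' : Cnt P E X' Y N') : Cnt P E (fun ω => (X ω, X' ω)) Y (N * N') := by
  intro ω hω hE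
  obtain ⟨F, hF, hm⟩ := h ω hω hE
  obtain ⟨F', hF', hm'⟩ := h' ω hω hE
  refine ⟨F ×ˢ F', ?_, fun ω' hω' hE' e => Finset.mem_product.2 ⟨hm ω' hω' hE' e, hm' ω' hω' hE' e⟩⟩
  rw [Finset.card_product]
  push_cast
  exact mul_le_mul hF hF' (by positivity) (le_trans (by positivity) hF)

theorem cel (P : Law Ω) (E : Ω → Prop) {T : Type} {k : ℕ} (V : Ω → Vc k) (t : Ω → ℝ)
    (Y : Ω → T) (r lam : ℝ) (hr : 0 < r) (h : ∀ ω ω', 0 < P.w ω → 0 < P.w ω' → E ω → E ω' → Y ω = Y ω' →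
      ‖V ω - V ω'‖ ≤ lam * r ∧ |t ω - t ω'| ≤ lam * r) :
    Cnt P E (fun ω => (flv r (V ω), ⌊t ω / r⌋)) Y ((2 * lam + 3) ^ (k + 1)) := by
  rw [pow_succ]
  exact cnt_pair P E _ _ Y _ _ (flv' P E V Y r lam hr fun a b c d e f g => (h a b c d e f g).1)
    (flr P E t Y r lam hr fun a b c d e f g => (h a b c d e f g).2)

theorem clr (r a b : ℝ) (hr : 0 < r) (h : ⌊a / r⌋ = ⌊b / r⌋) : |a - b| ≤ r := by
  have h1 := Int.abs_sub_lt_one_of_floor_eq_floor h
  rw [← sub_div, abs_div, abs_of_pos hr, div_lt_one hr] at h1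
  exact h1.le

theorem clv {k : ℕ} (r : ℝ) (a b : Vc k) (hr : 0 < r) (h : flv r a = flv r b) : ‖a - b‖ ≤ k * r :=
  norm_le_of _ r hr.le fun l => by
    rw [PiLp.sub_apply]
    exact clr r _ _ hr (congrFun h l)

theorem crn {k : ℕ} (r : ℝ) (a : Vc k) (hr : 0 < r) : ‖a - r • toV (flv r a)‖ ≤ k * r :=
  norm_le_of _ r hr.le fun l => by
    have h1 := Int.floor_le (a l / r)
    have h2 := Int.lt_floor_add_one (a l / r)
    rw [le_div_iff₀ hr] at h1
    rw [div_lt_iff₀ hr] at h2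
    have h3 : (a - r • toV (flv r a)) l = a l - r * (⌊a l / r⌋ : ℝ) := by
      simp [toV, flv]
    rw [h3, abs_le]
    constructor <;> nlinarith

theorem upr (p q : ℕ) (a b : ℝ) (hpq : p ≤ q) (h : ⌊a / 2 ^ p⌋ = ⌊b / 2 ^ p⌋) :
    ⌊a / 2 ^ q⌋ = ⌊b / 2 ^ q⌋ := by
  obtain ⟨d, rfl⟩ := Nat.exists_eq_add_of_le hpq
  have key : ∀ x : ℝ, ⌊x / 2 ^ (p + d)⌋ = ⌊x / 2 ^ p⌋ / ((2 ^ d : ℕ) : ℤ) := by
    intro x
    rw [← Int.floor_div_natCast, pow_add, ← div_div]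
    push_cast
    rfl
  rw [key, key, h]

theorem cnt_one_le (P : Law Ω) {S T : Type} (X : Ω → S) (Y : Ω → T) (N : ℝ)
    (h : Cnt P (fun _ => True) X Y N) : 1 ≤ N := by
  have : ∃ ω, 0 < P.w ω := by
    by_contra hc
    push Not at hc
    have h1 : ∑ ω, P.w ω ≤ 0 := Finset.sum_nonpos fun ω _ => hc ω
    rw [P.sum_one] at h1
    linarith
  obtain ⟨ω, hω⟩ := this
  obtain ⟨F, hF, hm⟩ := h ω hω trivial
  have h2 : 1 ≤ #F := Finset.card_pos.2 ⟨_, hm ω hω trivial rfl⟩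
  have h3 : (1 : ℝ) ≤ #F := by exact_mod_cast h2
  linarith

theorem one (P : Law Ω) {S T : Type} (X : Ω → S) (Y : Ω → T) (N : ℝ)
    (h : Cnt P (fun _ => True) X Y N) : hc P X Y ≤ Real.log N := by
  have h1 := cnt_one_le P X Y N h
  have h2 := hc_le_log P X Y ⌊N⌋₊ fun ω hω => by
    obtain ⟨F, hF, hm⟩ := h ω hω trivial
    exact ⟨F, Nat.le_floor hF, fun ω' hω' e => hm ω' hω' trivial e⟩
  refine h2.trans (Real.log_le_log ?_ (Nat.floor_le (by linarith)))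
  have : 1 ≤ ⌊N⌋₊ := Nat.le_floor (by exact_mod_cast h1)
  exact_mod_cast this

lemma cnt_choose (P : Law Ω) (E : Ω → Prop) {S T : Type} (X : Ω → S) (Y : Ω → T) (N : ℝ) (hN : 0 ≤ N)
    (h : Cnt P E X Y N) : ∃ F : T → Finset S, (∀ y, (#(F y) : ℝ) ≤ N) ∧
      ∀ ω, 0 < P.w ω → E ω → X ω ∈ F (Y ω) := by
  have : ∀ y : T, ∃ F : Finset S, (#F : ℝ) ≤ N ∧ ∀ ω, 0 < P.w ω → E ω → Y ω = y → X ω ∈ F := by
    intro y
    by_cases hy : ∃ ω, 0 < P.w ω ∧ E ω ∧ Y ω = y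
    · obtain ⟨ω, h1, h2, rfl⟩ := hy
      exact h ω h1 h2
    · exact ⟨∅, by simpa using hN, fun ω h1 h2 h3 => absurd ⟨ω, h1, h2, h3⟩ hy⟩
  choose F hF hm using this
  exact ⟨F, hF, fun ω h1 h2 => hm _ ω h1 h2 rfl⟩

open Classical in
lemma prE_ex (P : Law Ω) (E : Ω → Prop) (a b : ℝ) :
    P.ex (fun ω => if E ω then a else b) = prE P E * a + (1 - prE P E) * b := by
  rw [← prE_not]
  unfold prE Law.ex
  rw [Finset.sum_filter, Finset.sum_filter, Finset.sum_mul, Finset.sum_mul, ← Finset.sum_add_distrib]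
  refine Finset.sum_congr rfl fun ω _ => ?_
  by_cases h : E ω <;> simp [h]

lemma sum_ind_le {S : Type} [DecidableEq S] (F G : Finset S) (N : ℝ) (hN : 1 ≤ N) (h : (#G : ℝ) ≤ N) :
    ∑ x ∈ F, (if x ∈ G then 1 / N else 0) ≤ 1 := by
  rw [← Finset.sum_filter, Finset.sum_const, nsmul_eq_mul, mul_one_div, div_le_one (by linarith)]
  refine le_trans ?_ h
  exact_mod_cast Finset.card_le_card fun x hx => (Finset.mem_filter.1 hx).2

theorem two (P : Law Ω) (E : Ω → Prop) {S T : Type} (X : Ω → S) (Y : Ω → T) (N N' : ℝ)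
    (hN : 1 ≤ N) (hN' : 1 ≤ N') (h : Cnt P E X Y N) (h' : Cnt P (fun ω => ¬ E ω) X Y N') :
    hc P X Y ≤ Real.log 2 + prE P E * Real.log N + (1 - prE P E) * Real.log N' := by
  classical
  obtain ⟨F, hF, hm⟩ := cnt_choose P E X Y N (by linarith) h
  obtain ⟨F', hF', hm'⟩ := cnt_choose P _ X Y N' (by linarith) h'
  have hp : 0 < 1 / N := by positivity
  have hp' : 0 < 1 / N' := by positivity
  have hq : ∀ x y, (0 : ℝ) ≤ (if x ∈ F y then 1 / N else 0) ∧ (0 : ℝ) ≤ (if x ∈ F' y then 1 / N' else 0) := by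
    intro x y
    constructor <;> split_ifs <;> positivity
  have hlow : ∀ ω, 0 < P.w ω → 1 / (2 * (if E ω then N else N')) ≤
      ((if X ω ∈ F (Y ω) then 1 / N else 0) + (if X ω ∈ F' (Y ω) then 1 / N' else 0)) / 2 := by
    intro ω hω
    by_cases hE : E ω
    · rw [if_pos hE, if_pos (hm ω hω hE)]
      have := (hq (X ω) (Y ω)).2
      have e : 1 / (2 * N) = 1 / N / 2 := by field_simp
      rw [e]
      linarith
    · rw [if_neg hE, if_pos (hm' ω hω hE)]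
      have := (hq (X ω) (Y ω)).1
      have e : 1 / (2 * N') = 1 / N' / 2 := by field_simp
      rw [e]
      linarith
  have hpos : ∀ ω, 0 < 1 / (2 * (if E ω then N else N')) := by
    intro ω
    split_ifs <;> positivity
  have hg := P.gibbs_cond X Y
    (fun x y => ((if x ∈ F y then 1 / N else 0) + (if x ∈ F' y then 1 / N' else 0)) / 2)
    (fun x y => by have := hq x y; linarith [this.1, this.2]) (fun y G => by
      rw [← Finset.sum_div, Finset.sum_add_distrib]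
      have h1 := sum_ind_le G (F y) N hN (hF y)
      have h2 := sum_ind_le G (F' y) N' hN' (hF' y)
      linarith) (fun ω hω => (hpos ω).trans_le (hlow ω hω))
  refine le_trans (hg : hc P X Y ≤ _) ?_
  have h3 : Real.log 2 + prE P E * Real.log N + (1 - prE P E) * Real.log N' =
      P.ex (fun ω => if E ω then Real.log 2 + Real.log N else Real.log 2 + Real.log N') := by
    rw [prE_ex]
    ring
  rw [h3]
  refine P.ex_mono fun ω hω => ?_
  have h4 := Real.log_le_log (hpos ω) (hlow ω hω)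
  refine le_trans (neg_le_neg h4) (le_of_eq ?_)
  rw [one_div, Real.log_inv, neg_neg]
  split_ifs
  · rw [Real.log_mul (by norm_num) (by linarith)]
  · rw [Real.log_mul (by norm_num) (by linarith)]

theorem cnt_mono (P : Law Ω) {E E' : Ω → Prop} {S T : Type} {X : Ω → S} {Y : Ω → T} {N : ℝ}
    (h : Cnt P E X Y N) (hE : ∀ ω, E' ω → E ω) : Cnt P E' X Y N := by
  intro ω hω h1
  obtain ⟨F, hF, hm⟩ := h ω hω (hE ω h1)
  exact ⟨F, hF, fun ω' hω' h2 e => hm ω' hω' (hE ω' h2) e⟩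

theorem exc (P : Law Ω) (E : Ω → Prop) {S T : Type} (X : Ω → S) (Y : Ω → T) (N N' δ : ℝ)
    (hN : 1 ≤ N) (hN' : 1 ≤ N') (h : Cnt P E X Y N) (h' : Cnt P (fun _ => True) X Y N')
    (hδ : prE P (fun ω => ¬ E ω) ≤ δ) : hc P X Y ≤ Real.log 2 + Real.log N + δ * Real.log N' := by
  have h1 := two P E X Y N N' hN hN' h (cnt_mono P h' fun _ _ => trivial)
  rw [prE_not] at hδ
  have h2 := Real.log_nonneg hN
  have h3 := Real.log_nonneg hN'
  have h4 := prE_le_one P E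
  nlinarith

theorem fano (P : Law Ω) {T : Type} (t t' : Ω → ℝ) (Y : Ω → T) (r A e : ℝ) (w s : ℕ)
    (hr : 0 < r) (hA : 1 ≤ A) (hs : s ≤ w) (hY : Fn P t' Y) (hd : ∀ ω, 0 < P.w ω → |t ω - t' ω| ≤ A * 2 ^ w * r)
    (he : w * Real.log 2 - e ≤ hc P (fun ω => ⌊t ω / r⌋) Y) :
    prE P (fun ω => |t ω - t' ω| ≤ 2 ^ w / 2 ^ s * r) * (s * Real.log 2) ≤ e + Real.log (14 * A) := by
  have tri : ∀ (B : ℝ) ω ω', 0 < P.w ω → 0 < P.w ω' → Y ω = Y ω' → |t ω - t' ω| ≤ B * r →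
      |t ω' - t' ω'| ≤ B * r → |t ω - t ω'| ≤ (2 * B) * r := by
    intro B ω ω' h1 h2 h3 h4 h5
    rw [← hY ω ω' h1 h2 h3] at h5
    have h6 := abs_le.1 h4
    have h7 := abs_le.1 h5
    rw [abs_le]
    constructor <;> linarith [h6.1, h6.2, h7.1, h7.2]
  have h2s : (1 : ℝ) ≤ 2 ^ w / 2 ^ s := by
    rw [one_le_div (by positivity)]
    exact pow_le_pow_right₀ (by norm_num) hs
  have h2w : (1 : ℝ) ≤ 2 ^ w := one_le_pow₀ (by norm_num)
  have hAw : 1 ≤ A * 2 ^ w := by nlinarith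
  have c1 := flr P (fun ω => |t ω - t' ω| ≤ 2 ^ w / 2 ^ s * r) t Y r (2 * (2 ^ w / 2 ^ s)) hr
    fun ω ω' a b c d f => tri _ ω ω' a b f c d
  have c2 := flr P (fun ω => ¬ |t ω - t' ω| ≤ 2 ^ w / 2 ^ s * r) t Y r (2 * (A * 2 ^ w)) hr
    fun ω ω' a b _ _ f => tri _ ω ω' a b f (hd ω a) (hd ω' b)
  have h1 := two P _ _ Y _ _ (by linarith) (by linarith) c1 c2
  set π := prE P (fun ω => |t ω - t' ω| ≤ 2 ^ w / 2 ^ s * r) with hπ
  have p0 : 0 ≤ π := prE_nonneg P _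
  have p1 : π ≤ 1 := prE_le_one P _
  have l1 : Real.log (2 * (2 * (2 ^ w / 2 ^ s)) + 3) ≤ Real.log 7 + (w * Real.log 2 - s * Real.log 2) := by
    rw [← Real.log_pow, ← Real.log_pow, ← Real.log_div (by positivity) (by positivity),
      ← Real.log_mul (by norm_num) (by positivity)]
    exact Real.log_le_log (by positivity) (by linarith)
  have l2 : Real.log (2 * (2 * (A * 2 ^ w)) + 3) ≤ Real.log 7 + (Real.log A + w * Real.log 2) := by
    rw [← Real.log_pow, ← Real.log_mul (by positivity) (by positivity),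
      ← Real.log_mul (by norm_num) (by positivity)]
    exact Real.log_le_log (by positivity) (by linarith)
  have l3 : Real.log (14 * A) = Real.log 2 + Real.log 7 + Real.log A := by
    rw [← Real.log_mul (by norm_num) (by norm_num), ← Real.log_mul (by norm_num) (by positivity)]
    norm_num
  have l4 := Real.log_nonneg hA
  have m1 := mul_le_mul_of_nonneg_left l1 p0
  have m2 := mul_le_mul_of_nonneg_left l2 (sub_nonneg.2 p1)
  have m3 : (1 - π) * Real.log A ≤ Real.log A := by nlinarith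
  rw [l3]
  nlinarith

end

end Vale.Agent.P076N.TB.TAx
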